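import Vale.Agent.P092.H776.ErgM
import Vale.Agent.P092.SR.Blocks
import Vale.Agent.P092.H160.TightP4

/-!
P092 (helper200), block [HEIGHT] of `SR/Blocks`, in the basis of `Λ`.
-/

set_option linter.all false

open scoped InnerProductSpace
open Filter Topology ContinuousLinearMap

namespace Vale.Agent.P092.H200.HeightL

open Vale.Agent.P092.H160 Vale.Agent.P092.SR Vale.Agent.P092.H776

variable {Γ Λ : Type} [Group Γ] [Group Λ] {α : Γ →* (Ell2 Λ →L[ℂ] Ell2 Λ)}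

/-- `Δ(α g)` on the basis vectors -/
theorem VV_dl (hα : Frame α) (g : Γ) (s t : Λ) :
    HasSum (fun r => (α g (dl 1)) r • (dl (r * s, r * t) : Ell2 (Λ × Λ))) (VV α g (dl (s, t))) := by
  have h1 : (dl (s, t) : Ell2 (Λ × Λ)) = Js (s⁻¹ * t) (dl s) := by
    rw [Js_dl]; congr 2; group
  have h2 : VV α g (dl (s, t)) = Js (s⁻¹ * t) (α g (dl s)) := by
    rw [h1]
    exact congrArg (fun T : Ell2 Λ →L[ℂ] Ell2 (Λ × Λ) => T (dl s)) (Del_Js (α g) (s⁻¹ * t))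
  have h3 : α g (dl s) = rho s⁻¹ (α g (dl 1)) := by
    have h4 : (dl s : Ell2 Λ) = rho s⁻¹ (dl 1) := dl_eq_rho s
    rw [h4]
    exact congrArg (fun T : Ell2 Λ →L[ℂ] Ell2 Λ => T (dl 1)) (hα.comm g s⁻¹)
  rw [h2, h3]
  have h5 := (hasSum_dl (α g (dl 1))).mapL (Js (s⁻¹ * t) ∘L rho s⁻¹)
  have h6 : (fun r => (Js (s⁻¹ * t) ∘L rho s⁻¹) ((α g (dl 1)) r • (dl r : Ell2 Λ))) =
      fun r => (α g (dl 1)) r • (dl (r * s, r * t) : Ell2 (Λ × Λ)) := by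
    funext r
    rw [map_smul]
    congr 1
    change Js (s⁻¹ * t) (rho s⁻¹ (dl r)) = _
    rw [rho_dl, Js_dl]
    congr 2
    · group
    · group
  rw [h6] at h5
  exact h5

/-- Bessel. -/
theorem bes (t : Λ) (u : Ell2 Λ) : Summable (fun r => ‖⟪u, (dl (r * t) : Ell2 Λ)⟫_ℂ‖ ^ 2) ∧
    ∑' r, ‖⟪u, (dl (r * t) : Ell2 Λ)⟫_ℂ‖ ^ 2 ≤ ‖u‖ ^ 2 := by
  have h0 : ∀ x : Λ, ‖⟪u, (dl x : Ell2 Λ)⟫_ℂ‖ = ‖u x‖ := by
    intro x
    rw [← inner_conj_symm, inner_dl, RCLike.norm_conj]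
  have h5 : HasSum (fun x => ‖u x‖ ^ 2) (‖u‖ ^ 2) := by
    rw [norm_sq]
    exact (summable_sq u).hasSum
  have h6 : HasSum (fun r => ‖u (r * t)‖ ^ 2) (‖u‖ ^ 2) :=
    (Equiv.mulRight t).hasSum_iff.mpr h5
  simp only [h0]
  exact ⟨h6.summable, h6.tsum_eq.le⟩

/-- The coefficient bound for elementary tensors. -/
theorem tv_bound (hα : Frame α) {g : Γ} {m : ℝ} (hm : ∀ r, ‖(α g (dl 1)) r‖ ≤ m) (s t : Λ)
    (p q : Ell2 Λ) : ‖⟪tv p q, VV α g (dl (s, t))⟫_ℂ‖ ≤ m * (‖p‖ * ‖q‖) := by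
  have hm0 : 0 ≤ m := (norm_nonneg _).trans (hm 1)
  have h1 : HasSum (fun r => (α g (dl 1)) r *
      (⟪p, (dl (r * s) : Ell2 Λ)⟫_ℂ * ⟪q, (dl (r * t) : Ell2 Λ)⟫_ℂ))
      ⟪tv p q, VV α g (dl (s, t))⟫_ℂ := by
    have h2 := (VV_dl hα g s t).mapL (innerSL ℂ (tv p q))
    have h3 : (fun r => (innerSL ℂ (tv p q)) ((α g (dl 1)) r • (dl (r * s, r * t) :
        Ell2 (Λ × Λ)))) = fun r => (α g (dl 1)) r *
        (⟪p, (dl (r * s) : Ell2 Λ)⟫_ℂ * ⟪q, (dl (r * t) : Ell2 Λ)⟫_ℂ) := by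
      funext r
      rw [map_smul, innerSL_apply_apply, dl_prod, inner_tv, smul_eq_mul]
    rw [h3] at h2
    exact h2
  obtain ⟨s1, l1⟩ := bes s p
  obtain ⟨s2, l2⟩ := bes t q
  have h4 : ∀ F : Finset Λ, ‖∑ r ∈ F, (α g (dl 1)) r * (⟪p, (dl (r * s) : Ell2 Λ)⟫_ℂ *
      ⟪q, (dl (r * t) : Ell2 Λ)⟫_ℂ)‖ ≤ m * (‖p‖ * ‖q‖) := by
    intro F
    have h5 : ‖∑ r ∈ F, (α g (dl 1)) r * (⟪p, (dl (r * s) : Ell2 Λ)⟫_ℂ *
        ⟪q, (dl (r * t) : Ell2 Λ)⟫_ℂ)‖ ≤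
        ∑ r ∈ F, m * (‖⟪p, (dl (r * s) : Ell2 Λ)⟫_ℂ‖ * ‖⟪q, (dl (r * t) : Ell2 Λ)⟫_ℂ‖) := by
      refine (norm_sum_le _ _).trans (Finset.sum_le_sum fun r _ => ?_)
      rw [norm_mul, norm_mul]
      exact mul_le_mul_of_nonneg_right (hm r) (by positivity)
    refine h5.trans ?_
    rw [← Finset.mul_sum]
    refine mul_le_mul_of_nonneg_left ?_ hm0
    have h6 := Finset.sum_mul_sq_le_sq_mul_sq F (fun r => ‖⟪p, (dl (r * s) : Ell2 Λ)⟫_ℂ‖)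
      (fun r => ‖⟪q, (dl (r * t) : Ell2 Λ)⟫_ℂ‖)
    have h7 : ∑ r ∈ F, ‖⟪p, (dl (r * s) : Ell2 Λ)⟫_ℂ‖ ^ 2 ≤ ‖p‖ ^ 2 :=
      (s1.sum_le_tsum F fun _ _ => by positivity).trans l1
    have h8 : ∑ r ∈ F, ‖⟪q, (dl (r * t) : Ell2 Λ)⟫_ℂ‖ ^ 2 ≤ ‖q‖ ^ 2 :=
      (s2.sum_le_tsum F fun _ _ => by positivity).trans l2
    refine abs_le_of_sq_le_sq' ?_ (by positivity) |>.2
    refine h6.trans ?_
    rw [mul_pow]
    exact mul_le_mul h7 h8 (Finset.sum_nonneg fun _ _ => by positivity) (by positivity)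
  exact le_of_tendsto h1.norm (Eventually.of_forall h4)

theorem dl_dense (w : Ell2 (Λ × Λ)) {δ : ℝ} (hδ : 0 < δ) :
    ∃ x ∈ Submodule.span ℂ (Set.range fun p : Λ × Λ => (dl p : Ell2 (Λ × Λ))), ‖w - x‖ < δ := by
  have h1 : (Submodule.span ℂ (Set.range fun p : Λ × Λ =>
      (dl p : Ell2 (Λ × Λ)))).topologicalClosure = ⊤ := by
    rw [Submodule.topologicalClosure_eq_top_iff, Submodule.eq_bot_iff]
    intro v hv
    refine eq_zero_of_inner_dl fun p => ?_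
    rw [Submodule.mem_orthogonal] at hv
    rw [← inner_dl]
    exact hv _ (Submodule.subset_span ⟨p, rfl⟩)
  have h2 : w ∈ closure ((Submodule.span ℂ (Set.range fun p : Λ × Λ =>
      (dl p : Ell2 (Λ × Λ))) : Submodule ℂ (Ell2 (Λ × Λ))) : Set (Ell2 (Λ × Λ))) := by
    rw [← Submodule.topologicalClosure_coe, h1]
    trivial
  obtain ⟨x, hx, hd⟩ := Metric.mem_closure_iff.mp h2 δ hδ
  exact ⟨x, hx, by rwa [dist_eq_norm] at hd⟩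

theorem span_bound_right (hα : Frame α) (x : Ell2 (Λ × Λ))
    (hx : x ∈ Submodule.span ℂ (Set.range fun p : Λ × Λ => (dl p : Ell2 (Λ × Λ)))) :
    ∃ C : ℝ, 0 ≤ C ∧ ∀ (g : Γ) (m : ℝ), (∀ r, ‖(α g (dl 1)) r‖ ≤ m) → ∀ p q : Ell2 Λ,
      ‖⟪tv p q, VV α g x⟫_ℂ‖ ≤ m * C * (‖p‖ * ‖q‖) := by
  induction hx using Submodule.span_induction with
  | mem x hx =>
    obtain ⟨⟨s, t⟩, rfl⟩ := hx
    refine ⟨1, zero_le_one, fun g m hm p q => ?_⟩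
    rw [mul_one]
    exact tv_bound hα hm s t p q
  | zero =>
    refine ⟨0, le_refl _, fun g m hm p q => ?_⟩
    rw [map_zero, inner_zero_right, norm_zero]
    simp
  | add x y _ _ hx hy =>
    obtain ⟨C, hC, h1⟩ := hx
    obtain ⟨D, hD, h2⟩ := hy
    refine ⟨C + D, by positivity, fun g m hm p q => ?_⟩
    rw [map_add, inner_add_right]
    refine (norm_add_le _ _).trans ?_
    have h3 := h1 g m hm p q
    have h4 := h2 g m hm p q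
    calc _ ≤ m * C * (‖p‖ * ‖q‖) + m * D * (‖p‖ * ‖q‖) := add_le_add h3 h4
      _ = _ := by ring
  | smul a x _ hx =>
    obtain ⟨C, hC, h1⟩ := hx
    refine ⟨‖a‖ * C, by positivity, fun g m hm p q => ?_⟩
    rw [map_smul, inner_smul_right, norm_mul]
    have h3 := mul_le_mul_of_nonneg_left (h1 g m hm p q) (norm_nonneg a)
    calc _ ≤ ‖a‖ * (m * C * (‖p‖ * ‖q‖)) := h3
      _ = _ := by ring

/-- The bound on a dense subspace; `T` is any operator which maps basis vectors to elementary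
tensors of vectors of norm at most one. -/
theorem span_bound (hα : Frame α) (x y : Ell2 (Λ × Λ))
    (hx : x ∈ Submodule.span ℂ (Set.range fun p : Λ × Λ => (dl p : Ell2 (Λ × Λ))))
    (hy : y ∈ Submodule.span ℂ (Set.range fun p : Λ × Λ => (dl p : Ell2 (Λ × Λ)))) :
    ∃ C : ℝ, 0 ≤ C ∧ ∀ (g : Γ) (m : ℝ), (∀ r, ‖(α g (dl 1)) r‖ ≤ m) →
      ∀ T : Ell2 (Λ × Λ) →L[ℂ] Ell2 (Λ × Λ),
      (∀ s t, ∃ p q : Ell2 Λ, ‖p‖ ≤ 1 ∧ ‖q‖ ≤ 1 ∧ T (dl (s, t)) = tv p q) →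
      ‖⟪T y, VV α g x⟫_ℂ‖ ≤ m * C := by
  obtain ⟨C, hC, h1⟩ := span_bound_right hα x hx
  induction hy using Submodule.span_induction with
  | mem y hy =>
    obtain ⟨⟨s, t⟩, rfl⟩ := hy
    refine ⟨C, hC, fun g m hm T hT => ?_⟩
    have hm0 : 0 ≤ m := (norm_nonneg _).trans (hm 1)
    obtain ⟨p, q, hp, hq, he⟩ := hT s t
    have h2 := h1 g m hm p q
    change ‖⟪T (dl (s, t)), VV α g x⟫_ℂ‖ ≤ m * C
    rw [he]
    refine h2.trans ?_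
    have h3 : ‖p‖ * ‖q‖ ≤ 1 := by
      calc ‖p‖ * ‖q‖ ≤ 1 * 1 := mul_le_mul hp hq (norm_nonneg _) zero_le_one
        _ = 1 := one_mul 1
    calc m * C * (‖p‖ * ‖q‖) ≤ m * C * 1 := mul_le_mul_of_nonneg_left h3 (by positivity)
      _ = _ := mul_one _
  | zero =>
    refine ⟨0, le_refl _, fun g m hm T hT => ?_⟩
    rw [map_zero, inner_zero_left, norm_zero, mul_zero]
  | add y y' _ _ hy hy' =>
    obtain ⟨C, hC, h1⟩ := hy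
    obtain ⟨D, hD, h2⟩ := hy'
    refine ⟨C + D, by positivity, fun g m hm T hT => ?_⟩
    rw [map_add, inner_add_left]
    refine (norm_add_le _ _).trans ?_
    rw [mul_add]
    exact add_le_add (h1 g m hm T hT) (h2 g m hm T hT)
  | smul c y _ hy =>
    obtain ⟨C, hC, h1⟩ := hy
    refine ⟨‖c‖ * C, by positivity, fun g m hm T hT => ?_⟩
    rw [map_smul, inner_smul_left, norm_mul, RCLike.norm_conj]
    calc _ ≤ ‖c‖ * (m * C) := mul_le_mul_of_nonneg_left (h1 g m hm T hT) (norm_nonneg c)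
      _ = _ := by ring

theorem norm_VV (hα : Frame α) (g : Γ) (x : Ell2 (Λ × Λ)) : ‖VV α g x‖ = ‖x‖ := by
  have h1 : adjoint (VV α g) = VV α g⁻¹ := by
    change adjoint (Del (α g)) = Del (α g⁻¹)
    rw [Del_adjoint, hα.reg.adj]
  have h2 : ⟪VV α g x, VV α g x⟫_ℂ = ⟪x, x⟫_ℂ := by
    rw [← adjoint_inner_right, h1]
    have h3 : VV α g⁻¹ (VV α g x) = x := by
      have : VV α g⁻¹ * VV α g = 1 := by rw [← map_mul, inv_mul_cancel, map_one]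
      exact congrArg (fun T : Ell2 (Λ × Λ) →L[ℂ] Ell2 (Λ × Λ) => T x) this
    rw [h3]
  rw [inner_self_eq_norm_sq_to_K, inner_self_eq_norm_sq_to_K] at h2
  have h4 : ‖VV α g x‖ ^ 2 = ‖x‖ ^ 2 := by exact_mod_cast h2
  exact (pow_left_inj₀ (norm_nonneg _) (norm_nonneg _) two_ne_zero).1 h4

/-- The basic estimate: a uniform overlap of `Δ(α g) w` with `(A ⊗ B) w` bounds the heights. -/
theorem height_of_overlap (hα : Frame α) {w : Ell2 (Λ × Λ)} {κ : ℝ} (hκ : 0 < κ)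
    (h : ∀ g, ∃ T : Ell2 (Λ × Λ) →L[ℂ] Ell2 (Λ × Λ), (∀ v, ‖T v‖ ≤ ‖v‖) ∧
      (∀ s t, ∃ p q : Ell2 Λ, ‖p‖ ≤ 1 ∧ ‖q‖ ≤ 1 ∧ T (dl (s, t)) = tv p q) ∧
      κ ≤ ‖⟪T w, VV α g w⟫_ℂ‖) :
    ∃ c : ℝ, 0 < c ∧ ∀ g, ∃ r, c ≤ ‖(α g (dl 1)) r‖ := by
  obtain ⟨δ, hδ, hδ1⟩ : ∃ δ : ℝ, 0 < δ ∧ δ * ‖w‖ + (‖w‖ + δ) * δ ≤ κ / 2 := by
    refine ⟨min 1 (κ / (4 * (‖w‖ + 1))), lt_min one_pos (by positivity), ?_⟩
    obtain ⟨d, hd⟩ : ∃ d, d = min 1 (κ / (4 * (‖w‖ + 1))) := ⟨_, rfl⟩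
    rw [← hd]
    have h1 : d ≤ 1 := hd ▸ min_le_left _ _
    have h2 : d ≤ κ / (4 * (‖w‖ + 1)) := hd ▸ min_le_right _ _
    have h0 : 0 ≤ d := by rw [hd]; positivity
    rw [le_div_iff₀ (by positivity)] at h2
    nlinarith [norm_nonneg w]
  obtain ⟨x, hx, hwx⟩ := dl_dense w hδ
  obtain ⟨C, hC, hb⟩ := span_bound hα x x hx hx
  refine ⟨κ / (4 * (C + 1)), by positivity, fun g => ?_⟩
  by_contra hcon
  push Not at hcon
  obtain ⟨T, hTn, hT, ha⟩ := h g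
  have h1 := hb g (κ / (4 * (C + 1))) (fun r => (hcon r).le) T hT
  have h2 : ⟪T w, VV α g w⟫_ℂ = ⟪T (w - x), VV α g w⟫_ℂ + ⟪T x, VV α g (w - x)⟫_ℂ +
      ⟪T x, VV α g x⟫_ℂ := by
    rw [map_sub, map_sub, inner_sub_left, inner_sub_right]
    ring
  have h3 : ‖⟪T (w - x), VV α g w⟫_ℂ‖ ≤ δ * ‖w‖ := by
    refine (norm_inner_le_norm _ _).trans ?_
    rw [norm_VV hα]
    exact mul_le_mul ((hTn _).trans hwx.le) le_rfl (norm_nonneg _) hδ.le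
  have hxn : ‖x‖ ≤ ‖w‖ + δ := by
    have h4 : x = w - (w - x) := by abel
    rw [h4]
    refine (norm_sub_le _ _).trans ?_
    linarith
  have h4 : ‖⟪T x, VV α g (w - x)⟫_ℂ‖ ≤ (‖w‖ + δ) * δ := by
    refine (norm_inner_le_norm _ _).trans ?_
    rw [norm_VV hα]
    exact mul_le_mul ((hTn _).trans hxn) hwx.le (norm_nonneg _) (by positivity)
  have h5 : κ / (4 * (C + 1)) * C ≤ κ / 4 := by
    rw [div_mul_eq_mul_div, div_le_div_iff₀ (by positivity) (by positivity)]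
    nlinarith
  have h6 : κ ≤ κ / 2 + κ / 4 := by
    calc κ ≤ ‖⟪T w, VV α g w⟫_ℂ‖ := ha
      _ ≤ ‖⟪T (w - x), VV α g w⟫_ℂ‖ + ‖⟪T x, VV α g (w - x)⟫_ℂ‖ + ‖⟪T x, VV α g x⟫_ℂ‖ := by
        rw [h2]
        exact (norm_add_le _ _).trans (add_le_add_left (norm_add_le _ _) _)
      _ ≤ κ / 2 + κ / 4 := by linarith
  linarith

/-- `∑_s |(α g δ_1)(s)|⁴ ≥ c⁴` if one coefficient is at least `c`. -/
theorem p4_ge (hα : Frame α) {c : ℝ} (hc : 0 ≤ c) {g : Γ} {r : Λ}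
    (h : c ≤ ‖(α g (dl 1)) r‖) : c ^ 4 ≤ p4 α g := by
  have h1 : ‖α g (dl 1)‖ = 1 := by rw [hα.reg.norm_map, norm_dl]
  have h2 := (summable_p4 _ h1).le_tsum r fun _ _ => by positivity
  exact (pow_le_pow_left₀ hc h 4).trans h2

theorem norm_RR (hα : Frame α) (a b : Γ) (v : Ell2 (Λ × Λ)) :
    ‖RR₁ α a (RR₂ α b v)‖ = ‖v‖ := by
  have h2 := (regRep_RRR hα).norm_map (a, b) v
  rw [RRR_apply] at h2
  exact h2

theorem RR_dl (hα : Frame α) (a b : Γ) (s t : Λ) : ∃ p q : Ell2 Λ, ‖p‖ ≤ 1 ∧ ‖q‖ ≤ 1 ∧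
    (RR₁ α a * RR₂ α b) (dl (s, t)) = tv p q := by
  refine ⟨JJ (α a) (dl s), JJ (α b) (dl t), ?_, ?_, ?_⟩
  · have h2 := (regRep_JA hα).norm_map a (dl s : Ell2 Λ)
    rw [norm_dl] at h2
    exact h2.le
  · have h2 := (regRep_JA hα).norm_map b (dl t : Ell2 Λ)
    rw [norm_dl] at h2
    exact h2.le
  · have h1 : RR₂ α b (dl (s, t)) = tv (dl s) (JJ (α b) (dl t)) :=
      tens_dl (1 : Ell2 Λ →L[ℂ] Ell2 Λ) (JJ (α b)) s t
    have h2 : RR₁ α a (tv (dl s) (JJ (α b) (dl t))) = tv (JJ (α a) (dl s)) (JJ (α b) (dl t)) :=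
      tens_tv (JJ (α a)) (1 : Ell2 Λ →L[ℂ] Ell2 Λ) (dl s) (JJ (α b) (dl t))
    rw [ContinuousLinearMap.mul_def, ContinuousLinearMap.comp_apply, h1, h2]

theorem overlap_one (hα : Frame α) {w : Ell2 (Λ × Λ)} (hw : ‖w‖ = 1) {g a b : Γ} {z : ℂ}
    (hz : ‖z‖ = 1) (he : VV α g w = z • RR₁ α a (RR₂ α b w)) :
    1 ≤ ‖⟪(RR₁ α a * RR₂ α b) w, VV α g w⟫_ℂ‖ := by
  have h3 := norm_RR hα a b w
  have h2 : (RR₁ α a * RR₂ α b) w = RR₁ α a (RR₂ α b w) := rfl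
  rw [he, h2, inner_smul_right, norm_mul, hz, one_mul, inner_self_eq_norm_sq_to_K, h3, hw]
  simp

/-- **[HEIGHT]** -/
theorem heightStmt : HeightStmt := by
  intro Γ Λ _ _ α hα w hw h
  have h0 : ∀ g, ∃ T : Ell2 (Λ × Λ) →L[ℂ] Ell2 (Λ × Λ), (∀ v, ‖T v‖ ≤ ‖v‖) ∧
      (∀ s t, ∃ p q : Ell2 Λ, ‖p‖ ≤ 1 ∧ ‖q‖ ≤ 1 ∧ T (dl (s, t)) = tv p q) ∧
      1 ≤ ‖⟪T w, VV α g w⟫_ℂ‖ := by
    intro g
    obtain ⟨a, b, z, hz, he⟩ := h g
    exact ⟨RR₁ α a * RR₂ α b, fun v => (norm_RR hα a b v).le, RR_dl hα a b,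
      overlap_one hα hw hz he⟩
  obtain ⟨c, hc, h1⟩ := height_of_overlap hα one_pos h0
  exact ⟨c ^ 4, by positivity, fun g => by
    obtain ⟨r, hr⟩ := h1 g
    exact p4_ge hα hc.le hr⟩

end Vale.Agent.P092.H200.HeightL
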