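import Vale.Agent.P092.H200.Sp

/-!
P092 (helper200): groups containing `r` pairwise commuting nonamenable subgroups and an infinite
subgroup commuting with all of them (`Multi r`).
-/

namespace Vale.Agent.P092.H200

open Matrix

/-- `Λ` contains `r` pairwise commuting nonamenable subgroups and an infinite subgroup commuting
with all of them. -/
def Multi (r : ℕ) (Λ : Type) [Group Λ] : Prop :=
  ∃ (K : Fin r → Subgroup Λ) (C : Subgroup Λ), (∀ i, NoMean (K i)) ∧
    (∀ i j, i ≠ j → ∀ v ∈ K i, ∀ w ∈ K j, v * w = w * v) ∧ Infinite C ∧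
    ∀ i, ∀ v ∈ K i, ∀ w ∈ C, v * w = w * v

section

variable {Λ : Type} [Group Λ]

/-- a nonamenable group is infinite -/
theorem NoMean.infinite {K : Subgroup Λ} (h : NoMean K) : Infinite K := by
  classical
  by_contra hfin
  rw [not_infinite_iff_finite] at hfin
  have := Fintype.ofFinite K
  have hpos : (0 : ℝ) < Fintype.card K := by exact_mod_cast Fintype.card_pos
  refine h ⟨fun A => ((Finset.univ.filter fun k : K => (k : Λ) ∈ A).card : ℝ) / Fintype.card K, ?_⟩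
  refine ⟨fun A => by positivity, ?_, ?_, ?_⟩
  · simp only [Set.mem_univ, Finset.filter_true]
    rw [Finset.card_univ]
    exact div_self hpos.ne'
  · intro A B hAB
    rw [← add_div, ← Nat.cast_add, ← Finset.card_union_of_disjoint]
    · congr 3
      ext k
      simp
    · rw [Finset.disjoint_left]
      intro k hk hk'
      simp only [Finset.mem_filter, Finset.mem_univ, true_and] at hk hk'
      exact Set.disjoint_left.mp hAB hk hk'
  · intro A v hv
    congr 2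
    refine Finset.card_bij (fun k _ => k * ⟨v, hv⟩) ?_ ?_ ?_
    · intro k hk
      simpa using hk
    · intro a _ b _ e
      exact mul_right_cancel e
    · intro k hk
      refine ⟨k * ⟨v, hv⟩⁻¹, ?_, by simp⟩
      simpa using hk

/-- `Multi` passes to all overgroups -/
theorem Multi.of_injective {Λ' : Type} [Group Λ'] {r : ℕ} (h : Multi r Λ) (φ : Λ →* Λ')
    (hφ : Function.Injective φ) : Multi r Λ' := by
  obtain ⟨K, C, h1, h2, h3, h4⟩ := h
  refine ⟨fun i => (K i).map φ, C.map φ, fun i => (h1 i).map φ hφ, ?_, ?_, ?_⟩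
  · rintro i j hij _ ⟨v, hv, rfl⟩ _ ⟨w, hw, rfl⟩
    rw [← map_mul, h2 i j hij v hv w hw, map_mul]
  · exact Infinite.of_injective _ (C.equivMapOfInjective φ hφ).injective
  · rintro i _ ⟨v, hv, rfl⟩ _ ⟨w, hw, rfl⟩
    rw [← map_mul, h4 i v hv w hw, map_mul]

/-- overgroups, subgroup form -/
theorem Multi.of_subgroup {r : ℕ} (Λ₀ : Subgroup Λ) (h : Multi r Λ₀) : Multi r Λ :=
  h.of_injective Λ₀.subtype Λ₀.subtype_injective

theorem Multi.mono {r r' : ℕ} (h : Multi r Λ) (hr : r' ≤ r) : Multi r' Λ := by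
  obtain ⟨K, C, h1, h2, h3, h4⟩ := h
  refine ⟨fun i => K (Fin.castLE hr i), C, fun _ => h1 _, ?_, h3, fun _ => h4 _⟩
  intro i j hij
  exact h2 _ _ (fun e => hij (Fin.castLE_injective hr e))

/-- `r + 1` commuting nonamenable subgroups -/
theorem Multi.of_commuting {r : ℕ} (K : Fin (r + 1) → Subgroup Λ) (h1 : ∀ i, NoMean (K i))
    (h2 : ∀ i j, i ≠ j → ∀ v ∈ K i, ∀ w ∈ K j, v * w = w * v) : Multi r Λ :=
  ⟨fun i => K i.castSucc, K (Fin.last r), fun _ => h1 _,
    fun _ _ hij => h2 _ _ (fun e => hij (Fin.castSucc_injective r e)), (h1 _).infinite,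
    fun i => h2 _ _ (Fin.castSucc_lt_last i).ne⟩

/-- subgroups generated by commuting sets commute -/
theorem closure_commute {X Y : Set Λ} (h : ∀ x ∈ X, ∀ y ∈ Y, x * y = y * x) :
    ∀ v ∈ Subgroup.closure X, ∀ w ∈ Subgroup.closure Y, v * w = w * v := by
  have hcl : Subgroup.closure X ≤ Subgroup.centralizer (Subgroup.closure Y : Set Λ) := by
    refine (Subgroup.closure_le _).mpr ?_
    intro g hg
    rw [SetLike.mem_coe, Subgroup.mem_centralizer_iff]
    have hcl2 : Subgroup.closure Y ≤ Subgroup.centralizer {g} := by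
      refine (Subgroup.closure_le _).mpr ?_
      intro u hu
      rw [SetLike.mem_coe, Subgroup.mem_centralizer_iff]
      intro x hx
      rw [Set.mem_singleton_iff.mp hx]
      exact h g hg u hu
    intro u hu
    exact (Subgroup.mem_centralizer_iff.mp (hcl2 hu) g rfl).symm
  intro v hv w hw
  exact (Subgroup.mem_centralizer_iff.mp (hcl hv) w hw).symm

/-- `r + 1` commuting sets generating nonamenable subgroups -/
theorem Multi.of_sets {r : ℕ} (X : Fin (r + 1) → Set Λ)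
    (h1 : ∀ i, NoMean (Subgroup.closure (X i)))
    (h2 : ∀ i j, i ≠ j → ∀ x ∈ X i, ∀ y ∈ X j, x * y = y * x) : Multi r Λ :=
  Multi.of_commuting (fun i => Subgroup.closure (X i)) h1
    (fun i j hij => closure_commute (h2 i j hij))

end

/-- **Products** of `r + 1` nonamenable groups. -/
theorem multi_pi {r : ℕ} (L : Fin (r + 1) → Type) [∀ i, Group (L i)]
    (h : ∀ i, ¬ ∃ m, IsInvMean (⊤ : Subgroup (L i)) m) : Multi r (∀ i, L i) := by
  classical
  refine Multi.of_commuting (fun i => (⊤ : Subgroup (L i)).map (MonoidHom.mulSingle L i)) ?_ ?_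
  · intro i
    exact NoMean.map _ (Pi.mulSingle_injective i) (h i)
  · rintro i j hij _ ⟨v, -, rfl⟩ _ ⟨w, -, rfl⟩
    exact (Pi.mulSingle_commute hij v w)

/-- **every group containing `F₂ ^ (r + 1)`** -/
theorem multi_free {r : ℕ} {Λ : Type} [Group Λ] (φ : (Fin (r + 1) → FreeGroup (Fin 2)) →* Λ)
    (hφ : Function.Injective φ) : Multi r Λ :=
  (multi_pi (fun _ => FreeGroup (Fin 2)) (fun _ => noMean_free)).of_injective φ hφ

/-- Products of `r` nonamenable groups and one infinite group. -/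
theorem multi_prod {r : ℕ} (L : Fin r → Type) [∀ i, Group (L i)] (C : Type) [Group C] [Infinite C]
    (h : ∀ i, ¬ ∃ m, IsInvMean (⊤ : Subgroup (L i)) m) : Multi r ((∀ i, L i) × C) := by
  classical
  have hinr : Function.Injective (MonoidHom.inr (∀ i, L i) C) := fun a b h => (Prod.mk.inj h).2
  have hinl : Function.Injective (MonoidHom.inl (∀ i, L i) C) := fun a b h => (Prod.mk.inj h).1
  refine ⟨fun i => (⊤ : Subgroup (L i)).map ((MonoidHom.inl (∀ i, L i) C).comp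
    (MonoidHom.mulSingle L i)), (⊤ : Subgroup C).map (MonoidHom.inr (∀ i, L i) C), ?_, ?_, ?_, ?_⟩
  · intro i
    have h0 : NoMean (⊤ : Subgroup (L i)) := h i
    refine h0.map ((MonoidHom.inl (∀ i, L i) C).comp (MonoidHom.mulSingle L i)) ?_
    exact hinl.comp (Pi.mulSingle_injective i)
  · rintro i j hij _ ⟨v, -, rfl⟩ _ ⟨w, -, rfl⟩
    show (MonoidHom.inl (∀ i, L i) C) (Pi.mulSingle i v) * (MonoidHom.inl (∀ i, L i) C)
      (Pi.mulSingle j w) = _
    rw [← map_mul, Pi.mulSingle_commute hij v w, map_mul]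
    rfl
  · exact Infinite.of_injective (fun c : C => (⟨(1, c), c, trivial, rfl⟩ :
      (⊤ : Subgroup C).map (MonoidHom.inr (∀ i, L i) C)))
      (fun a b e => (Prod.mk.inj (congrArg Subtype.val e)).2)
  · rintro i _ ⟨v, -, rfl⟩ _ ⟨w, -, rfl⟩
    ext <;> simp

/-- index `2 i` of block `i` -/
def bl {r m : ℕ} (h : 2 * r + 2 ≤ m) (i : Fin (r + 1)) : Fin m := ⟨2 * i, by omega⟩
/-- index `2 i + 1` of block `i` -/
def br {r m : ℕ} (h : 2 * r + 2 ≤ m) (i : Fin (r + 1)) : Fin m := ⟨2 * i + 1, by omega⟩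

theorem bl_ne_br {r m : ℕ} (h : 2 * r + 2 ≤ m) (i j : Fin (r + 1)) : bl h i ≠ br h j := by
  simp only [bl, br, ne_eq, Fin.mk.injEq]; omega

theorem bl_ne {r m : ℕ} (h : 2 * r + 2 ≤ m) {i j : Fin (r + 1)} (hij : i ≠ j) :
    bl h i ≠ bl h j := by
  simp only [bl, ne_eq, Fin.mk.injEq]
  intro e
  exact hij (Fin.ext (by omega))

theorem br_ne {r m : ℕ} (h : 2 * r + 2 ≤ m) {i j : Fin (r + 1)} (hij : i ≠ j) :
    br h i ≠ br h j := by
  simp only [br, ne_eq, Fin.mk.injEq]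
  intro e
  exact hij (Fin.ext (by omega))

/-- **finite-index subgroups of `SL_m(ℤ)`, `m ≥ 2 r + 2`** -/
theorem multi_sl_finiteIndex (r m : ℕ) (hm : 2 * r + 2 ≤ m)
    (Λ : Subgroup (SpecialLinearGroup (Fin m) ℤ)) [hΛ : Λ.FiniteIndex] : Multi r Λ := by
  obtain ⟨q, hq, hqΛ⟩ := exists_Elq_le Λ
  let e : ∀ i j (_ : i ≠ j) (c : ℤ), Λ :=
    fun i j h c => ⟨el i j h (q * c), hqΛ (el_mem_Elq' i j h (Dvd.intro _ rfl))⟩
  have ecomm : ∀ {i j i' j' : Fin m} (h : i ≠ j) (h' : i' ≠ j') (_ : j ≠ i') (_ : j' ≠ i)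
      (c d : ℤ), e i j h c * e i' j' h' d = e i' j' h' d * e i j h c :=
    fun h h' h1 h2 c d => Subtype.ext (el_comm h h' h1 h2 _ _)
  refine Multi.of_sets (fun i => {g | ∃ c, g = e (bl hm i) (br hm i) (bl_ne_br hm i i) c} ∪
    {g | ∃ c, g = e (br hm i) (bl hm i) (bl_ne_br hm i i).symm c}) ?_ ?_
  · intro i
    have key : NoMean ((Subgroup.closure ({g | ∃ c, g = e (bl hm i) (br hm i) (bl_ne_br hm i i) c} ∪
      {g | ∃ c, g = e (br hm i) (bl hm i) (bl_ne_br hm i i).symm c})).map Λ.subtype) := by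
      refine no_mean_block_mul (bl hm i) (br hm i) (bl_ne_br hm i i) q hq _ ?_ ?_
      · intro c
        exact ⟨_, Subgroup.subset_closure (Or.inl ⟨c, rfl⟩), rfl⟩
      · intro c
        exact ⟨_, Subgroup.subset_closure (Or.inr ⟨c, rfl⟩), rfl⟩
    intro ⟨μ, hμ⟩
    exact key ⟨_, hμ.image Λ.subtype⟩
  · rintro i j hij x (⟨c, rfl⟩ | ⟨c, rfl⟩) y (⟨d, rfl⟩ | ⟨d, rfl⟩)
    · exact ecomm _ _ (bl_ne_br hm j i).symm (bl_ne_br hm i j).symm _ _
    · exact ecomm _ _ (br_ne hm hij) (bl_ne hm hij.symm) _ _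
    · exact ecomm _ _ (bl_ne hm hij) (br_ne hm hij.symm) _ _
    · exact ecomm _ _ (bl_ne_br hm i j) (bl_ne_br hm j i) _ _

/-- `SL_m(ℤ)`, `m ≥ 2 r + 2` -/
theorem multi_sl (r m : ℕ) (hm : 2 * r + 2 ≤ m) : Multi r (SpecialLinearGroup (Fin m) ℤ) :=
  Multi.of_subgroup ⊤ (multi_sl_finiteIndex r m hm ⊤)

/-- `EL_m(R)`, `m ≥ 2 r + 2`, `R` any ring of characteristic zero -/
theorem multi_EL (r m : ℕ) (hm : 2 * r + 2 ≤ m) (R : Type) [Ring R] [CharZero R] :
    Multi r (EL m R) := by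
  refine Multi.of_sets (fun i => {g | ∃ c : ℤ, g = ee (bl hm i) (br hm i) (bl_ne_br hm i i) (c : R)} ∪
    {g | ∃ c : ℤ, g = ee (br hm i) (bl hm i) (bl_ne_br hm i i).symm (c : R)}) ?_ ?_
  · intro i
    exact no_mean_block_EL (bl hm i) (br hm i) (bl_ne_br hm i i) _
      (fun c => Subgroup.subset_closure (Or.inl ⟨c, rfl⟩))
      (fun c => Subgroup.subset_closure (Or.inr ⟨c, rfl⟩))
  · rintro i j hij x (⟨c, rfl⟩ | ⟨c, rfl⟩) y (⟨d, rfl⟩ | ⟨d, rfl⟩)
    · exact ee_comm _ _ (bl_ne_br hm j i).symm (bl_ne_br hm i j).symm _ _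
    · exact ee_comm _ _ (br_ne hm hij) (bl_ne hm hij.symm) _ _
    · exact ee_comm _ _ (bl_ne hm hij) (br_ne hm hij.symm) _ _
    · exact ee_comm _ _ (bl_ne_br hm i j) (bl_ne_br hm j i) _ _

/-- **finite-index subgroups of `Sp_2m(ℤ)`, `m ≥ r + 1`** -/
theorem multi_sp_finiteIndex (r m : ℕ) (hm : r + 1 ≤ m) (Λ : Subgroup (SpZ m))
    [hΛ : Λ.FiniteIndex] : Multi r Λ := by
  obtain ⟨q, hq, hx, hy⟩ : ∃ q : ℤ, q ≠ 0 ∧ (∀ (i : Fin m) (c : ℤ), lx i (q * c) ∈ Λ) ∧
      ∀ (i : Fin m) (c : ℤ), ly i (q * c) ∈ Λ := by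
    refine ⟨(Λ.normalCore.index : ℤ), ?_, ?_, ?_⟩
    · have : Λ.normalCore.FiniteIndex := inferInstance
      exact_mod_cast this.index_ne_zero
    · intro i c
      have h1 : lx i c ^ Λ.normalCore.index ∈ Λ.normalCore := Subgroup.pow_index_mem _ _
      rw [lx_pow] at h1
      exact Subgroup.normalCore_le _ h1
    · intro i c
      have h1 : ly i c ^ Λ.normalCore.index ∈ Λ.normalCore := Subgroup.pow_index_mem _ _
      rw [ly_pow] at h1
      exact Subgroup.normalCore_le _ h1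
  let x : Fin m → ℤ → Λ := fun i c => ⟨lx i (q * c), hx i c⟩
  let y : Fin m → ℤ → Λ := fun i c => ⟨ly i (q * c), hy i c⟩
  let f : Fin (r + 1) → Fin m := Fin.castLE hm
  have hf : ∀ i j, i ≠ j → f i ≠ f j := fun i j hij e => hij (Fin.castLE_injective hm e)
  refine Multi.of_sets (fun i => {g | ∃ c, g = x (f i) c} ∪ {g | ∃ c, g = y (f i) c}) ?_ ?_
  · intro i
    refine noMean_transv ((spMat m).comp Λ.subtype) (Sum.inl (f i)) (Sum.inr (f i)) (lr_ne _) q hq
      _ ?_ ?_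
    · intro c
      exact ⟨x (f i) c, Subgroup.subset_closure (Or.inl ⟨c, rfl⟩), rfl⟩
    · intro c
      exact ⟨y (f i) c, Subgroup.subset_closure (Or.inr ⟨c, rfl⟩), rfl⟩
  · rintro i j hij u (⟨c, rfl⟩ | ⟨c, rfl⟩) v (⟨d, rfl⟩ | ⟨d, rfl⟩)
    · exact Subtype.ext (lx_comm_lx _ _ (hf i j hij) _ _)
    · exact Subtype.ext (lx_comm_ly _ _ (hf i j hij) _ _)
    · exact Subtype.ext (lx_comm_ly _ _ (hf i j hij).symm _ _).symm
    · exact Subtype.ext (ly_comm_ly _ _ (hf i j hij) _ _)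

/-- `Sp_2m(ℤ)`, `m ≥ r + 1` -/
theorem multi_sp (r m : ℕ) (hm : r + 1 ≤ m) : Multi r (SpZ m) :=
  Multi.of_subgroup ⊤ (multi_sp_finiteIndex r m hm ⊤)

end Vale.Agent.P092.H200
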