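import Mathlib

/-!
P092 (helper200): finitely additive means on a group, invariant under right multiplication by a
subgroup, and criteria for their non-existence.
-/

namespace Vale.Agent.P092.H200

/-- `m` is a finitely additive probability measure on all subsets of `Λ`, invariant under right
multiplication by the elements of `K`. -/
structure IsInvMean {Λ : Type} [Group Λ] (K : Subgroup Λ) (m : Set Λ → ℝ) : Prop where
  nonneg : ∀ A, 0 ≤ m A
  univ : m Set.univ = 1
  add : ∀ A B, Disjoint A B → m (A ∪ B) = m A + m B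
  inv : ∀ A, ∀ v ∈ K, m {w | w * v ∈ A} = m A

namespace IsInvMean

variable {Λ : Type} [Group Λ] {K : Subgroup Λ} {m : Set Λ → ℝ}

theorem mono (hm : IsInvMean K m) {A B : Set Λ} (h : A ⊆ B) : m A ≤ m B := by
  have h1 := hm.add A (B \ A) Set.disjoint_sdiff_right
  rw [Set.union_sdiff_cancel h] at h1
  have := hm.nonneg (B \ A)
  linarith

theorem empty (hm : IsInvMean K m) : m ∅ = 0 := by
  have h1 := hm.add ∅ ∅ (by simp)
  simp at h1
  exact h1

theorem union_le (hm : IsInvMean K m) (A B : Set Λ) : m (A ∪ B) ≤ m A + m B := by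
  have h1 := hm.add A (B \ A) Set.disjoint_sdiff_right
  rw [Set.union_sdiff_self] at h1
  have := hm.mono (Set.sdiff_subset : B \ A ⊆ B)
  linarith

theorem le_one (hm : IsInvMean K m) (A : Set Λ) : m A ≤ 1 := by
  rw [← hm.univ]; exact hm.mono (Set.subset_univ A)

theorem mono_subgroup (hm : IsInvMean K m) {K' : Subgroup Λ} (h : K' ≤ K) : IsInvMean K' m :=
  ⟨hm.nonneg, hm.univ, hm.add, fun A v hv => hm.inv A v (h hv)⟩

/-- a set with infinitely many disjoint translates has mean zero -/
theorem eq_zero_of_disjoint (hm : IsInvMean K m) (E : Set Λ) (v : ℕ → Λ) (hv : ∀ k, v k ∈ K)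
    (hd : ∀ k l, k ≠ l → ∀ w, w * v k ∈ E → w * v l ∈ E → False) : m E = 0 := by
  have key : ∀ N : ℕ, m (⋃ k ∈ Finset.range N, {w | w * v k ∈ E}) = N * m E := by
    intro N
    induction N with
    | zero => simp [hm.empty]
    | succ N ih =>
      rw [Finset.range_add_one, Finset.set_biUnion_insert, hm.add, hm.inv _ _ (hv N), ih]
      · push_cast; ring
      · rw [Set.disjoint_left]
        intro w hw hw'
        simp only [Finset.mem_range, Set.mem_iUnion, Set.mem_ofPred_eq, exists_prop] at hw hw'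
        obtain ⟨k, hk, hk'⟩ := hw'
        exact hd k N hk.ne w hk' hw
  by_contra hne
  have hpos : 0 < m E := lt_of_le_of_ne (hm.nonneg E) (Ne.symm hne)
  obtain ⟨N, hN⟩ := exists_nat_gt (1 / m E)
  have h1 := hm.le_one (⋃ k ∈ Finset.range N, {w | w * v k ∈ E})
  rw [key N] at h1
  rw [div_lt_iff₀ hpos] at hN
  linarith

/-- two sets covering the group, each with infinitely many disjoint translates: no mean -/
theorem false_of_two (hm : IsInvMean K m) (E F : Set Λ) (hEF : ∀ w, w ∈ E ∨ w ∈ F)
    (v v' : ℕ → Λ) (hv : ∀ k, v k ∈ K) (hv' : ∀ k, v' k ∈ K)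
    (hd : ∀ k l, k ≠ l → ∀ w, w * v k ∈ E → w * v l ∈ E → False)
    (hd' : ∀ k l, k ≠ l → ∀ w, w * v' k ∈ F → w * v' l ∈ F → False) : False := by
  have h1 := hm.eq_zero_of_disjoint E v hv hd
  have h2 := hm.eq_zero_of_disjoint F v' hv' hd'
  have h3 := hm.union_le E F
  have h4 : E ∪ F = Set.univ := by ext w; simpa using hEF w
  rw [h4, hm.univ] at h3
  linarith

end IsInvMean

end Vale.Agent.P092.H200
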