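import Vale.Agent.P092.H200.Quot

/-!
P092 (helper200), block P8: the list of examples of groups containing two commuting nonamenable
subgroups, to be combined with `no_iso_of_split`.
-/

namespace Vale.Agent.P092.H200

open Matrix

/-- finite-index subgroups of a quotient by a finite normal subgroup -/
theorem split_of_finiteIndex_quotient {Λ : Type} [Group Λ] (N : Subgroup Λ) [N.Normal]
    [Finite N] (h : ∀ Λ₀ : Subgroup Λ, Λ₀.FiniteIndex → Split Λ₀) (L : Subgroup (Λ ⧸ N))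
    [hL : L.FiniteIndex] : Split L := by
  have hfi : (L.comap (QuotientGroup.mk' N)).FiniteIndex := by
    constructor
    rw [Subgroup.index_comap_of_surjective _ (QuotientGroup.mk'_surjective N)]
    exact hL.index_ne_zero
  refine (h _ hfi).of_finite_ker ((QuotientGroup.mk' N).subgroupComap L) ?_
  refine Finite.of_injective (fun x : ((QuotientGroup.mk' N).subgroupComap L).ker =>
    (⟨(x : L.comap (QuotientGroup.mk' N)), ?_⟩ : N)) ?_
  · have := congrArg Subtype.val (MonoidHom.mem_ker.mp x.2)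
    exact (QuotientGroup.eq_one_iff _).mp this
  · intro a b e
    exact Subtype.ext (Subtype.ext (congrArg (fun t : N => (t : Λ)) e))

/-- **`PSL_n(ℤ)` and its finite-index subgroups**, `n ≥ 4` -/
theorem split_psl_finiteIndex (n : ℕ) (hn : 4 ≤ n)
    (L : Subgroup (ProjectiveSpecialLinearGroup (Fin n) ℤ)) [L.FiniteIndex] : Split L := by
  have := center_sl_finite n (by omega)
  exact split_of_finiteIndex_quotient _ (fun Λ₀ h => split_finiteIndex n hn Λ₀) L

/-- **`PSp_2n(ℤ)` and its finite-index subgroups**, `n ≥ 2` -/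
theorem split_psp_finiteIndex (n : ℕ) (hn : 2 ≤ n)
    (L : Subgroup (SpZ n ⧸ Subgroup.center (SpZ n))) [L.FiniteIndex] : Split L := by
  have := center_sp_finite n
  exact split_of_finiteIndex_quotient _ (fun Λ₀ h => split_sp_finiteIndex n hn Λ₀) L

/-- **P8**: whatever holds for all `Split` groups holds for the following groups. -/
theorem split_families (P : (Λ : Type) → [Group Λ] → Prop)
    (hP : ∀ (Λ : Type) [Group Λ], Split Λ → P Λ) :
    (∀ n : ℕ, 4 ≤ n → ∀ Λ : Subgroup (SpecialLinearGroup (Fin n) ℤ), Λ.FiniteIndex → P Λ) ∧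
    (∀ n : ℕ, 4 ≤ n → ∀ Λ : Subgroup (ProjectiveSpecialLinearGroup (Fin n) ℤ),
      Λ.FiniteIndex → P Λ) ∧
    (∀ n : ℕ, 2 ≤ n → ∀ Λ : Subgroup (symplecticGroup (Fin n) ℤ), Λ.FiniteIndex → P Λ) ∧
    (∀ n : ℕ, 2 ≤ n → ∀ Λ : Subgroup (symplecticGroup (Fin n) ℤ ⧸
      Subgroup.center (symplecticGroup (Fin n) ℤ)), Λ.FiniteIndex → P Λ) ∧
    (∀ (Λ : Type) [Group Λ] (φ : FreeGroup (Fin 2) × FreeGroup (Fin 2) →* Λ),
      Function.Injective φ → P Λ) := by
  refine ⟨fun n hn Λ hΛ => hP _ (split_finiteIndex n hn Λ),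
    fun n hn Λ hΛ => hP _ (split_psl_finiteIndex n hn Λ),
    fun n hn Λ hΛ => hP _ (split_sp_finiteIndex n hn Λ),
    fun n hn Λ hΛ => hP _ (split_psp_finiteIndex n hn Λ), ?_⟩
  intro Λ _ φ hφ
  exact hP _ (split_of_F2F2 φ hφ)

/-- whatever holds for all `Multi r` groups holds for the following groups. -/
theorem multi_families (r : ℕ) (P : (Λ : Type) → [Group Λ] → Prop)
    (hP : ∀ (Λ : Type) [Group Λ], Multi r Λ → P Λ) :
    (∀ m : ℕ, 2 * r + 2 ≤ m → ∀ Λ : Subgroup (SpecialLinearGroup (Fin m) ℤ),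
      Λ.FiniteIndex → P Λ) ∧
    (∀ m : ℕ, 2 * r + 2 ≤ m → ∀ Λ : Subgroup (ProjectiveSpecialLinearGroup (Fin m) ℤ),
      Λ.FiniteIndex → P Λ) ∧
    (∀ m : ℕ, r + 1 ≤ m → ∀ Λ : Subgroup (symplecticGroup (Fin m) ℤ), Λ.FiniteIndex → P Λ) ∧
    (∀ m : ℕ, r + 1 ≤ m → ∀ Λ : Subgroup (symplecticGroup (Fin m) ℤ ⧸
      Subgroup.center (symplecticGroup (Fin m) ℤ)), Λ.FiniteIndex → P Λ) ∧
    (∀ (Λ : Type) [Group Λ] (φ : (Fin (r + 1) → FreeGroup (Fin 2)) →* Λ),
      Function.Injective φ → P Λ) := by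
  refine ⟨fun m hm Λ hΛ => hP _ (multi_sl_finiteIndex r m hm Λ),
    fun m hm Λ hΛ => hP _ (multi_psl_finiteIndex r m hm Λ),
    fun m hm Λ hΛ => hP _ (multi_sp_finiteIndex r m hm Λ),
    fun m hm Λ hΛ => hP _ (multi_psp_finiteIndex r m hm Λ), ?_⟩
  intro Λ _ φ hφ
  exact hP _ (multi_free φ hφ)

end Vale.Agent.P092.H200
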