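import Vale.Agent.P092.H729.TAB
import Vale.Agent.P092.H432.TA.Spec

/-!
# Theorem A of Project B, block TA-3: the cover of a minimal projection is not everything
-/

set_option autoImplicit false

namespace Vale.Agent.P092.H200.TA3

open scoped InnerProductSpace
open Vale.Agent.P092.H432.TA
open Vale.Agent.P092.H729

variable {H : Type*} [NormedAddCommGroup H] [InnerProductSpace ℂ H] [CompleteSpace H]
variable {A B : Type*} [Group A] [Group B]
variable {S : A →* (H →L[ℂ] H)} {R : B →* (H →L[ℂ] H)} {W : Set (H →L[ℂ] H)}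
variable {cA : Set (Subgroup A)} {cB : Set (Subgroup B)}

/-! ### The algebra `QV` -/

theorem QV_mul (hA : GIn cA) {V : Subgroup B} {x y : H →L[ℂ] H} (hx : x ∈ QV S R W cA V)
    (hy : y ∈ QV S R W cA V) : x * y ∈ QV S R W cA V := by
  obtain ⟨U, hU, hx⟩ := hx
  obtain ⟨U', hU', hy⟩ := hy
  exact ⟨U ⊓ U', hA.inf U hU U' hU', Q_mul (Q_mono inf_le_left le_rfl hx)
    (Q_mono inf_le_right le_rfl hy)⟩

theorem QV_star (h : Sys S R W) {V : Subgroup B} {x : H →L[ℂ] H} (hx : x ∈ QV S R W cA V) :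
    star x ∈ QV S R W cA V := by
  obtain ⟨U, hU, hx⟩ := hx
  exact ⟨U, hU, Q_star h hx⟩

theorem QV_smul {V : Subgroup B} {x : H →L[ℂ] H} (c : ℂ) (hx : x ∈ QV S R W cA V) :
    c • x ∈ QV S R W cA V := by
  obtain ⟨U, hU, hx⟩ := hx
  exact ⟨U, hU, Q_smul c hx⟩

theorem QV_one (hA : GIn cA) {V : Subgroup B} : (1 : H →L[ℂ] H) ∈ QV S R W cA V := by
  obtain ⟨U, hU⟩ := hA.ne
  exact ⟨U, hU, Q_one⟩

theorem QV_mono {V V' : Subgroup B} (hV : V' ≤ V) : QV S R W cA V ⊆ QV S R W cA V' := by
  rintro x ⟨U, hU, hx⟩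
  exact ⟨U, hU, Q_mono le_rfl hV hx⟩

theorem QV_cj (hA : GIn cA) (h : Sys S R W) {V : Subgroup B} {x : H →L[ℂ] H}
    (hx : x ∈ QV S R W cA V) (a : A) : cj S a x ∈ QV S R W cA V := by
  obtain ⟨U, hU, hx⟩ := hx
  obtain ⟨U', hU', h1⟩ := hA.conj U hU a
  refine ⟨U', hU', Q_mono ?_ le_rfl (cjS_mem h hx a)⟩
  intro u hu
  refine ⟨a⁻¹ * u * a, (h1 u).1 hu, ?_⟩
  simp [MulAut.conj_apply, mul_assoc]

theorem QQ_cj (hB : GIn cB) (h : Sys S R W) {x : H →L[ℂ] H}
    (hx : x ∈ QQ S R W cA cB) (b : B) : cj R b x ∈ QQ S R W cA cB := by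
  obtain ⟨U, hU, V, hV, hx⟩ := hx
  obtain ⟨V', hV', h1⟩ := hB.conj V hV b
  refine ⟨U, hU, V', hV', Q_mono le_rfl ?_ (cjR_mem h hx b)⟩
  intro u hu
  refine ⟨b⁻¹ * u * b, (h1 u).1 hu, ?_⟩
  simp [MulAut.conj_apply, mul_assoc]

/-! ### Scalars -/

theorem scalar_eq_one {p : H →L[ℂ] H} (hp : Prj p) (h0 : p ≠ 0) {c : ℂ}
    (hc : p = c • (1 : H →L[ℂ] H)) : p = 1 := by
  have h1 : (1 : H →L[ℂ] H) ≠ 0 := by
    intro h
    apply h0
    rw [hc, h, smul_zero]
  have h2 := hp.idem
  rw [hc, smul_mul_assoc, one_mul, smul_smul] at h2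
  have h3 : (c * c - c) • (1 : H →L[ℂ] H) = 0 := by rw [sub_smul, h2, sub_self]
  have h4 : c * c - c = 0 := (smul_eq_zero.1 h3).resolve_right h1
  have h5 : c ≠ 0 := by
    intro h
    apply h0
    rw [hc, h, zero_smul]
  have h6 : c = 1 := by
    have : c * (c - 1) = 0 := by rw [mul_sub, mul_one]; exact h4
    exact sub_eq_zero.1 ((mul_eq_zero.1 this).resolve_left h5)
  rw [hc, h6, one_smul]

/-- `y* y = c e` with `y ≠ 0`, `e` a projection: `c` is real and non-zero -/
theorem scalar_real {y e : H →L[ℂ] H} (he : Prj e) (he0 : e ≠ 0) (hy0 : y ≠ 0) {c : ℂ}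
    (hc : star y * y = c • e) : c ≠ 0 ∧ star c = c := by
  refine ⟨?_, ?_⟩
  · intro h
    rw [h, zero_smul] at hc
    exact hy0 (CStarRing.star_mul_self_eq_zero_iff _ |>.1 hc)
  · have h1 := congrArg star hc
    rw [star_mul, star_star, hc, star_smul, show star e = e from he.adj] at h1
    have h2 : (c - star c) • e = 0 := by rw [sub_smul, h1, sub_self]
    exact (sub_eq_zero.1 ((smul_eq_zero.1 h2).resolve_right he0)).symm

/-! ### Covers and conjugation -/

/-- two covers are equal if each generating set lies in the other subspace -/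
theorem cov_eq {X : Set (H →L[ℂ] H)} {e f : H →L[ℂ] H}
    (h1 : ∀ x ∈ X, ∀ η, x (e η) ∈ covK X f) (h2 : ∀ x ∈ X, ∀ η, x (f η) ∈ covK X e) :
    cov X e = cov X f := by
  have h3 : covK X e = covK X f := by
    refine le_antisymm ?_ ?_
    · intro k hk
      exact covK_map (T := ContinuousLinearMap.id ℂ H) covK_closed h1 k hk
    · intro k hk
      exact covK_map (T := ContinuousLinearMap.id ℂ H) covK_closed h2 k hk
  have : ∀ (K K' : Submodule ℂ H) [K.HasOrthogonalProjection] [K'.HasOrthogonalProjection],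
      K = K' → K.starProjection = K'.starProjection := by
    intro K K' _ _ hK
    subst hK
    rfl
  exact this _ _ h3

/-- the cover of the conjugated projection -/
theorem cov_conj (hA : GIn cA) (h : Sys S R W) {V : Subgroup B} (a : A) {f : H →L[ℂ] H} :
    cov (QV S R W cA V) (cj S a f) = cj S a (cov (QV S R W cA V) f) := by
  have key : ∀ (a : A) (f : H →L[ℂ] H), ∀ x ∈ QV S R W cA V, ∀ η,
      S a (x (f η)) ∈ covK (QV S R W cA V) (cj S a f) := by
    intro a f x hx η
    have h1 : S a (x (f η)) = (cj S a x) ((cj S a f) (S a η)) := by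
      have h2 : S a * (x * f) = cj S a x * (cj S a f * S a) := by
        have h3 : cj S a f * S a = S a * f := by
          simp only [cj, mul_assoc, S_inv_mul, mul_one]
        rw [h3, cj, mul_assoc, ← mul_assoc (S a⁻¹), S_inv_mul, one_mul, mul_assoc]
      exact congrArg (fun T : H →L[ℂ] H => T η) h2
    rw [h1]
    exact mem_covK (QV_cj hA h hx a) _
  have h1 : ∀ k ∈ covK (QV S R W cA V) f, S a k ∈ covK (QV S R W cA V) (cj S a f) :=
    covK_map covK_closed (key a f)
  have h2 : ∀ k ∈ covK (QV S R W cA V) (cj S a f), S a⁻¹ k ∈ covK (QV S R W cA V) f := by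
    have := covK_map (X := QV S R W cA V) (e := cj S a f) covK_closed (key a⁻¹ (cj S a f))
    rw [cj_inv_cj] at this
    exact this
  -- compare the two projections
  symm
  ext ζ
  change S a (cov (QV S R W cA V) f (S a⁻¹ ζ)) = cov (QV S R W cA V) (cj S a f) ζ
  symm
  refine Submodule.eq_starProjection_of_mem_orthogonal (h1 _ (Submodule.starProjection_apply_mem _ _)) ?_
  rw [Submodule.mem_orthogonal]
  intro k hk
  have h3 : ζ = S a (S a⁻¹ ζ) := by
    have := congrArg (fun T : H →L[ℂ] H => T ζ) (S_mul_inv S a)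
    simpa using this.symm
  have h4 : ζ - S a (cov (QV S R W cA V) f (S a⁻¹ ζ)) =
      S a (S a⁻¹ ζ - cov (QV S R W cA V) f (S a⁻¹ ζ)) := by
    rw [map_sub, ← h3]
  rw [h4]
  have h5 : ⟪k, S a (S a⁻¹ ζ - cov (QV S R W cA V) f (S a⁻¹ ζ))⟫_ℂ =
      ⟪S a⁻¹ k, S a⁻¹ ζ - cov (QV S R W cA V) f (S a⁻¹ ζ)⟫_ℂ := by
    rw [← ContinuousLinearMap.adjoint_inner_left, h.Sadj]
  rw [h5]
  exact Submodule.inner_right_of_mem_orthogonal (h2 k hk)
    (Submodule.sub_starProjection_mem_orthogonal _)

/-! ### The stabiliser step -/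

section Step

variable {V V1 : Subgroup B} {e : H →L[ℂ] H}

/-- conjugation of a minimal projection is a minimal projection -/
theorem MinP.cj (hA : GIn cA) (h : Sys S R W) (he : MinP S R W cA V e) (a : A) :
    MinP S R W cA V (cj S a e) where
  mem := QV_cj hA h he.mem a
  prj := cj_prj h a he.prj
  ne := fun h0 => he.ne (cj_eq_zero.1 h0)
  min := by
    intro x hx
    obtain ⟨c, hc⟩ := he.min _ (QV_cj hA h hx a⁻¹)
    refine ⟨c, ?_⟩
    have := congrArg (H729.cj S a) hc
    rw [cj_mul, cj_mul, cj_cj_inv, cj_smul] at this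
    exact this

/-- two minimal projections with full cover: every projection under one has the same cover as
a projection under the other -/
theorem exists_transfer (hA : GIn cA) (h : Sys S R W) (hV1 : V1 ≤ V)
    (he : MinP S R W cA V e) (hcov : cov (QV S R W cA V) e = 1) {e' f : H →L[ℂ] H}
    (he' : MinP S R W cA V e') (hf : f ∈ QV S R W cA V1) (hfp : Prj f) (hef : e' * f = f) :
    ∃ f' ∈ QV S R W cA V1, Prj f' ∧ e * f' = f' ∧
      cov (QV S R W cA V) f' = cov (QV S R W cA V) f := by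
  have hee : star e = e := he.prj.adj
  have hee' : star e' = e' := he'.prj.adj
  obtain ⟨x, hx, hne⟩ : ∃ x ∈ QV S R W cA V, e' * x * e ≠ 0 := by
    by_contra hcon
    push Not at hcon
    have h1 := mul_cov_zero (X := QV S R W cA V) (e := e) (T := e') hcon
    rw [hcov, mul_one] at h1
    exact he'.ne h1
  obtain ⟨y, hy⟩ : ∃ y : H →L[ℂ] H, y = e' * x * e := ⟨_, rfl⟩
  rw [← hy] at hne
  have hyA : y ∈ QV S R W cA V := by rw [hy]; exact QV_mul hA (QV_mul hA he'.mem hx) he.mem
  have hysA : star y ∈ QV S R W cA V := QV_star h hyA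
  have hye : y * e = y := by rw [hy, mul_assoc, he.prj.idem]
  have hey : e' * y = y := by rw [hy, ← mul_assoc, ← mul_assoc, he'.prj.idem]
  have hsy : star y = e * star x * e' := by
    rw [hy, star_mul, star_mul, hee, hee', mul_assoc]
  have hye' : e * star y = star y := by
    have := congrArg star hye
    rwa [star_mul, hee] at this
  have hey' : star y * e' = star y := by
    have := congrArg star hey
    rwa [star_mul, hee'] at this
  obtain ⟨c, hc⟩ := he.min (star x * e' * x) (QV_mul hA (QV_mul hA (QV_star h hx) he'.mem) hx)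
  have hc : star y * y = c • e := by
    rw [← hc, hsy, hy]
    calc e * star x * e' * (e' * x * e) = e * star x * (e' * e') * x * e := by
          simp only [mul_assoc]
      _ = _ := by rw [he'.prj.idem]; simp only [mul_assoc]
  obtain ⟨c', hc'⟩ := he'.min (x * e * star x) (QV_mul hA (QV_mul hA hx he.mem) (QV_star h hx))
  have hc' : y * star y = c' • e' := by
    rw [← hc', hsy, hy]
    calc e' * x * e * (e * star x * e') = e' * x * (e * e) * star x * e' := by
          simp only [mul_assoc]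
      _ = _ := by rw [he.prj.idem]; simp only [mul_assoc]
  have hcc : c' = c := by
    have h1 : y * (star y * y) = y * star y * y := (mul_assoc _ _ _).symm
    rw [hc, hc', mul_smul_comm, hye, smul_mul_assoc, hey] at h1
    have h2 : (c' - c) • y = 0 := by rw [sub_smul, h1, sub_self]
    exact sub_eq_zero.1 ((smul_eq_zero.1 h2).resolve_right hne)
  rw [hcc] at hc'
  obtain ⟨hc0, hcs⟩ := scalar_real he.prj he.ne hne hc
  have hfe : f * e' = f := by
    have := congrArg star hef
    rwa [star_mul, hee', show star f = f from hfp.adj] at this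
  refine ⟨c⁻¹ • (star y * f * y), ?_, ⟨?_, ?_⟩, ?_, ?_⟩
  · exact QV_smul _ (QV_mul hA (QV_mul hA (QV_mono hV1 hysA) hf) (QV_mono hV1 hyA))
  · rw [smul_mul_smul_comm]
    have h1 : star y * f * y * (star y * f * y) = c • (star y * f * y) := by
      calc star y * f * y * (star y * f * y) = star y * f * (y * star y) * f * y := by
            simp only [mul_assoc]
        _ = c • (star y * f * e' * f * y) := by
            rw [hc', mul_smul_comm, smul_mul_assoc, smul_mul_assoc]
        _ = c • (star y * (f * e') * f * y) := by simp only [mul_assoc]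
        _ = c • (star y * (f * f) * y) := by rw [hfe]; simp only [mul_assoc]
        _ = _ := by rw [hfp.idem]
    rw [h1, smul_smul]
    congr 1
    field_simp
  · change star (c⁻¹ • (star y * f * y)) = _
    rw [star_smul, star_mul, star_mul, star_star, show star f = f from hfp.adj, star_inv₀, hcs,
      mul_assoc]
  · rw [mul_smul_comm, ← mul_assoc, ← mul_assoc, hye']
  · refine cov_eq ?_ ?_
    · intro z hz η
      have h1 : z ((c⁻¹ • (star y * f * y)) η) = (z * star y) (f (c⁻¹ • y η)) := by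
        simp
      rw [h1]
      exact mem_covK (QV_mul hA hz hysA) _
    · intro z hz η
      have h1 : z (f η) = (z * y) ((c⁻¹ • (star y * f * y)) (c⁻¹ • star y η)) := by
        have h2 : z * f = (c⁻¹ * c⁻¹) • (z * y * (star y * f * y) * star y) := by
          have h3 : z * y * (star y * f * y) * star y = (c * c) • (z * f) := by
            calc z * y * (star y * f * y) * star y = z * (y * star y) * f * (y * star y) := by
                  simp only [mul_assoc]
              _ = (c * c) • (z * (e' * f) * e') := by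
                  rw [hc']
                  simp only [mul_smul_comm, smul_mul_assoc, smul_smul, mul_assoc]
              _ = (c * c) • (z * (f * e')) := by rw [hef, mul_assoc]
              _ = _ := by rw [hfe]
          rw [h3, smul_smul]
          have : c⁻¹ * c⁻¹ * (c * c) = 1 := by field_simp
          rw [this, one_smul]
        have h4 := congrArg (fun T : H →L[ℂ] H => T η) h2
        have h5 : (c⁻¹ * c⁻¹) • (z * y * (star y * f * y) * star y) =
            c⁻¹ • (z * y * (c⁻¹ • (star y * f * y)) * star y) := by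
          simp only [mul_smul_comm, smul_mul_assoc, smul_smul]
        rw [h5] at h4
        have h6 : (c⁻¹ • (z * y * (c⁻¹ • (star y * f * y)) * star y)) η =
            (z * y) ((c⁻¹ • (star y * f * y)) (c⁻¹ • star y η)) := by
          rw [map_smul, map_smul]
          rfl
        exact h4.trans h6
      rw [h1]
      exact mem_covK (QV_mul hA hz hyA) _

/-- the covers of all projections of `𝒬^{V1}` under `e` commute with all of `S` -/
theorem cov_comm_S (hA : GIn cA) (h : Sys S R W) (hV1 : V1 ≤ V)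
    (he : MinP S R W cA V e) (hcov : cov (QV S R W cA V) e = 1) {U' : Subgroup A} (hU' : U' ∈ cA)
    (h1 : ∀ x ∈ QV S R W cA V1, e * x * e ∈ Q S R W U' V1) (a : A) {f : H →L[ℂ] H}
    (hf : f ∈ QV S R W cA V1) (hfp : Prj f) (hef : e * f = f) :
    S a * cov (QV S R W cA V) f = cov (QV S R W cA V) f * S a := by
  let N : Subgroup A :=
    { carrier := {g : A | ∀ f ∈ QV S R W cA V1, Prj f → e * f = f →
        cj S g (cov (QV S R W cA V) f) = cov (QV S R W cA V) f}
      mul_mem' := by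
        intro g g' hg hg' f hf hfp hef
        rw [← cj_cj, hg' f hf hfp hef, hg f hf hfp hef]
      one_mem' := by
        intro f _ _ _
        rw [cj_one']
      inv_mem' := by
        intro g hg f hf hfp hef
        have := congrArg (H729.cj S g⁻¹) (hg f hf hfp hef)
        rw [cj_inv_cj] at this
        exact this.symm }
  have hN : N = ⊤ := by
    refine hA.g2 N ⟨?_⟩ ⟨U', hU', ?_⟩
    · intro g hg k f hf hfp hef
      have hfe : cj S k⁻¹ e * cj S k⁻¹ f = cj S k⁻¹ f := by rw [← cj_mul, hef]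
      obtain ⟨f', hf', hfp', hef', hcf⟩ := exists_transfer hA h hV1 he hcov
        (MinP.cj hA h he k⁻¹) (QV_cj hA h hf k⁻¹) (cj_prj h k⁻¹ hfp) hfe
      have h2 := hg f' hf' hfp' hef'
      rw [hcf, cov_conj hA h] at h2
      have h3 := congrArg (H729.cj S k) h2
      rw [cj_cj_inv, cj_cj, cj_cj] at h3
      exact h3
    · intro g hg f hf hfp hef
      have hfe : f * e = f := by
        have := congrArg star hef
        rwa [star_mul, show star e = e from he.prj.adj, show star f = f from hfp.adj] at this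
      have hfU : f ∈ Q S R W U' V1 := by
        have := h1 f hf
        rwa [hef, hfe] at this
      rw [cj_eq_iff]
      refine cov_comm_norm ?_ ?_ (hfU.1 g hg) ?_
      · intro x hx
        refine ⟨cj S g x, QV_cj hA h hx g, ?_⟩
        simp only [cj, mul_assoc, S_inv_mul, mul_one]
      · intro x hx
        refine ⟨cj S g⁻¹ x, QV_cj hA h hx g⁻¹, ?_⟩
        rw [sadj h]
        simp only [cj, inv_inv, mul_assoc, S_mul_inv, mul_one]
      · rw [sadj h]
        exact hfU.1 _ (U'.inv_mem hg)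
  have : a ∈ N := by rw [hN]; trivial
  exact cj_eq_iff.1 (this f hf hfp hef)

/-- under the cover hypothesis, a projection of `𝒬^{V1}` under `e` is `0` or `e` -/
theorem min_step (hA : GIn cA) (h : Sys S R W) (hE : Erg S R W cA cB) (hV1 : V1 ≤ V)
    (hV1c : V1 ∈ cB)
    (he : MinP S R W cA V e) (hcov : cov (QV S R W cA V) e = 1) {U' : Subgroup A} (hU' : U' ∈ cA)
    (h1 : ∀ x ∈ QV S R W cA V1, e * x * e ∈ Q S R W U' V1) {f : H →L[ℂ] H}
    (hf : f ∈ QV S R W cA V1) (hfp : Prj f) (hef : e * f = f) : f = 0 ∨ f = e := by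
  by_cases hf0 : f = 0
  · exact Or.inl hf0
  right
  obtain ⟨Uf, hUf, hfQ⟩ := hf
  have hf : f ∈ QV S R W cA V1 := ⟨Uf, hUf, hfQ⟩
  have hcQ : cov (QV S R W cA V) f ∈ Q S R W ⊤ V1 := by
    refine ⟨fun a _ => cov_comm_S hA h hV1 he hcov hU' h1 a hf hfp hef, fun b hb => ?_,
      fun w hw => ?_⟩
    · refine cov_comm_norm ?_ ?_ (hfQ.2.1 b hb) ?_
      · rintro x ⟨U, hU, hx⟩
        exact ⟨x, ⟨U, hU, hx⟩, hx.2.1 b (hV1 hb)⟩
      · rintro x ⟨U, hU, hx⟩
        rw [radj h]
        exact ⟨x, ⟨U, hU, hx⟩, hx.2.1 _ (hV1 (V1.inv_mem hb))⟩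
      · rw [radj h]
        exact hfQ.2.1 _ (V1.inv_mem hb)
    · refine cov_comm_norm ?_ ?_ (hfQ.2.2 w hw) ?_
      · rintro x ⟨U, hU, hx⟩
        exact ⟨x, ⟨U, hU, hx⟩, hx.2.2 w hw⟩
      · rintro x ⟨U, hU, hx⟩
        exact ⟨x, ⟨U, hU, hx⟩, hx.2.2 _ (wadj h hw)⟩
      · exact hfQ.2.2 _ (wadj h hw)
  obtain ⟨c, hc⟩ := hE.E2 V1 hV1c _ hcQ
  have hone := scalar_eq_one cov_prj (cov_ne_zero (QV_one hA) hf0) hc
  have hfe : f * e = f := by
    have := congrArg star hef
    rwa [star_mul, show star e = e from he.prj.adj, show star f = f from hfp.adj] at this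
  have h2 : (e - f) * cov (QV S R W cA V) f = 0 := by
    refine mul_cov_zero fun x hx => ?_
    obtain ⟨d, hd⟩ := he.min x hx
    calc (e - f) * x * f = (e - f * e) * x * (e * f) := by rw [hfe, hef]
      _ = (e * e - f * e) * x * (e * f) := by rw [he.prj.idem]
      _ = (e - f) * (e * x * e) * f := by rw [← sub_mul]; simp only [mul_assoc]
      _ = d • ((e * f - f * (e * f))) := by
          rw [hd, mul_smul_comm, smul_mul_assoc, sub_mul, sub_mul, he.prj.idem, mul_assoc]
      _ = 0 := by rw [hef, hfp.idem, sub_self, smul_zero]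
  rw [hone, mul_one, sub_eq_zero] at h2
  exact h2.symm

/-- under the cover hypothesis, `e` is minimal in `𝒬^{V1}` as well -/
theorem min_all (hA : GIn cA) (h : Sys S R W) (hE : Erg S R W cA cB) (hV1 : V1 ≤ V)
    (hV1c : V1 ∈ cB)
    (he : MinP S R W cA V e) (hcov : cov (QV S R W cA V) e = 1) {U' : Subgroup A} (hU' : U' ∈ cA)
    (h1 : ∀ x ∈ QV S R W cA V1, e * x * e ∈ Q S R W U' V1) {x : H →L[ℂ] H}
    (hx : x ∈ QV S R W cA V1) : ∃ c : ℂ, e * x * e = c • e := by
  set X : Set (H →L[ℂ] H) := {T | (∃ a ∈ U', T = S a) ∨ (∃ b ∈ V1, T = R b) ∨ T ∈ W} with hXd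
  have hX : ∀ T ∈ X, ContinuousLinearMap.adjoint T ∈ X := by
    rintro T (⟨a, ha, rfl⟩ | ⟨b, hb, rfl⟩ | hT)
    · exact Or.inl ⟨a⁻¹, U'.inv_mem ha, h.Sadj a⟩
    · exact Or.inr (Or.inl ⟨b⁻¹, V1.inv_mem hb, h.Radj b⟩)
    · exact Or.inr (Or.inr (h.Wadj T hT))
  have hQX : ∀ y : H →L[ℂ] H, y ∈ Q S R W U' V1 ↔ ∀ T ∈ X, T * y = y * T := by
    intro y
    constructor
    · rintro hy T (⟨a, ha, rfl⟩ | ⟨b, hb, rfl⟩ | hT)
      · exact hy.1 a ha
      · exact hy.2.1 b hb
      · exact hy.2.2 T hT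
    · intro hy
      exact ⟨fun a ha => hy _ (Or.inl ⟨a, ha, rfl⟩), fun b hb => hy _ (Or.inr (Or.inl ⟨b, hb, rfl⟩)),
        fun w hw => hy _ (Or.inr (Or.inr hw))⟩
  have heQ : e ∈ Q S R W U' V1 := by
    have := h1 1 (QV_one hA)
    rwa [mul_one, he.prj.idem] at this
  obtain ⟨c, hc⟩ := spec X hX e he.prj ((hQX e).1 heQ)
    (fun q hq hqp heq => min_step hA h hE hV1 hV1c he hcov hU' h1 ⟨U', hU', (hQX q).2 hq⟩ hqp heq)
    (e * x * e) ((hQX _).1 (h1 x hx))
  refine ⟨c, ?_⟩
  rw [← hc]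
  rw [← mul_assoc, ← mul_assoc, he.prj.idem, mul_assoc (e * x), he.prj.idem]

end Step

/-! ### The contradiction -/

/-- **TA-3**: the cover of an `R`-finite minimal projection of `𝒬^V` is not the whole space. -/
theorem ta3 (hA : GIn cA) (hB : GIn cB) (h : Sys S R W) (hE : Erg S R W cA cB)
    {V : Subgroup B} (hV : V ∈ cB) {e : H →L[ℂ] H} (he : MinP S R W cA V e) (hR : RFin R V e)
    (h1 : ∀ V1 ∈ cB, V1 ≤ V → ∃ U' ∈ cA, ∀ x ∈ QV S R W cA V1, e * x * e ∈ Q S R W U' V1) :
    cov (QV S R W cA V) e ≠ 1 := by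
  intro hcov
  -- `e x e` is a scalar multiple of `e` for all `x ∈ 𝒬`
  have hQQ : ∀ x ∈ QQ S R W cA cB, ∃ c : ℂ, e * x * e = c • e := by
    rintro x ⟨U', hU', V', hV', hx⟩
    have hc : V' ⊓ V ∈ cB := hB.inf V' hV' V hV
    obtain ⟨U1, hU1, h2⟩ := h1 (V' ⊓ V) hc inf_le_right
    exact min_all hA h hE inf_le_right hc he hcov hU1 h2 ⟨U', hU', Q_mono le_rfl inf_le_left hx⟩
  -- `R_b` for `b ∈ V` commutes with `𝒬`
  have hVQ : ∀ b ∈ V, ∀ x ∈ QQ S R W cA cB, cj R b x = x := by
    intro b hb x hx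
    have hQVf : ∀ y ∈ QV S R W cA V, cj R b y = y := by
      rintro y ⟨U, _, hy⟩
      exact cj_eq_iff.2 (hy.2.1 b hb)
    have hmul : ∀ y ∈ QV S R W cA V, ∀ y' ∈ QV S R W cA V,
        e * star y * (cj R b x - x) * y' * e = 0 := by
      intro y hy y' hy'
      have hz : star y * x * y' ∈ QQ S R W cA cB := by
        obtain ⟨U', hU', V', hV', hx'⟩ := hx
        obtain ⟨U1, hU1, hy1⟩ := QV_star h hy
        obtain ⟨U2, hU2, hy2⟩ := hy'
        refine ⟨U1 ⊓ U' ⊓ U2, hA.inf _ (hA.inf _ hU1 _ hU') _ hU2, V ⊓ V', hB.inf _ hV _ hV', ?_⟩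
        refine Q_mul (Q_mul (Q_mono ?_ inf_le_left hy1) (Q_mono ?_ inf_le_right hx'))
          (Q_mono inf_le_right inf_le_left hy2)
        · exact inf_le_left.trans inf_le_left
        · exact inf_le_left.trans inf_le_right
      obtain ⟨c, hc⟩ := hQQ _ hz
      have h3 := congrArg (cj R b) hc
      simp only [cj_mul, cj_smul] at h3
      rw [hQVf e he.mem, hQVf y' hy', hQVf _ (QV_star h hy), ← hc] at h3
      calc e * star y * (cj R b x - x) * y' * e
          = e * (star y * cj R b x * y') * e - e * (star y * x * y') * e := by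
            rw [mul_sub, sub_mul, sub_mul]; simp only [mul_assoc]
        _ = 0 := by rw [h3, sub_self]
    have h4 : ∀ y ∈ QV S R W cA V, e * star y * (cj R b x - x) = 0 := by
      intro y hy
      have := mul_cov_zero (X := QV S R W cA V) (e := e) (hmul y hy)
      rwa [hcov, mul_one] at this
    have h5 : star (cj R b x - x) * cov (QV S R W cA V) e = 0 := by
      refine mul_cov_zero fun y hy => ?_
      have := congrArg star (h4 y hy)
      rw [star_mul, star_mul, star_star, star_zero, show star e = e from he.prj.adj] at this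
      rw [mul_assoc]
      exact this
    rw [hcov, mul_one, star_eq_zero, sub_eq_zero] at h5
    exact h5
  -- so does every `R_b`
  let M : Subgroup B :=
    { carrier := {b : B | ∀ x ∈ QQ S R W cA cB, cj R b x = x}
      mul_mem' := by
        intro b b' hb hb' x hx
        rw [← cj_cj, hb' x hx, hb x hx]
      one_mem' := fun x _ => cj_one' x
      inv_mem' := by
        intro b hb x hx
        have := congrArg (cj R b⁻¹) (hb x hx)
        rw [cj_inv_cj] at this
        exact this.symm }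
  have hM : M = ⊤ := by
    refine hB.g2 M ⟨?_⟩ ⟨V, hV, fun b hb x hx => hVQ b hb x hx⟩
    intro b hb k x hx
    have h3 := hb _ (QQ_cj hB h hx k⁻¹)
    have h4 := congrArg (cj R k) h3
    rw [cj_cj_inv, cj_cj, cj_cj] at h4
    exact h4
  obtain ⟨Ue, hUe, heQ⟩ := he.mem
  have heT : e ∈ Q S R W Ue ⊤ := by
    refine ⟨heQ.1, fun b _ => ?_, heQ.2.2⟩
    have : b ∈ M := by rw [hM]; trivial
    exact cj_eq_iff.1 (this e ⟨Ue, hUe, V, hV, heQ⟩)
  obtain ⟨c, hc⟩ := hE.E1 Ue hUe e heT
  have hone := scalar_eq_one he.prj he.ne hc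
  -- contradiction with `R`-finiteness
  obtain ⟨C, hC⟩ := hR
  obtain ⟨ξ, hξ⟩ : ∃ ξ : H, ξ ≠ 0 := by
    by_contra hcon
    push Not at hcon
    exact he.ne (ContinuousLinearMap.ext fun ξ => by rw [hcon ξ]; simp)
  have hinf : Infinite (B ⧸ V) := by
    by_contra hfin
    rw [not_infinite_iff_finite] at hfin
    have h6 := hB.inf_index V hV
    rw [Subgroup.index_eq_zero_iff_infinite] at h6
    exact not_finite (B ⧸ V)
  obtain ⟨n, hn⟩ := exists_nat_gt C
  obtain ⟨F, hF⟩ := Infinite.exists_subset_card_eq (B ⧸ V) n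
  have h7 := hC F ξ
  have h8 : ∀ q ∈ F, ‖e (R q.out⁻¹ ξ)‖ ^ 2 = ‖ξ‖ ^ 2 := by
    intro q _
    rw [hone]
    change ‖R q.out⁻¹ ξ‖ ^ 2 = _
    rw [norm_S (sys_swap h)]
  rw [Finset.sum_congr rfl h8, Finset.sum_const, hF, nsmul_eq_mul] at h7
  have h9 : 0 < ‖ξ‖ ^ 2 := by positivity
  have h10 := le_of_mul_le_mul_right h7 h9
  linarith

end Vale.Agent.P092.H200.TA3
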