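import Vale.Agent.P092.RC.Blocks
import Vale.Agent.P092.H575.Uni

/-!
P092, TEAM C, [C-COC] and [C-GEO] (helper200): the normalised section of `SL_(m+1)(k) → ℙ(k^(m+1))`
is continuous, the cocycle `cc` is a continuous cocycle with values in `PGL_m(k)`; `geoStmt`.
-/

set_option linter.all false

open scoped LinearAlgebra.Projectivization
open Matrix TopologicalSpace Topology Filter

namespace Vale.Agent.P092.H200.Coc

open Vale.Agent.P092.RC
open Vale.Agent.P092.H820 (pj pj_surj pj_continuous pj_open pj_oq pj_eq)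

section ix

variable {k : Type} [NontriviallyNormedField k] {m : ℕ}

theorem mx_nonempty (v : Fin (m + 1) → k) : ∃ i, ∀ j, ‖v j‖ ≤ ‖v i‖ :=
  Finite.exists_max fun i => ‖v i‖

open Classical in
theorem ix_mem (v : Fin (m + 1) → k) :
    ix v ∈ Finset.univ.filter fun i => ∀ j, ‖v j‖ ≤ ‖v i‖ := by
  obtain ⟨i, hi⟩ := mx_nonempty v
  have h : (Finset.univ.filter fun i => ∀ j, ‖v j‖ ≤ ‖v i‖).Nonempty := ⟨i, by simpa using hi⟩
  unfold ix
  rw [dif_pos h]
  exact Finset.min'_mem _ h

/-- the chosen coordinate has maximal norm -/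
theorem ix_max (v : Fin (m + 1) → k) (j : Fin (m + 1)) : ‖v j‖ ≤ ‖v (ix v)‖ := by
  classical
  have := ix_mem v
  simp only [Finset.mem_filter, Finset.mem_univ, true_and] at this
  exact this j

theorem ix_ne {v : Fin (m + 1) → k} (hv : v ≠ 0) : v (ix v) ≠ 0 := by
  intro h
  apply hv
  funext j
  have := ix_max v j
  rw [h, norm_zero] at this
  exact norm_eq_zero.1 (le_antisymm this (norm_nonneg _))

/-- `ix` only depends on the set of maximal coordinates -/
theorem ix_congr {v w : Fin (m + 1) → k}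
    (h : ∀ i, (∀ j, ‖v j‖ ≤ ‖v i‖) ↔ ∀ j, ‖w j‖ ≤ ‖w i‖) : ix v = ix w := by
  classical
  have : (Finset.univ.filter fun i => ∀ j, ‖v j‖ ≤ ‖v i‖) =
      Finset.univ.filter fun i => ∀ j, ‖w j‖ ≤ ‖w i‖ := by
    ext i
    simp only [Finset.mem_filter, Finset.mem_univ, true_and]
    exact h i
  unfold ix
  simp only [this]

theorem ix_smul (c : kˣ) (v : Fin (m + 1) → k) : ix (c • v) = ix v := by
  refine ix_congr fun i => ?_
  have hc : (0 : ℝ) < ‖(c : k)‖ := norm_pos_iff.2 c.ne_zero
  refine forall_congr' fun j => ?_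
  rw [Pi.smul_apply, Pi.smul_apply, Units.smul_def, Units.smul_def, smul_eq_mul, smul_eq_mul,
    norm_mul, norm_mul]
  exact mul_le_mul_iff_right₀ hc

/-- `ix` is locally constant away from zero -/
theorem ix_locConst [IsUltrametricDist k] {v : Fin (m + 1) → k} (hv : v ≠ 0) :
    ∀ᶠ w in 𝓝 v, ix w = ix v := by
  set M : ℝ := ‖v (ix v)‖ with hM
  have hM0 : 0 < M := norm_pos_iff.2 (ix_ne hv)
  have h1 : ∀ᶠ w in 𝓝 v, ∀ j, ‖v j‖ = M → ‖w j‖ = M := by
    rw [eventually_all]
    intro j
    by_cases hj : ‖v j‖ = M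
    · have hs : (fun w : Fin (m + 1) → k => w j) ⁻¹' (Metric.sphere 0 M) ∈ 𝓝 v :=
        (IsOpen.preimage (continuous_apply j)
          (IsUltrametricDist.isOpen_sphere _ hM0.ne')).mem_nhds (by simpa using hj)
      filter_upwards [hs] with w hw _
      simpa using hw
    · exact Eventually.of_forall fun w h => absurd h hj
  have h2 : ∀ᶠ w in 𝓝 v, ∀ j, ‖v j‖ < M → ‖w j‖ < M := by
    rw [eventually_all]
    intro j
    by_cases hj : ‖v j‖ < M
    · have hs : Tendsto (fun w : Fin (m + 1) → k => ‖w j‖) (𝓝 v) (𝓝 ‖v j‖) :=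
        ((continuous_apply j).norm).tendsto v
      filter_upwards [hs.eventually (gt_mem_nhds hj)] with w hw _
      exact hw
    · exact Eventually.of_forall fun w h => absurd h hj
  filter_upwards [h1, h2] with w hw1 hw2
  refine (ix_congr fun i => ?_).symm
  have hle : ∀ j, ‖v j‖ ≤ M := fun j => ix_max v j
  have hwle : ∀ j, ‖w j‖ ≤ M := fun j => by
    rcases (hle j).lt_or_eq with h | h
    · exact (hw2 j h).le
    · exact (hw1 j h).le
  constructor
  · intro h j
    have : ‖v i‖ = M := le_antisymm (hle i) (h (ix v))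
    rw [hw1 i this]
    exact hwle j
  · intro h j
    have h3 : M ≤ ‖w i‖ := by
      have := h (ix v)
      rwa [hw1 (ix v) rfl] at this
    have h4 : ‖v i‖ = M := by
      rcases (hle i).lt_or_eq with h5 | h5
      · exact absurd (hw2 i h5) (not_lt.2 h3)
      · exact h5
    rw [h4]
    exact hle j

end ix

section sec

variable {k : Type} [NontriviallyNormedField k] {m : ℕ}

theorem rep_pj (v : {v : Fin (m + 1) → k // v ≠ 0}) :
    ∃ c : kˣ, (pj k (Fin (m + 1)) v).rep = c • v.1 := by
  obtain ⟨c, hc⟩ := Projectivization.exists_smul_eq_mk_rep k v.1 v.2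
  exact ⟨c, hc.symm⟩

theorem ix_pj (v : {v : Fin (m + 1) → k // v ≠ 0}) :
    ix (pj k (Fin (m + 1)) v).rep = ix v.1 := by
  obtain ⟨c, hc⟩ := rep_pj v
  rw [hc, ix_smul]

theorem nv_pj (v : {v : Fin (m + 1) → k // v ≠ 0}) :
    nv (pj k (Fin (m + 1)) v) = fun j => v.1 j / v.1 (ix v.1) := by
  obtain ⟨c, hc⟩ := rep_pj v
  funext j
  unfold nv
  rw [hc, ix_smul, Pi.smul_apply, Pi.smul_apply, Units.smul_def, Units.smul_def, smul_eq_mul,
    smul_eq_mul, mul_div_mul_left _ _ c.ne_zero]

theorem nv_ix (y : YY k m) : nv y (ix y.rep) = 1 := by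
  unfold nv
  exact div_self (ix_ne y.rep_nonzero)

theorem nv_le (y : YY k m) (j : Fin (m + 1)) : ‖nv y j‖ ≤ 1 := by
  unfold nv
  rw [norm_div]
  exact div_le_one_of_le₀ (ix_max _ j) (norm_nonneg _)

theorem nv_ne (y : YY k m) : nv y ≠ 0 := by
  intro h
  have := nv_ix y
  rw [h] at this
  exact zero_ne_one this

/-- the class of the normalised representative -/
theorem mk_nv (y : YY k m) : Projectivization.mk k (nv y) (nv_ne y) = y := by
  conv_rhs => rw [← y.mk_rep]
  rw [Projectivization.mk_eq_mk_iff]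
  refine ⟨Units.mk0 (y.rep (ix y.rep))⁻¹ (inv_ne_zero (ix_ne y.rep_nonzero)), ?_⟩
  funext j
  rw [Pi.smul_apply, Units.smul_def, smul_eq_mul, Units.val_mk0]
  unfold nv
  rw [div_eq_inv_mul]

theorem pj_nv (y : YY k m) : pj k (Fin (m + 1)) ⟨nv y, nv_ne y⟩ = y := mk_nv y

theorem continuous_ix [IsUltrametricDist k] : Continuous fun y : YY k m => ix y.rep := by
  have hq : IsQuotientMap (pj k (Fin (m + 1))) := pj_oq.isQuotientMap
  rw [hq.continuous_iff]
  have : ((fun y : YY k m => ix y.rep) ∘ pj k (Fin (m + 1))) = fun v => ix v.1 := by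
    funext v
    exact ix_pj v
  rw [this, continuous_iff_continuousAt]
  intro v
  have h : ∀ᶠ w in 𝓝 v, ix w.1 = ix v.1 :=
    (continuous_subtype_val.tendsto v).eventually (ix_locConst v.2)
  exact tendsto_nhds_of_eventually_eq h

theorem continuous_nv [IsUltrametricDist k] : Continuous (nv : YY k m → Fin (m + 1) → k) := by
  have hq : IsQuotientMap (pj k (Fin (m + 1))) := pj_oq.isQuotientMap
  rw [hq.continuous_iff]
  have : ((nv : YY k m → Fin (m + 1) → k) ∘ pj k (Fin (m + 1))) =
      fun v j => v.1 j / v.1 (ix v.1) := by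
    funext v
    exact nv_pj v
  rw [this, continuous_pi_iff]
  intro j
  rw [continuous_iff_continuousAt]
  intro v
  have h : ∀ᶠ w in 𝓝 v, ix w.1 = ix v.1 :=
    (continuous_subtype_val.tendsto v).eventually (ix_locConst v.2)
  have h1 : ContinuousAt (fun w : {v : Fin (m + 1) → k // v ≠ 0} => w.1 j / w.1 (ix v.1)) v :=
    ((continuous_apply j).comp continuous_subtype_val).continuousAt.div
      ((continuous_apply _).comp continuous_subtype_val).continuousAt (ix_ne v.2)
  refine h1.congr ?_
  filter_upwards [h] with w hw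
  rw [hw]

/-! ### The section and its inverse -/

/-- the inverse of the section -/
noncomputable def sci (y : YY k m) : Matrix (Fin (m + 1)) (Fin (m + 1)) k :=
  Matrix.of fun a b => Fin.cases (motive := fun _ => k) (if b = ix y.rep then 1 else 0)
    (fun j => (if b = (ix y.rep).succAbove j then 1 else 0) -
      nv y ((ix y.rep).succAbove j) * (if b = ix y.rep then 1 else 0)) a

theorem sct_zero (y : YY k m) (a : Fin (m + 1)) : sct y a 0 = nv y a := rfl

theorem sct_succ (y : YY k m) (a : Fin (m + 1)) (j : Fin m) :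
    sct y a j.succ = if a = (ix y.rep).succAbove j then 1 else 0 := rfl

theorem sci_zero (y : YY k m) (b : Fin (m + 1)) :
    sci y 0 b = if b = ix y.rep then 1 else 0 := rfl

theorem sci_succ (y : YY k m) (j : Fin m) (b : Fin (m + 1)) :
    sci y j.succ b = (if b = (ix y.rep).succAbove j then 1 else 0) -
      nv y ((ix y.rep).succAbove j) * (if b = ix y.rep then 1 else 0) := rfl

theorem sci_mul_sct (y : YY k m) : sci y * sct y = 1 := by
  ext a b
  rw [Matrix.mul_apply]
  refine Fin.cases ?_ (fun j => ?_) a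
  · -- row zero
    have : ∀ l, sci y 0 l * sct y l b = if l = ix y.rep then sct y l b else 0 := by
      intro l
      rw [sci_zero]
      split_ifs <;> simp
    simp only [this, Finset.sum_ite_eq', Finset.mem_univ, if_true]
    refine Fin.cases ?_ (fun l => ?_) b
    · rw [sct_zero, nv_ix, Matrix.one_apply_eq]
    · rw [sct_succ, if_neg (Fin.succAbove_ne _ _).symm, Matrix.one_apply_ne (Fin.succ_ne_zero l).symm]
  · have : ∀ l, sci y j.succ l * sct y l b =
        (if l = (ix y.rep).succAbove j then sct y l b else 0) -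
        (if l = ix y.rep then nv y ((ix y.rep).succAbove j) * sct y l b else 0) := by
      intro l
      rw [sci_succ]
      split_ifs <;> ring
    simp only [this, Finset.sum_sub_distrib, Finset.sum_ite_eq', Finset.mem_univ, if_true]
    refine Fin.cases ?_ (fun l => ?_) b
    · rw [sct_zero, sct_zero, nv_ix, mul_one, sub_self, Matrix.one_apply_ne (Fin.succ_ne_zero j)]
    · rw [sct_succ, sct_succ, if_neg (Fin.succAbove_ne _ _).symm, mul_zero, sub_zero,
        Matrix.one_apply]
      by_cases h : j = l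
      · rw [h, if_pos rfl, if_pos rfl]
      · rw [if_neg (fun h' => h (Fin.succAbove_right_injective h')),
          if_neg (fun h' => h (Fin.succ_injective _ h'))]

theorem sct_mul_sci (y : YY k m) : sct y * sci y = 1 :=
  mul_eq_one_comm.1 (sci_mul_sct y)

theorem sct_inv (y : YY k m) : (sct y)⁻¹ = sci y := Matrix.inv_eq_left_inv (sci_mul_sct y)

theorem continuous_sct [IsUltrametricDist k] :
    Continuous (sct : YY k m → Matrix (Fin (m + 1)) (Fin (m + 1)) k) := by
  refine continuous_matrix fun a b => ?_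
  refine Fin.cases ?_ (fun j => ?_) b
  · exact (continuous_apply a).comp continuous_nv
  · exact (continuous_of_discreteTopology
      (f := fun i : Fin (m + 1) => (if a = i.succAbove j then (1 : k) else 0))).comp continuous_ix

theorem continuous_sci [IsUltrametricDist k] :
    Continuous (sci : YY k m → Matrix (Fin (m + 1)) (Fin (m + 1)) k) := by
  refine continuous_matrix fun a b => ?_
  refine Fin.cases ?_ (fun j => ?_) a
  · exact (continuous_of_discreteTopology
      (f := fun i : Fin (m + 1) => (if b = i then (1 : k) else 0))).comp continuous_ix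
  · have h : Continuous fun p : (Fin (m + 1) → k) × Fin (m + 1) =>
        (if b = p.2.succAbove j then (1 : k) else 0) - p.1 (p.2.succAbove j) *
          (if b = p.2 then 1 else 0) := by
      rw [continuous_prod_of_discrete_right]
      intro i
      show Continuous fun v : Fin (m + 1) → k => (if b = i.succAbove j then (1 : k) else 0) -
        v (i.succAbove j) * (if b = i then 1 else 0)
      fun_prop
    exact h.comp (continuous_nv.prodMk continuous_ix)

/-! ### The cocycle -/

theorem sct_mulVec (y : YY k m) : sct y *ᵥ (Pi.single 0 1) = nv y := by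
  rw [Matrix.mulVec_single_one]
  rfl

theorem sci_mulVec (y : YY k m) : sci y *ᵥ (nv y) = Pi.single 0 1 := by
  rw [← sct_mulVec, Matrix.mulVec_mulVec, sci_mul_sct, Matrix.one_mulVec]

theorem smul_mk (g : GG k m) (v : Fin (m + 1) → k) (hv : v ≠ 0) :
    ∃ h : g.1 *ᵥ v ≠ 0, g • (Projectivization.mk k v hv : YY k m) =
      Projectivization.mk k (g.1 *ᵥ v) h :=
  ⟨(smul_ne_zero_iff_ne g).2 hv, rfl⟩

/-- `g` maps the normalised vector of `y` to a multiple of the normalised vector of `g y` -/
theorem mulVec_nv (g : GG k m) (y : YY k m) : ∃ t : kˣ, g.1 *ᵥ nv y = t • nv (g • y) := by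
  obtain ⟨h, e⟩ := smul_mk g (nv y) (nv_ne y)
  rw [mk_nv] at e
  have e2 : Projectivization.mk k (g.1 *ᵥ nv y) h =
      Projectivization.mk k (nv (g • y)) (nv_ne _) := by rw [mk_nv, e]
  obtain ⟨t, ht⟩ := (Projectivization.mk_eq_mk_iff _ _ _ _ _).1 e2
  exact ⟨t, ht.symm⟩

/-- `s(gy)⁻¹ g s(y)` -/
noncomputable def pp (g : GG k m) (y : YY k m) : Matrix (Fin (m + 1)) (Fin (m + 1)) k :=
  sci (g • y) * g.1 * sct y

theorem blk_eq (g : GG k m) (y : YY k m) : blk g y = (pp g y).submatrix Fin.succ Fin.succ := by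
  unfold blk pp
  rw [sct_inv]

theorem pp_mul (g h : GG k m) (y : YY k m) : pp (g * h) y = pp g (h • y) * pp h y := by
  unfold pp
  rw [SemigroupAction.mul_smul]
  have e : sct (h • y) * sci (h • y) = 1 := sct_mul_sci _
  calc sci (g • h • y) * (g * h).1 * sct y
      = sci (g • h • y) * g.1 * (sct (h • y) * sci (h • y)) * h.1 * sct y := by
        rw [e, mul_one]
        show sci (g • h • y) * (g.1 * h.1) * sct y = _
        simp only [mul_assoc]
    _ = _ := by simp only [mul_assoc]

theorem pp_one (y : YY k m) : pp 1 y = 1 := by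
  unfold pp
  rw [one_smul]
  show sci y * 1 * sct y = 1
  rw [mul_one, sci_mul_sct]

/-- the first column is a multiple of the first basis vector -/
theorem pp_col (g : GG k m) (y : YY k m) (i : Fin m) : pp g y i.succ 0 = 0 := by
  obtain ⟨t, ht⟩ := mulVec_nv g y
  have h1 : pp g y *ᵥ (Pi.single 0 1) = t • (Pi.single 0 1 : Fin (m + 1) → k) := by
    unfold pp
    rw [← Matrix.mulVec_mulVec, sct_mulVec, ← Matrix.mulVec_mulVec, ht, Units.smul_def,
      Matrix.mulVec_smul, sci_mulVec]
    rfl
  have h2 := congrFun h1 i.succ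
  rw [Matrix.mulVec_single_one, Pi.smul_apply, Pi.single_eq_of_ne (Fin.succ_ne_zero i),
    smul_zero] at h2
  exact h2

/-- block of a product -/
theorem sub_mul_of (A B : Matrix (Fin (m + 1)) (Fin (m + 1)) k) (hB : ∀ i : Fin m, A i.succ 0 = 0) :
    (A * B).submatrix Fin.succ Fin.succ =
      A.submatrix Fin.succ Fin.succ * B.submatrix Fin.succ Fin.succ := by
  ext i j
  rw [Matrix.submatrix_apply, Matrix.mul_apply, Matrix.mul_apply, Fin.sum_univ_succ, hB, zero_mul,
    zero_add]
  rfl

theorem blk_mul (g h : GG k m) (y : YY k m) : blk (g * h) y = blk g (h • y) * blk h y := by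
  rw [blk_eq, blk_eq, blk_eq, pp_mul]
  exact sub_mul_of _ _ (pp_col g _)

theorem blk_one (y : YY k m) : blk 1 y = 1 := by
  rw [blk_eq, pp_one]
  exact Matrix.submatrix_one _ (Fin.succ_injective _)

/-- the block as an invertible matrix -/
noncomputable def bu (g : GG k m) (y : YY k m) : GL (Fin m) k where
  val := blk g y
  inv := blk g⁻¹ (g • y)
  val_inv := by
    have := blk_mul g g⁻¹ (g • y)
    rw [mul_inv_cancel, blk_one, inv_smul_smul] at this
    exact this.symm
  inv_val := by
    have := blk_mul g⁻¹ g y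
    rw [inv_mul_cancel, blk_one] at this
    exact this.symm

theorem bu_val (g : GG k m) (y : YY k m) : (bu g y).1 = blk g y := rfl

theorem bu_inv_val (g : GG k m) (y : YY k m) : ((bu g y)⁻¹).1 = blk g⁻¹ (g • y) := rfl

theorem bu_mul (g h : GG k m) (y : YY k m) : bu (g * h) y = bu g (h • y) * bu h y :=
  Units.ext (blk_mul g h y)

theorem bu_one (y : YY k m) : bu 1 y = 1 := Units.ext (blk_one y)

theorem cc_eq (g : GG k m) (y : YY k m) :
    cc g y = (QuotientGroup.mk (bu g y) : PG k m) := by
  have h : IsUnit (blk g y) := (bu g y).isUnit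
  unfold cc
  rw [dif_pos h]
  congr 1
  exact Units.ext rfl

theorem cc_mul (g h : GG k m) (y : YY k m) : cc (g * h) y = cc g (h • y) * cc h y := by
  rw [cc_eq, cc_eq, cc_eq, bu_mul]
  rfl

theorem cc_one (y : YY k m) : cc 1 y = 1 := by
  rw [cc_eq, bu_one]
  rfl

theorem cc_inv (g : GG k m) (y : YY k m) : cc g⁻¹ y = (cc g (g⁻¹ • y))⁻¹ := by
  have := cc_mul g g⁻¹ y
  rw [mul_inv_cancel, cc_one] at this
  exact eq_inv_of_mul_eq_one_right this.symm

/-! ### Continuity -/

theorem continuous_pp [IsUltrametricDist k] :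
    Continuous fun p : GG k m × YY k m => pp p.1 p.2 := by
  have h1 : Continuous fun p : GG k m × YY k m => p.1 • p.2 := continuous_smul
  exact ((continuous_sci.comp h1).mul (continuous_subtype_val.comp continuous_fst)).mul
    (continuous_sct.comp continuous_snd)

theorem continuous_blk [IsUltrametricDist k] :
    Continuous fun p : GG k m × YY k m => blk p.1 p.2 := by
  simp only [blk_eq]
  exact continuous_pp.matrix_submatrix _ _

theorem continuous_bu [IsUltrametricDist k] :
    Continuous fun p : GG k m × YY k m => bu p.1 p.2 := by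
  have h2 : Continuous fun p : GG k m × YY k m => (p.1⁻¹, p.1 • p.2) :=
    (continuous_inv.comp continuous_fst).prodMk continuous_smul
  have h3 : Continuous ((fun p : GG k m × YY k m => blk p.1 p.2) ∘
      fun p : GG k m × YY k m => (p.1⁻¹, p.1 • p.2)) := continuous_blk.comp h2
  rw [Units.continuous_iff]
  refine ⟨continuous_blk, ?_⟩
  have e : (fun p : GG k m × YY k m => ((bu p.1 p.2)⁻¹).1) =
      fun p => blk p.1⁻¹ (p.1 • p.2) := by
    funext p
    exact bu_inv_val p.1 p.2
  rw [e]
  exact h3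

theorem continuous_mkPG : Continuous (fun g : GL (Fin m) k => (QuotientGroup.mk g : PG k m)) :=
  QuotientGroup.continuous_mk

theorem continuous_cc [IsUltrametricDist k] :
    Continuous fun p : GG k m × YY k m => cc p.1 p.2 := by
  have e : (fun p : GG k m × YY k m => cc p.1 p.2) =
      (fun g : GL (Fin m) k => (QuotientGroup.mk g : PG k m)) ∘ fun p => bu p.1 p.2 := by
    funext p
    exact cc_eq p.1 p.2
  rw [e]
  exact continuous_mkPG.comp continuous_bu

/-! ### The base point -/

theorem single_ne : (Pi.single 0 1 : Fin (m + 1) → k) ≠ 0 := by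
  intro h
  have := congrFun h 0
  simp at this

theorem ix_single : ix (Pi.single 0 1 : Fin (m + 1) → k) = 0 := by
  have h1 := ix_ne (k := k) (m := m) single_ne
  generalize ix (Pi.single 0 1 : Fin (m + 1) → k) = i at h1
  by_contra h
  exact h1 (Pi.single_eq_of_ne h 1)

theorem y0_eq : (y0 : YY k m) = pj k (Fin (m + 1)) ⟨Pi.single 0 1, single_ne⟩ := rfl

theorem ix_y0 : ix (y0 : YY k m).rep = 0 := by
  rw [y0_eq, ix_pj]
  exact ix_single

theorem nv_y0 : nv (y0 : YY k m) = Pi.single 0 1 := by
  rw [y0_eq, nv_pj]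
  funext j
  show (Pi.single 0 1 : Fin (m + 1) → k) j / (Pi.single 0 1 : Fin (m + 1) → k)
    (ix (Pi.single 0 1 : Fin (m + 1) → k)) = _
  rw [ix_single, Pi.single_eq_same, div_one]

theorem sct_y0 : sct (y0 : YY k m) = 1 := by
  ext a b
  refine Fin.cases ?_ (fun j => ?_) b
  · rw [sct_zero, nv_y0, Matrix.one_apply, Pi.single_apply]
  · rw [sct_succ, ix_y0, Fin.zero_succAbove, Matrix.one_apply]

theorem sci_y0 : sci (y0 : YY k m) = 1 := by
  have := sci_mul_sct (y0 : YY k m)
  rwa [sct_y0, mul_one] at this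

/-- `g y₀ = y` iff the first column of `g` is a multiple of the normalised vector of `y` -/
theorem smul_y0 (g : GG k m) (y : YY k m) :
    g • (y0 : YY k m) = y ↔ ∃ t : kˣ, ∀ a, g.1 a 0 = t * nv y a := by
  constructor
  · intro h
    obtain ⟨t, ht⟩ := mulVec_nv g (y0 : YY k m)
    rw [nv_y0, Matrix.mulVec_single_one, h] at ht
    exact ⟨t, fun a => congrFun ht a⟩
  · rintro ⟨t, ht⟩
    obtain ⟨h, e⟩ := smul_mk g (Pi.single 0 1) single_ne
    have e' : g • (y0 : YY k m) = Projectivization.mk k (g.1 *ᵥ Pi.single 0 1) h := e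
    rw [e', ← mk_nv y, Projectivization.mk_eq_mk_iff]
    refine ⟨t, ?_⟩
    funext a
    rw [Matrix.mulVec_single_one]
    exact (ht a).symm

/-- the stabiliser of the base point -/
theorem smul_y0_y0 (g : GG k m) :
    g • (y0 : YY k m) = y0 ↔ ∀ i : Fin m, g.1 i.succ 0 = 0 := by
  rw [smul_y0]
  constructor
  · rintro ⟨t, ht⟩ i
    rw [ht, nv_y0, Pi.single_eq_of_ne (Fin.succ_ne_zero i), mul_zero]
  · intro h
    have h0 : g.1 0 0 ≠ 0 := by
      intro h0
      have hc : g.1.det = 0 := by
        refine Matrix.det_eq_zero_of_column_eq_zero 0 fun a => ?_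
        refine Fin.cases h0 (fun i => h i) a
      rw [g.2] at hc
      exact one_ne_zero hc
    refine ⟨Units.mk0 _ h0, fun a => ?_⟩
    rw [nv_y0, Units.val_mk0]
    refine Fin.cases ?_ (fun i => ?_) a
    · rw [Pi.single_eq_same, mul_one]
    · rw [h i, Pi.single_eq_of_ne (Fin.succ_ne_zero i), mul_zero]

/-- the Levi block of an element of the stabiliser -/
theorem blk_y0 {g : GG k m} (h : g • (y0 : YY k m) = y0) :
    blk g y0 = g.1.submatrix Fin.succ Fin.succ := by
  rw [blk_eq]
  unfold pp
  rw [h, sci_y0, sct_y0, one_mul, mul_one]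

/-- in general, `blk g y₀ = (s(g y₀)⁻¹ g)` block -/
theorem blk_y0' (g : GG k m) :
    blk g y0 = (sci (g • y0) * g.1).submatrix Fin.succ Fin.succ := by
  rw [blk_eq]
  unfold pp
  rw [sct_y0, mul_one]

theorem surj (hm : 1 ≤ m) (y : YY k m) : ∃ g : GG k m, g • (y0 : YY k m) = y := by
  have hd : (sct y).det ≠ 0 := by
    intro h
    have := congrArg Matrix.det (sct_mul_sci y)
    rw [Matrix.det_mul, h, zero_mul, Matrix.det_one] at this
    exact zero_ne_one this
  obtain ⟨j0⟩ : Nonempty (Fin m) := ⟨⟨0, hm⟩⟩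
  let d : Fin (m + 1) → k := Function.update (fun _ => 1) j0.succ (sct y).det⁻¹
  have hdet : (sct y * Matrix.diagonal d).det = 1 := by
    rw [Matrix.det_mul, Matrix.det_diagonal, Finset.prod_update_of_mem (Finset.mem_univ _)]
    simp [hd]
  refine ⟨(⟨sct y * Matrix.diagonal d, hdet⟩ : GG k m), (smul_y0 _ _).2 ⟨1, fun a => ?_⟩⟩
  show (sct y * Matrix.diagonal d) a 0 = _
  rw [Matrix.mul_diagonal, sct_zero, Units.val_one, one_mul]
  have : d 0 = 1 := Function.update_of_ne (Fin.succ_ne_zero j0).symm _ _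
  rw [this, mul_one]

/-- block diagonal element of `SL_(m+1)` -/
theorem exists_lev (H : GL (Fin m) k) : ∃ g : GG k m, (∀ i : Fin m, g.1 i.succ 0 = 0) ∧
    (∀ i : Fin m, g.1 0 i.succ = 0) ∧ g.1.submatrix Fin.succ Fin.succ = H.1 := by
  have hd : H.1.det ≠ 0 := (Matrix.isUnit_iff_isUnit_det _).1 H.isUnit |>.ne_zero
  let A : Matrix (Fin (m + 1)) (Fin (m + 1)) k := Matrix.of fun a b =>
    Fin.cases (motive := fun _ => k) (Fin.cases (motive := fun _ => k) H.1.det⁻¹ (fun _ => 0) b)
      (fun i => Fin.cases (motive := fun _ => k) 0 (fun j => H.1 i j) b) a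
  have hdet : A.det = 1 := by
    rw [Matrix.det_succ_column_zero, Fin.sum_univ_succ]
    have h0 : ∀ i : Fin m, A i.succ 0 = 0 := fun i => rfl
    have h1 : A.submatrix (Fin.succAbove 0) Fin.succ = H.1 := by
      ext i j
      rw [Matrix.submatrix_apply, Fin.zero_succAbove]
      rfl
    have h2 : A 0 0 = H.1.det⁻¹ := rfl
    rw [h1, h2]
    simp only [h0, mul_zero, zero_mul, Finset.sum_const_zero, add_zero, Fin.val_zero, pow_zero,
      one_mul]
    exact inv_mul_cancel₀ hd
  exact ⟨⟨A, hdet⟩, fun i => rfl, fun i => rfl, by ext i j; rfl⟩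

theorem lev (h : PG k m) : ∃ g : GG k m, g • (y0 : YY k m) = y0 ∧ cc g (y0 : YY k m) = h := by
  obtain ⟨H, rfl⟩ := QuotientGroup.mk_surjective h
  obtain ⟨g, h1, h2, h3⟩ := exists_lev H
  have hg : g • (y0 : YY k m) = y0 := (smul_y0_y0 g).2 h1
  refine ⟨g, hg, ?_⟩
  rw [cc_eq]
  congr 1
  refine Units.ext ?_
  rw [bu_val, blk_y0 hg, h3]

/-! ### Topology of `PGL_m(k)` -/

section top

variable [ProperSpace k]

theorem sc_mat : SecondCountableTopology (Matrix (Fin m) (Fin m) k) :=
  inferInstanceAs (SecondCountableTopology (Fin m → Fin m → k))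

theorem sc_gl : SecondCountableTopology (GL (Fin m) k) := by
  have h1 : SecondCountableTopology (Matrix (Fin m) (Fin m) k) := sc_mat
  have h2 : SecondCountableTopology (Matrix (Fin m) (Fin m) k)ᵐᵒᵖ :=
    MulOpposite.opHomeomorph.symm.secondCountableTopology
  exact Units.isEmbedding_embedProduct.secondCountableTopology

theorem sc_pg : SecondCountableTopology (PG k m) := by
  have h1 : SecondCountableTopology (GL (Fin m) k) := sc_gl
  infer_instance

end top

theorem cl_center : IsClosed (Subgroup.center (GL (Fin m) k) : Set (GL (Fin m) k)) := by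
  rw [Subgroup.coe_center, ← Set.centralizer_univ]
  exact Set.isClosed_centralizer _

theorem t2_pg : T2Space (PG k m) := by
  have h1 : IsClosed (Subgroup.center (GL (Fin m) k) : Set (GL (Fin m) k)) := cl_center
  infer_instance

theorem tg_pg : IsTopologicalGroup (PG k m) := inferInstance

end sec

/-- **[C-GEO]** -/
theorem geoStmt : GeoStmt := by
  intro k _ _ _ m hm
  exact
    { tg := inferInstance
      tg₀ := tg_pg
      cact := continuous_smul
      cpt := inferInstance
      t2 := inferInstance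
      td := inferInstance
      t2₀ := t2_pg
      sc₀ := sc_pg
      mul := cc_mul
      cont := continuous_cc
      surj := surj hm
      lev := lev }

end Vale.Agent.P092.H200.Coc
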