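import Vale.Agent.P092.H200.Push

/-!
P092 (helper200): the elementary group `EL_n(R)`, `n ≥ 4`, over an arbitrary (not necessarily
commutative) ring `R` in which `1` has infinite additive order.
-/

namespace Vale.Agent.P092.H200

open Matrix

/-- a mean on the subgroup `K` gives a right `K`-invariant mean on `Λ`. -/
theorem IsInvMean.extend {Λ : Type} [Group Λ] {K : Subgroup Λ} {m : Set K → ℝ}
    (hm : IsInvMean (⊤ : Subgroup K) m) : IsInvMean K (fun A : Set Λ => m (Subtype.val ⁻¹' A)) where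
  nonneg A := hm.nonneg _
  univ := by simpa using hm.univ
  add A B h := by
    rw [Set.preimage_union]
    exact hm.add _ _ (h.preimage _)
  inv A v hv := by
    rw [← hm.inv (Subtype.val ⁻¹' A) ⟨v, hv⟩ (by trivial)]
    congr 1

/-- no right `K`-invariant mean on `Λ`  →  no mean on `K`. -/
theorem no_mean_top {Λ : Type} [Group Λ] (K : Subgroup Λ) (h : ¬ ∃ m, IsInvMean K m) :
    ¬ ∃ m, IsInvMean (⊤ : Subgroup K) m := fun ⟨_, hm⟩ => h ⟨_, hm.extend⟩

section

variable {R : Type} [Ring R] {n : ℕ}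

/-- elementary matrix as a unit of the matrix ring -/
def eu (i j : Fin n) (h : i ≠ j) (r : R) : (Matrix (Fin n) (Fin n) R)ˣ where
  val := 1 + single i j r
  inv := 1 + single i j (-r)
  val_inv := by
    have : single i j r * single i j (-r) = (0 : Matrix (Fin n) (Fin n) R) :=
      single_mul_single_of_ne _ _ _ _ h.symm _
    rw [mul_add, add_mul, add_mul, this, ← single_neg]
    simp
  inv_val := by
    have : single i j (-r) * single i j r = (0 : Matrix (Fin n) (Fin n) R) :=
      single_mul_single_of_ne _ _ _ _ h.symm _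
    rw [mul_add, add_mul, add_mul, this, ← single_neg]
    simp

/-- the elementary group `EL_n(R)` -/
def EL (n : ℕ) (R : Type) [Ring R] : Subgroup (Matrix (Fin n) (Fin n) R)ˣ :=
  Subgroup.closure {g | ∃ i j, ∃ h : i ≠ j, ∃ r : R, g = eu i j h r}

/-- elementary matrices as elements of `EL_n(R)` -/
def ee (i j : Fin n) (h : i ≠ j) (r : R) : EL n R :=
  ⟨eu i j h r, Subgroup.subset_closure ⟨i, j, h, r, rfl⟩⟩

theorem eu_comm {i j i' j' : Fin n} (h : i ≠ j) (h' : i' ≠ j') (h1 : j ≠ i') (h2 : j' ≠ i)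
    (c d : R) : eu i j h c * eu i' j' h' d = eu i' j' h' d * eu i j h c := by
  apply Units.ext
  show (1 + single i j c) * (1 + single i' j' d) = (1 + single i' j' d) * (1 + single i j c)
  have e1 : single i j c * single i' j' d = (0 : Matrix (Fin n) (Fin n) R) :=
    single_mul_single_of_ne _ _ _ _ h1 _
  have e2 : single i' j' d * single i j c = (0 : Matrix (Fin n) (Fin n) R) :=
    single_mul_single_of_ne _ _ _ _ h2 _
  rw [mul_add, add_mul, add_mul, mul_add, add_mul, add_mul, e1, e2]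
  simp only [one_mul, mul_one]
  abel

theorem ee_comm {i j i' j' : Fin n} (h : i ≠ j) (h' : i' ≠ j') (h1 : j ≠ i') (h2 : j' ≠ i)
    (c d : R) : ee i j h c * ee i' j' h' d = ee i' j' h' d * ee i j h c :=
  Subtype.ext (eu_comm h h' h1 h2 c d)

theorem eu_mul (i j : Fin n) (h : i ≠ j) (c d : R) : eu i j h c * eu i j h d = eu i j h (c + d) := by
  apply Units.ext
  show (1 + single i j c) * (1 + single i j d) = 1 + single i j (c + d)
  have e1 : single i j c * single i j d = (0 : Matrix (Fin n) (Fin n) R) :=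
    single_mul_single_of_ne _ _ _ _ h.symm _
  rw [mul_add, add_mul, add_mul, e1, single_add]
  simp only [one_mul, mul_one, add_zero]
  abel

theorem eu_pow (i j : Fin n) (h : i ≠ j) (c : R) (k : ℕ) : eu i j h c ^ k = eu i j h (k * c) := by
  induction k with
  | zero =>
    apply Units.ext
    show (1 : Matrix (Fin n) (Fin n) R) = 1 + single i j _
    simp
  | succ k ih => rw [pow_succ, ih, eu_mul]; congr 1; push_cast; rw [add_mul, one_mul]

theorem ee_pow_ne_one [CharZero R] (i j : Fin n) (h : i ≠ j) (k : ℕ) (hk : k ≠ 0) :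
    ee i j h (1 : R) ^ k ≠ 1 := by
  intro e
  have e1 : eu i j h (1 : R) ^ k = 1 := congrArg Subtype.val e
  rw [eu_pow] at e1
  have e2 := congrArg (fun u : (Matrix (Fin n) (Fin n) R)ˣ => (u : Matrix (Fin n) (Fin n) R) i j) e1
  have e3 : (1 + single i j ((k : R) * 1)) i j = (1 : Matrix (Fin n) (Fin n) R) i j := e2
  simp [h] at e3
  exact hk e3

theorem closure_ee (S : Subgroup (EL n R)) (hS : ∀ i j (h : i ≠ j) (c : R), ee i j h c ∈ S) :
    S = ⊤ := by
  rw [eq_top_iff]
  rintro ⟨g, hg⟩ -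
  have : EL n R ≤ S.map (EL n R).subtype := by
    refine (Subgroup.closure_le _).mpr ?_
    rintro g ⟨i, j, h, r, rfl⟩
    exact ⟨ee i j h r, hS i j h r, rfl⟩
  obtain ⟨s, hs, hs'⟩ := this hg
  have : s = ⟨g, hg⟩ := Subtype.ext hs'
  exact this ▸ hs

/-- `SL_n(ℤ) → GL_n(R)` -/
def castHom (n : ℕ) (R : Type) [Ring R] :
    SpecialLinearGroup (Fin n) ℤ →* (Matrix (Fin n) (Fin n) R)ˣ :=
  (Units.map (RingHom.mapMatrix (Int.castRingHom R) :
    Matrix (Fin n) (Fin n) ℤ →+* Matrix (Fin n) (Fin n) R).toMonoidHom).comp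
    SpecialLinearGroup.toGL

theorem castHom_apply (g : SpecialLinearGroup (Fin n) ℤ) (i j : Fin n) :
    ((castHom n R g : (Matrix (Fin n) (Fin n) R)ˣ) : Matrix (Fin n) (Fin n) R) i j =
      ((g i j : ℤ) : R) := rfl

theorem castHom_injective [CharZero R] : Function.Injective (castHom n R) := by
  intro g h e
  ext i j
  have := congrArg (fun u : (Matrix (Fin n) (Fin n) R)ˣ => (u : Matrix (Fin n) (Fin n) R) i j) e
  simp only [castHom_apply] at this
  exact_mod_cast this

theorem castHom_el (i j : Fin n) (h : i ≠ j) (c : ℤ) : castHom n R (el i j h c) =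
    eu i j h (c : R) := by
  apply Units.ext
  ext a b
  rw [castHom_apply]
  show ((transvection i j c a b : ℤ) : R) = (1 + single i j (c : R)) a b
  simp only [transvection, Matrix.add_apply, Matrix.one_apply, Matrix.single_apply]
  push_cast
  split_ifs <;> simp

/-- no mean on `EL_n(R)` invariant under right multiplication by a subgroup containing the
integral elementary matrices of a block `{i, j}`. -/
theorem no_mean_block_EL [CharZero R] (i j : Fin n) (h : i ≠ j) (K : Subgroup (EL n R))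
    (h1 : ∀ c : ℤ, ee i j h (c : R) ∈ K) (h2 : ∀ c : ℤ, ee j i h.symm (c : R) ∈ K) :
    ¬ ∃ m, IsInvMean K m := by
  let K₁ : Subgroup (SpecialLinearGroup (Fin n) ℤ) := Subgroup.comap (castHom n R)
    (K.map (EL n R).subtype)
  have hK₁ : ∀ v ∈ K₁, ∃ u ∈ K, (u : (Matrix (Fin n) (Fin n) R)ˣ) = castHom n R v := by
    intro v hv
    obtain ⟨u, hu, hu'⟩ := hv
    exact ⟨u, hu, hu'⟩
  let φ : K₁ →* EL n R := ((castHom n R).comp K₁.subtype).codRestrict (EL n R) (by
    rintro ⟨v, hv⟩
    obtain ⟨u, -, hu'⟩ := hK₁ v hv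
    show castHom n R v ∈ EL n R
    rw [← hu']
    exact u.2)
  have hφ : Function.Injective φ := by
    intro a b e
    apply Subtype.ext
    apply castHom_injective (R := R)
    exact congrArg Subtype.val e
  refine no_mean_of_inj φ hφ (no_mean_top K₁ (no_mean_block i j h K₁ ?_ ?_)) K ?_
  · intro c
    exact ⟨_, h1 c, (castHom_el i j h c).symm⟩
  · intro c
    exact ⟨_, h2 c, (castHom_el j i h.symm c).symm⟩
  · rintro ⟨v, hv⟩
    obtain ⟨u, hu, hu'⟩ := hK₁ v hv
    have : φ ⟨v, hv⟩ = u := Subtype.ext hu'.symm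
    rw [this]
    exact hu

/-- **T5 for `EL_n(R)`**, `n ≥ 4`, `R` any ring of characteristic zero. -/
theorem eln_hyp [CharZero R] (hn : 4 ≤ n) :
    ∃ (x y : EL n R) (K : Subgroup (EL n R)),
      (∀ k : ℕ, k ≠ 0 → x ^ k ≠ 1) ∧ (∀ k : ℕ, k ≠ 0 → y ^ k ≠ 1) ∧
      (∀ v ∈ K, v * x = x * v) ∧ (∀ v ∈ K, v * y = y * v) ∧
      Subgroup.closure ({v | v * x = x * v} ∪ {v | v * y = y * v}) = ⊤ ∧
      ¬ ∃ m, IsInvMean K m := by
  let i0 : Fin n := ⟨0, by omega⟩
  let i1 : Fin n := ⟨1, by omega⟩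
  let i2 : Fin n := ⟨2, by omega⟩
  let i3 : Fin n := ⟨3, by omega⟩
  have h03 : i0 ≠ i3 := by simp [i0, i3]
  have h12 : i1 ≠ i2 := by simp [i1, i2]
  have h01 : i0 ≠ i1 := by simp [i0, i1]
  have h02 : i0 ≠ i2 := by simp [i0, i2]
  have h13 : i1 ≠ i3 := by simp [i1, i3]
  have h23 : i2 ≠ i3 := by simp [i2, i3]
  refine ⟨ee i0 i3 h03 1, ee i3 i0 h03.symm 1,
    Subgroup.centralizer {ee i0 i3 h03 1, ee i3 i0 h03.symm 1},
    ee_pow_ne_one _ _ _, ee_pow_ne_one _ _ _, ?_, ?_, ?_, ?_⟩
  · intro v hv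
    rw [Subgroup.mem_centralizer_iff] at hv
    exact (hv _ (by simp)).symm
  · intro v hv
    rw [Subgroup.mem_centralizer_iff] at hv
    exact (hv _ (by simp)).symm
  · apply closure_ee
    intro i j h c
    apply Subgroup.subset_closure
    by_cases hx : j ≠ i0 ∧ i3 ≠ i
    · left
      exact ee_comm h h03 hx.1 hx.2 c 1
    · right
      have hy : j ≠ i3 ∧ i0 ≠ i := by
        by_cases hj : j = i0
        · subst hj
          exact ⟨h03, fun e => h e.symm⟩
        · have hi : i3 = i := by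
            by_contra hi
            exact hx ⟨hj, hi⟩
          subst hi
          exact ⟨fun e => h e.symm, h03⟩
      exact ee_comm h h03.symm hy.1 hy.2 c 1
  · refine no_mean_block_EL i1 i2 h12 _ ?_ ?_
    · intro c
      rw [Subgroup.mem_centralizer_iff]
      rintro g (rfl | rfl)
      · exact ee_comm h03 h12 h13.symm h02.symm 1 _
      · exact ee_comm h03.symm h12 h01 h23 1 _
    · intro c
      rw [Subgroup.mem_centralizer_iff]
      rintro g (rfl | rfl)
      · exact ee_comm h03 h12.symm h23.symm h01.symm 1 _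
      · exact ee_comm h03.symm h12.symm h02 h13 1 _

end

end Vale.Agent.P092.H200
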