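import Vale.Agent.P092.H200.Graph

/-!
P092 (helper200): the elementary groups `EL_n(R)`, `n ≥ 4`, over every ring `R` containing a
commutative domain `S` with an unbounded absolute value (e.g. `ℤ` or `F_p[t]`).
-/

namespace Vale.Agent.P092.H200

open Matrix

section

variable {S : Type} [CommRing S] {n : ℕ}

/-- the `l¹`-norm attached to an absolute value -/
noncomputable def an (abv : AbsoluteValue S ℝ) (v : Fin n → S) : ℝ := ∑ i, abv (v i)

theorem an_add (abv : AbsoluteValue S ℝ) (v w : Fin n → S) : an abv (v + w) ≤ an abv v + an abv w := by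
  unfold an
  rw [← Finset.sum_add_distrib]
  exact Finset.sum_le_sum fun i _ => abv.add_le _ _

theorem an_smul (abv : AbsoluteValue S ℝ) (v : Fin n → S) (r : S) :
    an abv (fun i => v i * r) = an abv v * abv r := by
  unfold an
  rw [Finset.sum_mul]
  exact Finset.sum_congr rfl fun i _ => abv.map_mul _ _

theorem an_pos (abv : AbsoluteValue S ℝ) {v : Fin n → S} (hv : v ≠ 0) : 0 < an abv v := by
  unfold an
  obtain ⟨i, hi⟩ : ∃ i, v i ≠ 0 := by
    by_contra h
    push Not at h
    exact hv (funext h)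
  exact Finset.sum_pos' (fun i _ => abv.nonneg _) ⟨i, Finset.mem_univ _, abv.pos hi⟩

theorem an_neg (abv : AbsoluteValue S ℝ) (v : Fin n → S) : an abv (-v) = an abv v := by
  unfold an
  exact Finset.sum_congr rfl fun i _ => abv.map_neg _

theorem an_sep (abv : AbsoluteValue S ℝ) {p q : Fin n → S} (hp : p ≠ 0) {s t : S}
    (hst : 2 < abv (s - t)) (h1 : an abv (q + fun i => p i * s) ≤ an abv p)
    (h2 : an abv (q + fun i => p i * t) ≤ an abv p) : False := by
  have e : (fun i => p i * (s - t)) = (q + fun i => p i * s) + -(q + fun i => p i * t) := by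
    ext i; simp only [Pi.add_apply, Pi.neg_apply]; ring
  have h3 := an_add abv (q + fun i => p i * s) (-(q + fun i => p i * t))
  rw [← e, an_neg, an_smul] at h3
  have := an_pos abv hp
  nlinarith

/-- column of a matrix in `EL_n(S)` -/
def col' (w : EL n S) (j : Fin n) : Fin n → S :=
  fun i => ((w : (Matrix (Fin n) (Fin n) S)ˣ) : Matrix (Fin n) (Fin n) S) i j

theorem col'_ne_zero [Nontrivial S] (w : EL n S) (j : Fin n) : col' w j ≠ 0 := by
  intro h
  let u : (Matrix (Fin n) (Fin n) S)ˣ := w
  have h1 : (u⁻¹ : (Matrix (Fin n) (Fin n) S)ˣ).val * u.val = 1 := u.inv_mul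
  have h2 := congrFun (congrFun h1 j) j
  rw [Matrix.mul_apply] at h2
  have h3 : ∀ i, u.val i j = 0 := fun i => congrFun h i
  simp [h3] at h2

theorem col'_mul (w : EL n S) (i j : Fin n) (h : i ≠ j) (r : S) :
    col' (w * ee i j h r) j = col' w j + (fun a => col' w i a * r) ∧
      col' (w * ee i j h r) i = col' w i := by
  constructor
  · ext a
    show (((w : (Matrix (Fin n) (Fin n) S)ˣ) : Matrix (Fin n) (Fin n) S) *
      (1 + single i j r)) a j = _
    simp [col', mul_add, Matrix.mul_single_eq_updateCol_zero, mul_comm]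
  · ext a
    show (((w : (Matrix (Fin n) (Fin n) S)ˣ) : Matrix (Fin n) (Fin n) S) *
      (1 + single i j r)) a i = _
    simp [col', mul_add, Matrix.mul_single_eq_updateCol_zero, h]

/-- no mean, over a domain with an unbounded absolute value -/
theorem no_mean_block_abv [Nontrivial S] (abv : AbsoluteValue S ℝ) (r : ℕ → S)
    (hr : ∀ k l, k ≠ l → 2 < abv (r k - r l)) (i j : Fin n) (h : i ≠ j) (K : Subgroup (EL n S))
    (h1 : ∀ c, ee i j h c ∈ K) (h2 : ∀ c, ee j i h.symm c ∈ K) : NoMean K := by
  rintro ⟨m, hm⟩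
  refine hm.false_of_two {w | an abv (col' w j) ≤ an abv (col' w i)}
    {w | an abv (col' w i) ≤ an abv (col' w j)}
    (fun w => by simp only [Set.mem_ofPred_eq]; exact le_total _ _)
    (fun k => ee i j h (r k)) (fun k => ee j i h.symm (r k))
    (fun k => h1 _) (fun k => h2 _) ?_ ?_
  · intro k l hkl w hk hl
    simp only [Set.mem_ofPred_eq] at hk hl
    rw [(col'_mul w i j h _).1, (col'_mul w i j h _).2] at hk hl
    exact an_sep abv (col'_ne_zero w i) (hr k l hkl) hk hl
  · intro k l hkl w hk hl
    simp only [Set.mem_ofPred_eq] at hk hl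
    rw [(col'_mul w j i h.symm _).1, (col'_mul w j i h.symm _).2] at hk hl
    exact an_sep abv (col'_ne_zero w j) (hr k l hkl) hk hl

end

section

variable {S R : Type} [CommRing S] [Ring R] {n : ℕ}

/-- `GL_n(S) → GL_n(R)` -/
def mapU (f : S →+* R) : (Matrix (Fin n) (Fin n) S)ˣ →* (Matrix (Fin n) (Fin n) R)ˣ :=
  Units.map (RingHom.mapMatrix f : Matrix (Fin n) (Fin n) S →+* Matrix (Fin n) (Fin n) R).toMonoidHom

theorem mapU_apply (f : S →+* R) (g : (Matrix (Fin n) (Fin n) S)ˣ) (i j : Fin n) :
    (mapU f g : Matrix (Fin n) (Fin n) R) i j = f ((g : Matrix (Fin n) (Fin n) S) i j) := rfl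

theorem mapU_injective (f : S →+* R) (hf : Function.Injective f) :
    Function.Injective (mapU (n := n) f) := by
  intro g h e
  ext i j
  have := congrArg (fun u : (Matrix (Fin n) (Fin n) R)ˣ => (u : Matrix (Fin n) (Fin n) R) i j) e
  simp only [mapU_apply] at this
  exact hf this

theorem mapU_eu (f : S →+* R) (i j : Fin n) (h : i ≠ j) (c : S) :
    mapU f (eu i j h c) = eu i j h (f c) := by
  apply Units.ext
  ext a b
  rw [mapU_apply]
  show f ((1 + single i j c) a b) = (1 + single i j (f c)) a b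
  simp only [Matrix.add_apply, Matrix.one_apply, Matrix.single_apply, map_add]
  split_ifs <;> simp

/-- no mean over `R ⊇ S` -/
theorem no_mean_block_R [Nontrivial S] (f : S →+* R) (hf : Function.Injective f)
    (abv : AbsoluteValue S ℝ) (r : ℕ → S)
    (hr : ∀ k l, k ≠ l → 2 < abv (r k - r l)) (i j : Fin n) (h : i ≠ j) (K : Subgroup (EL n R))
    (h1 : ∀ c, ee i j h (f c) ∈ K) (h2 : ∀ c, ee j i h.symm (f c) ∈ K) : NoMean K := by
  let ψ : EL n S →* EL n R := ((mapU f).comp (EL n S).subtype).codRestrict (EL n R) (by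
    have : EL n S ≤ (EL n R).comap (mapU f) := by
      refine (Subgroup.closure_le _).mpr ?_
      rintro g ⟨i, j, h, r, rfl⟩
      show mapU f (eu i j h r) ∈ EL n R
      rw [mapU_eu]
      exact (ee i j h (f r)).2
    rintro ⟨v, hv⟩
    exact this hv)
  have hψ : Function.Injective ψ := by
    intro a b e
    apply Subtype.ext
    apply mapU_injective f hf
    exact congrArg Subtype.val e
  have hψe : ∀ i j (h : i ≠ j) (c : S), ψ (ee i j h c) = ee i j h (f c) := by
    intro i j h c
    exact Subtype.ext (mapU_eu f i j h c)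
  have hK : NoMean (K.comap ψ) := by
    refine no_mean_block_abv abv r hr i j h _ ?_ ?_
    · intro c
      show ψ (ee i j h c) ∈ K
      rw [hψe]; exact h1 c
    · intro c
      show ψ (ee j i h.symm c) ∈ K
      rw [hψe]; exact h2 c
  refine (hK.map ψ hψ).mono ?_
  rintro _ ⟨v, hv, rfl⟩
  exact hv

theorem ee_mul (i j : Fin n) (h : i ≠ j) (c d : R) : ee i j h c * ee i j h d = ee i j h (c + d) :=
  Subtype.ext (eu_mul i j h c d)

theorem ee_injective (i j : Fin n) (h : i ≠ j) : Function.Injective (ee (R := R) i j h) := by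
  intro c d e
  have e1 := congrArg (fun u : EL n R => ((u : (Matrix (Fin n) (Fin n) R)ˣ) :
    Matrix (Fin n) (Fin n) R) i j) e
  have e2 : (1 + single i j c) i j = (1 + single i j d : Matrix (Fin n) (Fin n) R) i j := e1
  simpa [h] using e2

/-- the root subgroup with entries in `S` -/
def rootS (f : S →+* R) (i j : Fin n) (h : i ≠ j) : Subgroup (EL n R) where
  carrier := {g | ∃ c : S, g = ee i j h (f c)}
  one_mem' := ⟨0, by
    apply Subtype.ext
    apply Units.ext
    show (1 : Matrix (Fin n) (Fin n) R) = 1 + single i j (f 0)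
    simp⟩
  mul_mem' := by
    rintro _ _ ⟨c, rfl⟩ ⟨d, rfl⟩
    exact ⟨c + d, by rw [ee_mul, map_add]⟩
  inv_mem' := by
    rintro _ ⟨c, rfl⟩
    refine ⟨-c, ?_⟩
    rw [inv_eq_iff_mul_eq_one, ee_mul, ← map_add, add_neg_cancel, map_zero]
    apply Subtype.ext
    apply Units.ext
    show 1 + single i j (0 : R) = (1 : Matrix (Fin n) (Fin n) R)
    simp

theorem rootS_vertex [Infinite S] (f : S →+* R) (hf : Function.Injective f) (i j : Fin n)
    (h : i ≠ j) : Vertex (rootS f i j h) := by
  constructor
  · exact Infinite.of_injective (fun c : S => (⟨ee i j h (f c), c, rfl⟩ : rootS f i j h)) (by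
      intro c d e
      exact hf (ee_injective i j h (congrArg Subtype.val e)))
  · rintro _ ⟨c, rfl⟩ _ ⟨d, rfl⟩
    rw [ee_mul, ee_mul, add_comm]

/-- **`EL_n(R)`, `n ≥ 4`**, `R` any ring containing a commutative domain `S` with a sufficiently
unbounded absolute value. -/
theorem clustered_EL_of (hn : 4 ≤ n) [Nontrivial S] (f : S →+* R)
    (hf : Function.Injective f) (abv : AbsoluteValue S ℝ) (r : ℕ → S)
    (hr : ∀ k l, k ≠ l → 2 < abv (r k - r l)) : Clustered (EL n R) := by
  have hinf : Infinite S := Infinite.of_injective r (by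
    intro k l e
    by_contra hkl
    have := hr k l hkl
    rw [e, sub_self, map_zero] at this
    linarith)
  let i0 : Fin n := ⟨0, by omega⟩
  let i1 : Fin n := ⟨1, by omega⟩
  let i2 : Fin n := ⟨2, by omega⟩
  let i3 : Fin n := ⟨3, by omega⟩
  have h03 : i0 ≠ i3 := by simp [i0, i3]
  have h12 : i1 ≠ i2 := by simp [i1, i2]
  have h01 : i0 ≠ i1 := by simp [i0, i1]
  have h02 : i0 ≠ i2 := by simp [i0, i2]
  have h13 : i1 ≠ i3 := by simp [i1, i3]
  have h23 : i2 ≠ i3 := by simp [i2, i3]
  have hVx := rootS_vertex f hf i0 i3 h03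
  have hVy := rootS_vertex f hf i3 i0 h03.symm
  have hcx : ∀ i j (h : i ≠ j) (c : R), j ≠ i0 → i3 ≠ i → ee i j h c ∈ cent (rootS f i0 i3 h03) := by
    intro i j h c e1 e2
    rw [Subgroup.mem_centralizer_iff]
    rintro _ ⟨d, rfl⟩
    exact (ee_comm h h03 e1 e2 c (f d)).symm
  have hcy : ∀ i j (h : i ≠ j) (c : R), j ≠ i3 → i0 ≠ i →
      ee i j h c ∈ cent (rootS f i3 i0 h03.symm) := by
    intro i j h c e1 e2
    rw [Subgroup.mem_centralizer_iff]
    rintro _ ⟨d, rfl⟩
    exact (ee_comm h h03.symm e1 e2 c (f d)).symm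
  have hK : NoMean (cent (rootS f i0 i3 h03) ⊓ cent (rootS f i3 i0 h03.symm)) := by
    refine no_mean_block_R f hf abv r hr i1 i2 h12 _ ?_ ?_
    · intro c
      exact ⟨hcx _ _ _ _ h02.symm h13.symm, hcy _ _ _ _ h23 h01⟩
    · intro c
      exact ⟨hcx _ _ _ _ h01.symm h23.symm, hcy _ _ _ _ h13 h02⟩
  have hxy : Joined (rootS f i0 i3 h03) (rootS f i3 i0 h03.symm) := Link.joined ⟨hVx, hVy, hK⟩
  refine ⟨rootS f i0 i3 h03, ⟨hVx, hVx, hK.mono (le_inf inf_le_left inf_le_left)⟩, ?_⟩
  have htop : stab (rootS f i0 i3 h03) = ⊤ := by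
    apply closure_ee
    intro i j h c
    by_cases hx : j ≠ i0 ∧ i3 ≠ i
    · exact cent_le_stab_self _ (hcx i j h c hx.1 hx.2)
    · have hy : j ≠ i3 ∧ i0 ≠ i := by
        by_cases hj : j = i0
        · subst hj
          exact ⟨h03, fun e => h e.symm⟩
        · have hi : i3 = i := by
            by_contra hi
            exact hx ⟨hj, hi⟩
          subst hi
          exact ⟨fun e => h e.symm, h03⟩
      exact cent_le_stab hxy (hcy i j h c hy.1 hy.2)
  rw [htop]
  infer_instance

end

/-- the absolute value `3^deg` on `k[t]` -/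
noncomputable def polyAbv (k : Type) [CommRing k] [IsDomain k] :
    AbsoluteValue (Polynomial k) ℝ where
  toFun f := by classical exact if f = 0 then 0 else (3 : ℝ) ^ f.natDegree
  map_mul' f g := by
    classical
    by_cases hf : f = 0
    · simp [hf]
    by_cases hg : g = 0
    · simp [hg]
    simp only [hf, hg, mul_eq_zero, or_self, if_false]
    rw [Polynomial.natDegree_mul hf hg, pow_add]
  nonneg' f := by
    classical
    by_cases hf : f = 0
    · simp [hf]
    · simp only [hf, if_false]; positivity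
  eq_zero' f := by
    classical
    by_cases hf : f = 0
    · simp [hf]
    · simp [hf]
  add_le' f g := by
    classical
    by_cases hf : f = 0
    · simp [hf]
    by_cases hg : g = 0
    · simp [hg]
    by_cases hfg : f + g = 0
    · simp only [hfg, hf, hg, if_true, if_false]; positivity
    · simp only [hfg, hf, hg, if_false]
      have h1 := Polynomial.natDegree_add_le f g
      rcases le_max_iff.mp h1 with h | h
      · have h2 : (3 : ℝ) ^ (f + g).natDegree ≤ 3 ^ f.natDegree :=
          pow_le_pow_right₀ (by norm_num) h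
        have h3 : (0 : ℝ) ≤ 3 ^ g.natDegree := by positivity
        linarith
      · have h2 : (3 : ℝ) ^ (f + g).natDegree ≤ 3 ^ g.natDegree :=
          pow_le_pow_right₀ (by norm_num) h
        have h3 : (0 : ℝ) ≤ 3 ^ f.natDegree := by positivity
        linarith

theorem polyAbv_apply (k : Type) [CommRing k] [IsDomain k] {f : Polynomial k} (hf : f ≠ 0) :
    polyAbv k f = 3 ^ f.natDegree := by
  classical
  have : polyAbv k f = if f = 0 then (0 : ℝ) else (3 : ℝ) ^ f.natDegree := rfl
  rw [this, if_neg hf]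

theorem polyAbv_sep (k : Type) [CommRing k] [IsDomain k] (a b : ℕ) (h : a ≠ b) :
    2 < polyAbv k (Polynomial.X ^ a - Polynomial.X ^ b) := by
  wlog hab : b < a generalizing a b
  · rw [← AbsoluteValue.map_neg, neg_sub]
    exact this b a h.symm (by omega)
  have hd : (Polynomial.X ^ a - Polynomial.X ^ b : Polynomial k).natDegree = a := by
    rw [Polynomial.natDegree_sub_eq_left_of_natDegree_lt]
    · simp
    · simpa using hab
  have hne : (Polynomial.X ^ a - Polynomial.X ^ b : Polynomial k) ≠ 0 := by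
    intro e
    rw [e] at hd
    simp at hd
    omega
  rw [polyAbv_apply k hne, hd]
  have h1 : (3 : ℝ) ^ 1 ≤ 3 ^ a := pow_le_pow_right₀ (by norm_num) (by omega)
  linarith

/-- **`EL_n(R)`, `n ≥ 4`**, `R` any ring containing a polynomial ring `k[t]` over a domain `k`,
for instance over `F_p`. -/
theorem clustered_EL_poly {R k : Type} [Ring R] [CommRing k] [IsDomain k] {n : ℕ} (hn : 4 ≤ n)
    (f : Polynomial k →+* R) (hf : Function.Injective f) : Clustered (EL n R) :=
  clustered_EL_of hn f hf (polyAbv k) (fun a => Polynomial.X ^ a) (polyAbv_sep k)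

/-- `EL_n(R)`, `n ≥ 4`, `R` any ring which contains an element `t` transcendental over `F_p`, or
has characteristic zero. -/
theorem clustered_EL' (n : ℕ) (hn : 4 ≤ n) (R : Type) [Ring R]
    (h : CharZero R ∨ ∃ (p : ℕ) (_ : Fact p.Prime) (f : Polynomial (ZMod p) →+* R),
      Function.Injective f) : Clustered (EL n R) := by
  rcases h with h | ⟨p, hp, f, hf⟩
  · exact clustered_EL n hn R
  · exact clustered_EL_poly hn f hf

end Vale.Agent.P092.H200
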