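import Vale.Agent.P092.H200.T5

/-!
P092 (helper200): for `n ≥ 3`, `q ≠ 0`, the elementary matrices `1 + q c E_ij` generate a subgroup of
finite index of `SL_n(ℤ)`.  (From bounded generation.)
-/

namespace Vale.Agent.P092.H200

open Matrix

variable {n : ℕ}

/-- subgroup generated by the elementary matrices with entries in `qℤ` -/
def Elq (n : ℕ) (q : ℤ) : Subgroup (SpecialLinearGroup (Fin n) ℤ) :=
  Subgroup.closure {g | ∃ i j, ∃ h : i ≠ j, ∃ c : ℤ, g = el i j h (q * c)}

theorem el_mem_Elq (q : ℤ) (i j : Fin n) (h : i ≠ j) (c : ℤ) : el i j h (q * c) ∈ Elq n q :=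
  Subgroup.subset_closure ⟨i, j, h, c, rfl⟩

theorem el_mem_Elq' {q : ℤ} (i j : Fin n) (h : i ≠ j) {c : ℤ} (hc : q ∣ c) :
    el i j h c ∈ Elq n q := by
  obtain ⟨d, rfl⟩ := hc
  exact el_mem_Elq q i j h d

theorem el_inv (i j : Fin n) (h : i ≠ j) (c : ℤ) : (el i j h c)⁻¹ = el i j h (-c) := by
  rw [inv_eq_iff_mul_eq_one, el_mul, add_neg_cancel, el_zero]

theorem Elq_mono {q q' : ℤ} (h : q ∣ q') : Elq n q' ≤ Elq n q := by
  refine (Subgroup.closure_le _).mpr ?_
  rintro g ⟨i, j, hij, c, rfl⟩
  exact el_mem_Elq' _ _ _ (h.mul_right c)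

theorem el_mul_right (i j k : Fin n) (hij : i ≠ j) (hjk : j ≠ k) (hik : i ≠ k) (a b : ℤ) :
    el i j hij a * el j k hjk b = el j k hjk b * el i k hik (a * b) * el i j hij a := by
  apply Subtype.ext
  show transvection i j a * transvection j k b =
    transvection j k b * transvection i k (a * b) * transvection i j a
  have e1 : single i j a * single j k b = single i k (a * b) := single_mul_single_same _ _ _ _ _
  have e2 : single j k b * single i k (a * b) = 0 := single_mul_single_of_ne _ _ _ _ hik.symm _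
  have e3 : single j k b * single i j a = 0 := single_mul_single_of_ne _ _ _ _ hik.symm _
  have e4 : single i k (a * b) * single i j a = 0 := single_mul_single_of_ne _ _ _ _ hik.symm _
  simp only [transvection, add_mul, mul_add, one_mul, mul_one, e1, e2, e3, e4, add_zero]
  abel

theorem el_mul_left (i j k : Fin n) (hij : i ≠ j) (hki : k ≠ i) (hkj : k ≠ j) (a b : ℤ) :
    el i j hij a * el k i hki b = el k i hki b * el k j hkj (-(b * a)) * el i j hij a := by
  apply Subtype.ext
  show transvection i j a * transvection k i b =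
    transvection k i b * transvection k j (-(b * a)) * transvection i j a
  have e1 : single i j a * single k i b = 0 := single_mul_single_of_ne _ _ _ _ hkj.symm _
  have e2 : single k i b * single k j (b * a) = 0 := single_mul_single_of_ne _ _ _ _ hki.symm _
  have e3 : single k i b * single i j a = single k j (b * a) := single_mul_single_same _ _ _ _ _
  have e4 : single k j (b * a) * single i j a = 0 := single_mul_single_of_ne _ _ _ _ hij.symm _
  simp only [transvection, add_mul, mul_add, one_mul, mul_one, ← single_neg, mul_neg, neg_mul,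
    e1, e2, e3, e4, add_zero]
  abel

/-- conjugation by one elementary matrix maps `Elq (q²)` into `Elq q`. -/
theorem conj_el_mem (hn : 3 ≤ n) (q : ℤ) (k l : Fin n) (hkl : k ≠ l) (a : ℤ)
    (g : SpecialLinearGroup (Fin n) ℤ) (hg : g ∈ Elq n (q * q)) :
    el k l hkl a * g * (el k l hkl a)⁻¹ ∈ Elq n q := by
  -- it suffices to treat generators
  suffices H : ∀ i j (h : i ≠ j) (c : ℤ), el k l hkl a * el i j h (q * q * c) * (el k l hkl a)⁻¹ ∈
      Elq n q by
    have : Elq n (q * q) ≤ (Elq n q).comap (MulAut.conj (el k l hkl a)).toMonoidHom := by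
      refine (Subgroup.closure_le _).mpr ?_
      rintro g ⟨i, j, h, c, rfl⟩
      exact H i j h c
    exact this hg
  -- conjugates of elementary matrices, not opposite
  have H1 : ∀ i j (h : i ≠ j) (c : ℤ), ¬ (i = l ∧ j = k) → q ∣ c →
      el k l hkl a * el i j h c * (el k l hkl a)⁻¹ ∈ Elq n q := by
    intro i j h c hop hc
    by_cases hli : l = i
    · subst hli
      have hkj : k ≠ j := fun e => hop ⟨rfl, e.symm⟩
      rw [el_mul_right k l j hkl h hkj, mul_inv_cancel_right]
      exact mul_mem (el_mem_Elq' _ _ _ hc) (el_mem_Elq' _ _ _ (hc.mul_left a))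
    · by_cases hjk : j = k
      · subst hjk
        have hil : i ≠ l := fun e => hli e.symm
        rw [el_mul_left j l i hkl h hil, mul_inv_cancel_right]
        exact mul_mem (el_mem_Elq' _ _ _ hc) (el_mem_Elq' _ _ _ ((hc.mul_right a).neg_right))
      · rw [el_comm hkl h hli hjk, mul_inv_cancel_right]
        exact el_mem_Elq' _ _ _ hc
  intro i j h c
  by_cases hop : i = l ∧ j = k
  · obtain ⟨rfl, rfl⟩ := hop
    -- third index
    obtain ⟨p, hp⟩ : ∃ p : Fin n, p ≠ i ∧ p ≠ j := by
      by_contra hcon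
      push Not at hcon
      have h1 : (Finset.univ : Finset (Fin n)) ⊆ {i, j} := by
        intro p _
        by_cases hpi : p = i
        · simp [hpi]
        · simp [hcon p hpi]
      have h2 := Finset.card_le_card h1
      have h3 : ({i, j} : Finset (Fin n)).card ≤ 2 := Finset.card_le_two
      simp at h2
      omega
    -- `e_ij(q² c) = [e_ip(q), e_pj(q c)]`
    have h5 : el i j h (q * q * c) = (el p j hp.2 (q * c))⁻¹ * el i p hp.1.symm q *
        el p j hp.2 (q * c) * (el i p hp.1.symm q)⁻¹ := by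
      have h6 := el_mul_right i p j hp.1.symm hp.2 h q (q * c)
      rw [mul_assoc (el p j hp.2 (q * c))⁻¹, h6]
      rw [show q * (q * c) = q * q * c by ring]
      group
    have h7 : ∀ x y : SpecialLinearGroup (Fin n) ℤ, el j i hkl a * (x⁻¹ * y * x * y⁻¹) *
        (el j i hkl a)⁻¹ = (el j i hkl a * x * (el j i hkl a)⁻¹)⁻¹ *
          (el j i hkl a * y * (el j i hkl a)⁻¹) * (el j i hkl a * x * (el j i hkl a)⁻¹) *
          (el j i hkl a * y * (el j i hkl a)⁻¹)⁻¹ := by intro x y; group
    rw [h5, h7]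
    have h8 : el j i hkl a * el p j hp.2 (q * c) * (el j i hkl a)⁻¹ ∈ Elq n q :=
      H1 _ _ _ _ (fun e => hp.1 e.1) (Dvd.intro _ rfl)
    have h9 : el j i hkl a * el i p hp.1.symm q * (el j i hkl a)⁻¹ ∈ Elq n q :=
      H1 _ _ _ _ (fun e => hp.2 e.2) (dvd_refl _)
    exact mul_mem (mul_mem (mul_mem (inv_mem h8) h9) h8) (inv_mem h9)
  · exact H1 i j h _ hop (Dvd.intro_left (q * c) (by ring))

/-- conjugation by a product of `N` elementary matrices maps `Elq (q^(2^N))` into `Elq q`. -/
theorem conj_list_mem (hn : 3 ≤ n) (l : List (TransvectionStruct (Fin n) ℤ)) :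
    ∀ (q : ℤ), ∀ g ∈ Elq n (q ^ 2 ^ l.length),
    (l.map (fun t => el t.i t.j t.hij t.c)).prod * g *
      ((l.map (fun t => el t.i t.j t.hij t.c)).prod)⁻¹ ∈ Elq n q := by
  induction l with
  | nil => intro q g hg; simpa using hg
  | cons t l ih =>
    intro q g hg
    have h1 := ih (q * q) g (by
      have : (q * q) ^ 2 ^ l.length = q ^ 2 ^ (t :: l).length := by
        rw [List.length_cons, ← pow_two, ← pow_mul, pow_succ, mul_comm]
      rw [this]; exact hg)
    have h2 := conj_el_mem hn q t.i t.j t.hij t.c _ h1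
    convert h2 using 1
    simp only [List.map_cons, List.prod_cons]
    group

/-- every element of `SL_n(ℤ)` is a product of exactly... at most `N` elementary matrices -/
theorem exists_list (hn : 3 ≤ n) : ∃ N : ℕ, ∀ g : SpecialLinearGroup (Fin n) ℤ,
    ∃ l : List (TransvectionStruct (Fin n) ℤ), l.length ≤ N ∧
      (l.map (fun t => el t.i t.j t.hij t.c)).prod = g := by
  obtain ⟨N, hN⟩ := H350.bounded_generation n hn
  refine ⟨N, fun g => ?_⟩
  obtain ⟨l, hl1, hl⟩ := hN g
  refine ⟨l, hl1, ?_⟩
  apply Subtype.ext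
  rw [← hl]
  clear hl hl1
  induction l with
  | nil => simp
  | cons t l ih => simp [ih, TransvectionStruct.toMatrix]

theorem exists_conj_mem (hn : 3 ≤ n) : ∃ N : ℕ, ∀ (q : ℤ) (x g : SpecialLinearGroup (Fin n) ℤ),
    g ∈ Elq n (q ^ 2 ^ N) → x * g * x⁻¹ ∈ Elq n q := by
  obtain ⟨N, hN⟩ := exists_list hn
  refine ⟨N, fun q x g hg => ?_⟩
  obtain ⟨l, hl1, rfl⟩ := hN x
  apply conj_list_mem hn l q g
  exact Elq_mono (pow_dvd_pow q (Nat.pow_le_pow_right (by norm_num) hl1)) hg

/-- a normal subgroup containing all `e_ij(m c)`, `m ≠ 0`, has finite index. -/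
theorem finiteIndex_of_normal (hn : 3 ≤ n) (m : ℤ) (hm : m ≠ 0)
    (S : Subgroup (SpecialLinearGroup (Fin n) ℤ)) [S.Normal] (hS : Elq n m ≤ S) :
    S.FiniteIndex := by
  classical
  obtain ⟨N, hN⟩ := exists_list hn
  -- the finite set of elementary matrices with entries in [0, |m|)
  let T : Finset (SpecialLinearGroup (Fin n) ℤ ⧸ S) :=
    (Finset.univ ×ˢ (Finset.univ ×ˢ Finset.range m.natAbs)).image
      (fun t : Fin n × Fin n × ℕ => if h : t.1 ≠ t.2.1 then
        (QuotientGroup.mk (el t.1 t.2.1 h (t.2.2 : ℤ)) : _ ⧸ S) else 1)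
  have hT : ∀ i j (h : i ≠ j) (c : ℤ), (QuotientGroup.mk (el i j h c) : _ ⧸ S) ∈ T := by
    intro i j h c
    refine Finset.mem_image.mpr ⟨(i, j, (c % m).toNat), ?_, ?_⟩
    · simp only [Finset.mem_product, Finset.mem_univ, Finset.mem_range, true_and]
      have h1 := Int.emod_nonneg c hm
      have h2 := Int.emod_lt_abs c hm
      rw [Int.abs_eq_natAbs] at h2
      omega
    · have h1 := Int.emod_nonneg c hm
      simp only [h, ne_eq, not_false_eq_true, dite_true]
      rw [Int.toNat_of_nonneg h1]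
      rw [QuotientGroup.eq]
      rw [el_inv, el_mul]
      apply hS
      apply el_mem_Elq'
      have := Int.emod_add_mul_ediv c m
      exact ⟨c / m, by linarith⟩
  let P : ℕ → Finset (SpecialLinearGroup (Fin n) ℤ ⧸ S) := fun k =>
    Nat.rec {1} (fun _ A => (T ×ˢ A).image (fun t => t.1 * t.2) ∪ A) k
  have hP : ∀ l : List (TransvectionStruct (Fin n) ℤ),
      (QuotientGroup.mk ((l.map (fun t => el t.i t.j t.hij t.c)).prod) : _ ⧸ S) ∈ P l.length := by
    intro l
    induction l with
    | nil => simp [P]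
    | cons t l ih =>
      simp only [List.map_cons, List.prod_cons, List.length_cons]
      apply Finset.mem_union_left
      refine Finset.mem_image.mpr ⟨(QuotientGroup.mk (el t.i t.j t.hij t.c), _),
        Finset.mem_product.mpr ⟨hT _ _ _ _, ih⟩, ?_⟩
      rfl
  have hPm : ∀ k l, k ≤ l → P k ⊆ P l := by
    intro k l hkl
    induction hkl with
    | refl => exact subset_refl _
    | step _ ih => exact ih.trans Finset.subset_union_right
  have hfin : Finite (SpecialLinearGroup (Fin n) ℤ ⧸ S) := by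
    have : ∀ x : SpecialLinearGroup (Fin n) ℤ ⧸ S, x ∈ P N := by
      intro x
      obtain ⟨g, rfl⟩ := QuotientGroup.mk_surjective x
      obtain ⟨l, hl1, rfl⟩ := hN g
      exact hPm _ _ hl1 (hP l)
    have h1 : (Set.univ : Set (SpecialLinearGroup (Fin n) ℤ ⧸ S)).Finite :=
      (Finset.finite_toSet (P N)).subset (fun x _ => Finset.mem_coe.mpr (this x))
    exact Set.finite_univ_iff.mp h1
  exact Subgroup.finiteIndex_of_finite_quotient

/-- **The elementary matrices with entries in `qℤ` generate a subgroup of finite index.** -/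
theorem Elq_finiteIndex (hn : 3 ≤ n) (q : ℤ) (hq : q ≠ 0) : (Elq n q).FiniteIndex := by
  obtain ⟨N, hN⟩ := exists_conj_mem hn
  let S : Subgroup (SpecialLinearGroup (Fin n) ℤ) :=
    Subgroup.normalClosure (Elq n (q ^ 2 ^ N) : Set _)
  have h1 : S ≤ Elq n q := by
    refine (Subgroup.closure_le _).mpr ?_
    intro g hg
    rw [Group.mem_conjugatesOfSet_iff] at hg
    obtain ⟨a, ha, hag⟩ := hg
    obtain ⟨c, rfl⟩ := isConj_iff.mp hag
    exact hN q c a ha
  have h2 : S.FiniteIndex :=
    finiteIndex_of_normal hn (q ^ 2 ^ N) (pow_ne_zero _ hq) S Subgroup.subset_normalClosure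
  exact Subgroup.finiteIndex_of_le h1

end Vale.Agent.P092.H200
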