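import Vale.Agent.P092.H200.Two

/-!
P092 (helper200): the graph of infinite abelian subgroups of `Λ`, two of them being linked if their
common centralizer is not amenable; stabilizers of its components; the hypothesis `Clustered Λ`.
-/

namespace Vale.Agent.P092.H200

section

variable {Λ : Type} [Group Λ]

/-- an infinite abelian subgroup -/
def Vertex (A : Subgroup Λ) : Prop := Infinite A ∧ ∀ a ∈ A, ∀ b ∈ A, a * b = b * a

/-- Two infinite abelian subgroups are linked if their common centralizer is not amenable. -/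
def Link (A B : Subgroup Λ) : Prop := Vertex A ∧ Vertex B ∧ NoMean (cent A ⊓ cent B)

/-- `A` and `B` are joined by a chain of linked infinite abelian subgroups. -/
def Joined (A B : Subgroup Λ) : Prop := Relation.ReflTransGen Link A B

/-- `v A v⁻¹` -/
def cj (v : Λ) (A : Subgroup Λ) : Subgroup Λ := A.map (MulAut.conj v).toMonoidHom

theorem mem_cj {v w : Λ} {A : Subgroup Λ} : w ∈ cj v A ↔ v⁻¹ * w * v ∈ A := by
  constructor
  · rintro ⟨a, ha, rfl⟩
    have : v⁻¹ * (v * a * v⁻¹) * v = a := by group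
    simpa [this] using ha
  · intro h
    refine ⟨_, h, ?_⟩
    show v * (v⁻¹ * w * v) * v⁻¹ = w
    group

theorem cj_one (A : Subgroup Λ) : cj 1 A = A := by
  ext w; rw [mem_cj]; simp

theorem cj_cj (v w : Λ) (A : Subgroup Λ) : cj v (cj w A) = cj (v * w) A := by
  ext u; simp only [mem_cj, mul_inv_rev]
  rw [show w⁻¹ * (v⁻¹ * u * v) * w = w⁻¹ * v⁻¹ * u * (v * w) by group]

theorem cj_cent (v : Λ) (A : Subgroup Λ) : cj v (cent A) ≤ cent (cj v A) := by
  intro w hw
  rw [mem_cj] at hw
  rw [Subgroup.mem_centralizer_iff]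
  intro u hu
  have hu' := mem_cj.mp (show u ∈ cj v A from hu)
  have h := Subgroup.mem_centralizer_iff.mp hw _ hu'
  have h2 := congrArg (fun t => v * t * v⁻¹) h
  rw [show v * (v⁻¹ * u * v * (v⁻¹ * w * v)) * v⁻¹ = u * w by group,
    show v * (v⁻¹ * w * v * (v⁻¹ * u * v)) * v⁻¹ = w * u by group] at h2
  exact h2

theorem Vertex.cj {A : Subgroup Λ} (h : Vertex A) (v : Λ) : Vertex (cj v A) := by
  refine ⟨?_, ?_⟩
  · have := h.1
    exact Infinite.of_injective _
      (A.equivMapOfInjective (MulAut.conj v).toMonoidHom (MulAut.conj v).injective).injective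
  · rintro _ ⟨a, ha, rfl⟩ _ ⟨b, hb, rfl⟩
    rw [← map_mul, h.2 a ha b hb, map_mul]

theorem Link.symm {A B : Subgroup Λ} (h : Link A B) : Link B A :=
  ⟨h.2.1, h.1, by rw [inf_comm]; exact h.2.2⟩

theorem Link.cj {A B : Subgroup Λ} (h : Link A B) (v : Λ) : Link (cj v A) (cj v B) := by
  refine ⟨h.1.cj v, h.2.1.cj v, ?_⟩
  refine (h.2.2.map (MulAut.conj v).toMonoidHom (MulAut.conj v).injective).mono ?_
  refine (Subgroup.map_inf_le _ _ _).trans (inf_le_inf ?_ ?_)
  · exact cj_cent v A
  · exact cj_cent v B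

theorem Joined.refl (A : Subgroup Λ) : Joined A A := Relation.ReflTransGen.refl

theorem Joined.symm {A B : Subgroup Λ} (h : Joined A B) : Joined B A := by
  induction h with
  | refl => exact Relation.ReflTransGen.refl
  | tail _ h2 ih => exact Relation.ReflTransGen.head h2.symm ih

theorem Joined.trans {A B C : Subgroup Λ} (h : Joined A B) (h' : Joined B C) : Joined A C :=
  Relation.ReflTransGen.trans h h'

theorem Joined.cj {A B : Subgroup Λ} (h : Joined A B) (v : Λ) : Joined (cj v A) (cj v B) := by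
  induction h with
  | refl => exact Relation.ReflTransGen.refl
  | tail _ h2 ih => exact Relation.ReflTransGen.tail ih (h2.cj v)

theorem Link.joined {A B : Subgroup Λ} (h : Link A B) : Joined A B :=
  Relation.ReflTransGen.single h

/-- The stabilizer of the component of `A`. -/
def stab (A : Subgroup Λ) : Subgroup Λ where
  carrier := {v | Joined A (cj v A)}
  one_mem' := by
    show Joined A (Vale.Agent.P092.H200.cj 1 A)
    rw [cj_one]; exact Joined.refl A
  mul_mem' := by
    intro v w hv hw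
    have h := hv.trans (Joined.cj hw v)
    rw [cj_cj] at h
    exact h
  inv_mem' := by
    intro v hv
    have h := Joined.cj hv v⁻¹
    rw [cj_cj, inv_mul_cancel, cj_one] at h
    exact h.symm

theorem mem_stab {A : Subgroup Λ} {v : Λ} : v ∈ stab A ↔ Joined A (cj v A) := Iff.rfl

theorem stab_eq {A B : Subgroup Λ} (h : Joined A B) : stab A = stab B := by
  ext v
  rw [mem_stab, mem_stab]
  exact ⟨fun h1 => h.symm.trans (h1.trans (h.cj v)), fun h1 => h.trans (h1.trans (h.cj v).symm)⟩

theorem cent_le_stab_self (A : Subgroup Λ) : cent A ≤ stab A := by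
  intro v hv
  have : cj v A = A := by
    ext w
    rw [mem_cj]
    constructor
    · intro h
      have h1 := Subgroup.mem_centralizer_iff.mp hv _ h
      have h2 : w = v⁻¹ * w * v := by
        calc w = v * (v⁻¹ * w * v) * v⁻¹ := by group
          _ = (v⁻¹ * w * v * v) * v⁻¹ := by rw [← h1]
          _ = v⁻¹ * w * v := by group
      rw [h2]; exact h
    · intro h
      have h1 := Subgroup.mem_centralizer_iff.mp hv w h
      have h2 : v⁻¹ * w * v = w := by
        rw [mul_assoc, h1]; group
      rw [h2]; exact h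
  rw [mem_stab, this]
  exact Joined.refl A

/-- the stabilizer contains the centralizers of all members of the component -/
theorem cent_le_stab {A B : Subgroup Λ} (h : Joined A B) : cent B ≤ stab A := by
  rw [stab_eq h]; exact cent_le_stab_self B

/-- the stabilizer contains the centralizer of every nonamenable subgroup of the centralizer -/
theorem cent_le_stab_of_noMean {A K : Subgroup Λ} (hA : Vertex A) (hK : NoMean K)
    (hKA : K ≤ cent A) : cent K ≤ stab A := by
  intro v hv
  refine Link.joined ⟨hA, hA.cj v, hK.mono ?_⟩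
  refine le_inf hKA ?_
  have h1 : cj v K ≤ cent (cj v A) := le_trans (by
    rintro _ ⟨k, hk, rfl⟩
    exact ⟨k, hKA hk, rfl⟩) (cj_cent v A)
  refine le_trans ?_ h1
  intro k hk
  rw [mem_cj]
  have := Subgroup.mem_centralizer_iff.mp hv k hk
  have h2 : v⁻¹ * k * v = k := by rw [mul_assoc, this]; group
  rw [h2]; exact hk

/-- **The hypothesis on `Λ`**: some infinite abelian subgroup with nonamenable centralizer has a
component whose stabilizer has finite index. -/
def Clustered (Λ : Type) [Group Λ] : Prop :=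
  ∃ A : Subgroup Λ, Link A A ∧ (stab A).FiniteIndex

end

/-- criterion with a family of infinite abelian subgroups -/
theorem Clustered.of_family {Λ : Type} [Group Λ] {I : Type} (i₀ : I) (A : I → Subgroup Λ)
    (h1 : ∀ i, Vertex (A i)) (h2 : ∀ i, NoMean (cent (A i)))
    (h3 : (⨆ i, cent (A i)).FiniteIndex)
    (h4 : ∀ i j, Relation.ReflTransGen (fun i j => NoMean (cent (A i) ⊓ cent (A j))) i j) :
    Clustered Λ := by
  refine ⟨A i₀, ⟨h1 i₀, h1 i₀, (h2 i₀).mono (le_inf le_rfl le_rfl)⟩, ?_⟩
  have h5 : ∀ i, Joined (A i₀) (A i) := by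
    intro i
    induction h4 i₀ i with
    | refl => exact Joined.refl _
    | tail _ hbc ih => exact ih.trans (Link.joined ⟨h1 _, h1 _, hbc⟩)
  have h6 : (⨆ i, cent (A i)) ≤ stab (A i₀) := iSup_le fun i => cent_le_stab (h5 i)
  exact Subgroup.finiteIndex_of_le h6

/-- criterion with two elements of infinite order -/
theorem Clustered.of_two {Λ : Type} [Group Λ] (h : TwoData Λ) : Clustered Λ := by
  obtain ⟨x, y, K, hx, hy, hKx, hKy, hcl, hK⟩ := h
  have hinf : ∀ x : Λ, (∀ k : ℕ, k ≠ 0 → x ^ k ≠ 1) → Infinite (Subgroup.zpowers x) := by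
    intro x hx
    refine Set.infinite_coe_iff.mpr (infinite_zpowers.mpr ?_)
    intro hfo
    rw [isOfFinOrder_iff_pow_eq_one] at hfo
    obtain ⟨k, hk, hk'⟩ := hfo
    exact hx k hk.ne' hk'
  have hcz : ∀ x v : Λ, v * x = x * v → v ∈ cent (Subgroup.zpowers x) := by
    intro x v hv
    rw [Subgroup.mem_centralizer_iff]
    rintro _ ⟨k, rfl⟩
    exact ((show Commute v x from hv).zpow_right k).symm
  have hab : ∀ x : Λ, ∀ a ∈ Subgroup.zpowers x, ∀ b ∈ Subgroup.zpowers x, a * b = b * a := by
    rintro x _ ⟨k, rfl⟩ _ ⟨l, rfl⟩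
    exact (Commute.refl _).zpow_zpow k l
  have hKx' : K ≤ cent (Subgroup.zpowers x) := fun v hv => hcz x v (hKx v hv)
  have hKy' : K ≤ cent (Subgroup.zpowers y) := fun v hv => hcz y v (hKy v hv)
  have hVx : Vertex (Subgroup.zpowers x) := ⟨hinf x hx, hab x⟩
  have hVy : Vertex (Subgroup.zpowers y) := ⟨hinf y hy, hab y⟩
  have hxy : Joined (Subgroup.zpowers x) (Subgroup.zpowers y) :=
    Link.joined ⟨hVx, hVy, hK.mono (le_inf hKx' hKy')⟩
  refine ⟨Subgroup.zpowers x, ⟨hVx, hVx, hK.mono (le_inf hKx' hKx')⟩, ?_⟩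
  have : Subgroup.closure ({v | v * x = x * v} ∪ {v | v * y = y * v}) ≤
      stab (Subgroup.zpowers x) := by
    refine (Subgroup.closure_le _).mpr ?_
    rintro v (hv | hv)
    · exact cent_le_stab_self _ (hcz x v hv)
    · exact cent_le_stab hxy (hcz y v hv)
  exact Subgroup.finiteIndex_of_le this

/-- `SL_n(ℤ)`, `n ≥ 4`. -/
theorem clustered_sl (n : ℕ) (hn : 4 ≤ n) :
    Clustered (Matrix.SpecialLinearGroup (Fin n) ℤ) := .of_two (twoData_sl n hn)

/-- every finite-index subgroup of `SL_n(ℤ)`, `n ≥ 4`. -/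
theorem clustered_finiteIndex (n : ℕ) (hn : 4 ≤ n)
    (Λ : Subgroup (Matrix.SpecialLinearGroup (Fin n) ℤ)) [Λ.FiniteIndex] : Clustered Λ :=
  .of_two (twoData_finiteIndex n hn Λ)

/-- `EL_n(R)`, `n ≥ 4`, `R` any ring of characteristic zero -/
theorem clustered_EL (n : ℕ) (hn : 4 ≤ n) (R : Type) [Ring R] [CharZero R] :
    Clustered (EL n R) := .of_two (twoData_EL n hn R)

/-- `Clustered` passes to groups containing a `Clustered` group as a subgroup of finite index. -/
theorem Clustered.of_injective {Λ Λ' : Type} [Group Λ] [Group Λ'] (h : Clustered Λ) (φ : Λ →* Λ')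
    (hφ : Function.Injective φ) (hfi : φ.range.FiniteIndex) : Clustered Λ' := by
  obtain ⟨A, hA, hA'⟩ := h
  have hc : ∀ A : Subgroup Λ, (cent A).map φ ≤ cent (A.map φ) := by
    rintro A _ ⟨v, hv, rfl⟩
    rw [Subgroup.mem_centralizer_iff]
    rintro _ ⟨a, ha, rfl⟩
    have := Subgroup.mem_centralizer_iff.mp hv a ha
    rw [← map_mul, this, map_mul]
  have hV : ∀ A : Subgroup Λ, Vertex A → Vertex (A.map φ) := by
    intro A hA
    refine ⟨?_, ?_⟩
    · have := hA.1
      exact Infinite.of_injective _ (A.equivMapOfInjective φ hφ).injective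
    · rintro _ ⟨a, ha, rfl⟩ _ ⟨b, hb, rfl⟩
      rw [← map_mul, hA.2 a ha b hb, map_mul]
  have hL : ∀ A B : Subgroup Λ, Link A B → Link (A.map φ) (B.map φ) := by
    intro A B h
    refine ⟨hV A h.1, hV B h.2.1, (h.2.2.map φ hφ).mono ?_⟩
    exact (Subgroup.map_inf_le _ _ _).trans (inf_le_inf (hc A) (hc B))
  have hJ : ∀ A B : Subgroup Λ, Joined A B → Joined (A.map φ) (B.map φ) := by
    intro A B h
    induction h with
    | refl => exact Joined.refl _
    | tail _ h2 ih => exact ih.trans (Link.joined (hL _ _ h2))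
  have hcj : ∀ (v : Λ) (A : Subgroup Λ), cj (φ v) (A.map φ) = (cj v A).map φ := by
    intro v A
    ext w
    rw [mem_cj]
    constructor
    · rintro ⟨a, ha, ha'⟩
      refine ⟨v * a * v⁻¹, ?_, ?_⟩
      · rw [SetLike.mem_coe, mem_cj]
        rw [show v⁻¹ * (v * a * v⁻¹) * v = a by group]; exact ha
      · rw [map_mul, map_mul, ha', map_inv]; group
    · rintro ⟨u, hu, rfl⟩
      refine ⟨v⁻¹ * u * v, mem_cj.mp hu, ?_⟩
      rw [map_mul, map_mul, map_inv]
  refine ⟨A.map φ, hL A A hA, ?_⟩
  have e1 : (stab A).map φ ≤ stab (A.map φ) := by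
    rintro _ ⟨v, hv, rfl⟩
    rw [mem_stab, hcj]
    exact hJ _ _ hv
  have e2 : ((stab A).map φ).FiniteIndex := by
    constructor
    rw [Subgroup.index_map_of_injective _ hφ]
    exact mul_ne_zero hA'.index_ne_zero hfi.index_ne_zero
  exact Subgroup.finiteIndex_of_le e1

/-- overgroups of finite index, subgroup form -/
theorem Clustered.of_subgroup {Λ : Type} [Group Λ] (Λ₀ : Subgroup Λ) [Λ₀.FiniteIndex]
    (h : Clustered Λ₀) : Clustered Λ :=
  h.of_injective Λ₀.subtype Λ₀.subtype_injective (by rw [Subgroup.range_subtype]; infer_instance)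

/-- isomorphic groups -/
theorem Clustered.of_equiv {Λ Λ' : Type} [Group Λ] [Group Λ'] (h : Clustered Λ) (e : Λ ≃* Λ') :
    Clustered Λ' :=
  h.of_injective e.toMonoidHom e.injective (by
    have : e.toMonoidHom.range = ⊤ := MonoidHom.range_eq_top.mpr e.surjective
    rw [this]; infer_instance)

/-- **Normal subgroups**: `Λ` has a normal subgroup `W` which contains an infinite abelian subgroup
and whose centralizer is not amenable. -/
theorem clustered_of_normal {Λ : Type} [Group Λ] (W : Subgroup Λ) [hW : W.Normal]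
    (A : Subgroup Λ) (hA : Vertex A) (hAW : A ≤ W) (hK : NoMean (cent W)) : Clustered Λ := by
  have hcA : ∀ v, cent W ≤ cent (cj v A) := by
    intro v
    refine Subgroup.centralizer_le ?_
    rintro _ ⟨a, ha, rfl⟩
    exact hW.conj_mem a (hAW ha) v
  have hcA1 : cent W ≤ cent A := by have := hcA 1; rwa [cj_one] at this
  refine ⟨A, ⟨hA, hA, hK.mono (le_inf hcA1 hcA1)⟩, ?_⟩
  have htop : stab A = ⊤ := by
    rw [eq_top_iff]
    intro v _
    exact Link.joined ⟨hA, hA.cj v, hK.mono (le_inf hcA1 (hcA v))⟩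
  rw [htop]
  infer_instance

/-- **Products**: `L₁` has an infinite abelian subgroup and `L₂` is not amenable. -/
theorem clustered_prod (L₁ L₂ : Type) [Group L₁] [Group L₂] (A : Subgroup L₁) (hA : Vertex A)
    (h2 : ¬ ∃ m, IsInvMean (⊤ : Subgroup L₂) m) : Clustered (L₁ × L₂) := by
  let A' : Subgroup (L₁ × L₂) := A.map (MonoidHom.inl L₁ L₂)
  let K : Subgroup (L₁ × L₂) := (⊤ : Subgroup L₂).map (MonoidHom.inr L₁ L₂)
  have hinj : Function.Injective (MonoidHom.inl L₁ L₂) := fun a b h => (Prod.mk.inj h).1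
  have hinr : Function.Injective (MonoidHom.inr L₁ L₂) := fun a b h => (Prod.mk.inj h).2
  have hA' : Vertex A' := by
    refine ⟨?_, ?_⟩
    · have := hA.1
      exact Infinite.of_injective _ (A.equivMapOfInjective _ hinj).injective
    · rintro _ ⟨a, ha, rfl⟩ _ ⟨b, hb, rfl⟩
      rw [← map_mul, hA.2 a ha b hb, map_mul]
  have hK : NoMean K := NoMean.map _ hinr h2
  have hKA : K ≤ cent A' := by
    rintro _ ⟨k, -, rfl⟩
    rw [Subgroup.mem_centralizer_iff]
    rintro _ ⟨a, -, rfl⟩
    ext <;> simp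
  refine ⟨A', ⟨hA', hA', hK.mono (le_inf hKA hKA)⟩, ?_⟩
  have htop : stab A' = ⊤ := by
    rw [eq_top_iff]
    rintro ⟨v, w⟩ -
    have e : ((v, w) : L₁ × L₂) = (v, 1) * (1, w) := by simp
    rw [e]
    refine mul_mem ?_ ?_
    · apply cent_le_stab_of_noMean hA' hK hKA
      rw [Subgroup.mem_centralizer_iff]
      rintro _ ⟨k, -, rfl⟩
      ext <;> simp
    · apply cent_le_stab_self
      rw [Subgroup.mem_centralizer_iff]
      rintro _ ⟨a, -, rfl⟩
      ext <;> simp
  rw [htop]
  infer_instance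

end Vale.Agent.P092.H200
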