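import Vale.Agent.P092.H160.Bridge

/-!
P092 (helper200), block [HEIGHT]: lower bounds of the heights give the canonical form.
-/

set_option linter.all false

open scoped InnerProductSpace
open Filter Topology ContinuousLinearMap

namespace Vale.Agent.P092.H200

open Vale.Agent.P092.H160

variable {Γ Λ : Type} [Group Γ] [Group Λ]

/-! ### Coefficients of a frame -/

/-- The coefficients of the vectors `dl g` in the basis of the frame. -/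
noncomputable def cf (β : Λ →* (Ell2 Γ →L[ℂ] Ell2 Γ)) (g : Γ) (r : Λ) : ℂ :=
  ⟪β r (dl 1), (dl g : Ell2 Γ)⟫_ℂ

/-- The basis `e(s, t)` of `ℓ²(Γ × Γ)`. -/
noncomputable def eh (β : Λ →* (Ell2 Γ →L[ℂ] Ell2 Γ)) (s t : Λ) : Ell2 (Γ × Γ) :=
  tv (β s (dl 1)) (β t (dl 1))

section frame

variable {β : Λ →* (Ell2 Γ →L[ℂ] Ell2 Γ)} (hβ : Frame β)

include hβ

theorem cf_sum (g : Γ) : HasSum (fun r => ‖cf β g r‖ ^ 2) 1 := by
  have h1 := hβ.reg.hasSum_inner (dl g) (dl g)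
  rw [inner_self_eq_norm_sq_to_K, norm_dl] at h1
  have h2 : (fun r => ⟪(dl g : Ell2 Γ), β r (dl 1)⟫_ℂ * ⟪β r (dl 1), (dl g : Ell2 Γ)⟫_ℂ) =
      fun r => ((‖cf β g r‖ ^ 2 : ℝ) : ℂ) := by
    funext r
    rw [← inner_conj_symm, cf, ← Complex.normSq_eq_conj_mul_self, Complex.normSq_eq_norm_sq]
  rw [h2] at h1
  refine Complex.hasSum_ofReal.mp ?_
  rw [Complex.ofReal_one]
  simpa using h1

theorem cf_le_one (g : Γ) (r : Λ) : ‖cf β g r‖ ≤ 1 := by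
  have h1 := norm_inner_le_norm (𝕜 := ℂ) (β r (dl 1)) (dl g : Ell2 Γ)
  rw [hβ.reg.norm_map, norm_dl, norm_dl, mul_one] at h1
  exact h1

/-- Bessel. -/
theorem bes (t : Λ) (u : Ell2 Γ) : Summable (fun r => ‖⟪u, β (r * t) (dl 1)⟫_ℂ‖ ^ 2) ∧
    ∑' r, ‖⟪u, β (r * t) (dl 1)⟫_ℂ‖ ^ 2 ≤ ‖u‖ ^ 2 := by
  have h1 := hβ.reg.hasSum_inner u u
  rw [inner_self_eq_norm_sq_to_K] at h1
  have h2 : (fun r => ⟪u, β r (dl 1)⟫_ℂ * ⟪β r (dl 1), u⟫_ℂ) =
      fun r => ((‖⟪u, β r (dl 1)⟫_ℂ‖ ^ 2 : ℝ) : ℂ) := by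
    funext r
    rw [← inner_conj_symm (β r (dl 1)) u, Complex.mul_conj, Complex.normSq_eq_norm_sq]
  rw [h2] at h1
  have h4 : HasSum (fun r => ((‖⟪u, β r (dl 1)⟫_ℂ‖ ^ 2 : ℝ) : ℂ)) ((‖u‖ ^ 2 : ℝ) : ℂ) := by
    push_cast at h1 ⊢
    exact h1
  have h5 := Complex.hasSum_ofReal.mp h4
  have h6 : HasSum (fun r => ‖⟪u, β (r * t) (dl 1)⟫_ℂ‖ ^ 2) (‖u‖ ^ 2) :=
    (Equiv.mulRight t).hasSum_iff.mpr h5
  exact ⟨h6.summable, h6.tsum_eq.le⟩

/-- The coefficient bound for elementary tensors. -/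
theorem tv_bound {V : Γ → (Ell2 (Γ × Γ) →L[ℂ] Ell2 (Γ × Γ))}
    (hV : ∀ g s t, HasSum (fun r => cf β g r • eh β (r * s) (r * t)) (V g (eh β s t)))
    {g : Γ} {m : ℝ} (hm : ∀ r, ‖cf β g r‖ ≤ m) (s t : Λ) (p q : Ell2 Γ) :
    ‖⟪tv p q, V g (eh β s t)⟫_ℂ‖ ≤ m * (‖p‖ * ‖q‖) := by
  have hm0 : 0 ≤ m := (norm_nonneg _).trans (hm 1)
  have h1 : HasSum (fun r => cf β g r * (⟪p, β (r * s) (dl 1)⟫_ℂ * ⟪q, β (r * t) (dl 1)⟫_ℂ))
      ⟪tv p q, V g (eh β s t)⟫_ℂ := by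
    have h2 := (hV g s t).mapL (innerSL ℂ (tv p q))
    have h3 : (fun r => (innerSL ℂ (tv p q)) (cf β g r • eh β (r * s) (r * t))) =
        fun r => cf β g r * (⟪p, β (r * s) (dl 1)⟫_ℂ * ⟪q, β (r * t) (dl 1)⟫_ℂ) := by
      funext r
      rw [map_smul, innerSL_apply_apply, eh, inner_tv, smul_eq_mul]
    rw [h3] at h2
    exact h2
  obtain ⟨s1, l1⟩ := bes hβ s p
  obtain ⟨s2, l2⟩ := bes hβ t q
  -- Cauchy-Schwarz on finite sums
  have h4 : ∀ F : Finset Λ, ‖∑ r ∈ F, cf β g r * (⟪p, β (r * s) (dl 1)⟫_ℂ *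
      ⟪q, β (r * t) (dl 1)⟫_ℂ)‖ ≤ m * (‖p‖ * ‖q‖) := by
    intro F
    have h5 : ‖∑ r ∈ F, cf β g r * (⟪p, β (r * s) (dl 1)⟫_ℂ * ⟪q, β (r * t) (dl 1)⟫_ℂ)‖ ≤
        ∑ r ∈ F, m * (‖⟪p, β (r * s) (dl 1)⟫_ℂ‖ * ‖⟪q, β (r * t) (dl 1)⟫_ℂ‖) := by
      refine (norm_sum_le _ _).trans (Finset.sum_le_sum fun r _ => ?_)
      rw [norm_mul, norm_mul]
      exact mul_le_mul_of_nonneg_right (hm r) (by positivity)
    refine h5.trans ?_
    rw [← Finset.mul_sum]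
    refine mul_le_mul_of_nonneg_left ?_ hm0
    have h6 := Finset.sum_mul_sq_le_sq_mul_sq F (fun r => ‖⟪p, β (r * s) (dl 1)⟫_ℂ‖)
      (fun r => ‖⟪q, β (r * t) (dl 1)⟫_ℂ‖)
    have h7 : ∑ r ∈ F, ‖⟪p, β (r * s) (dl 1)⟫_ℂ‖ ^ 2 ≤ ‖p‖ ^ 2 :=
      (s1.sum_le_tsum F fun _ _ => by positivity).trans l1
    have h8 : ∑ r ∈ F, ‖⟪q, β (r * t) (dl 1)⟫_ℂ‖ ^ 2 ≤ ‖q‖ ^ 2 :=
      (s2.sum_le_tsum F fun _ _ => by positivity).trans l2
    refine abs_le_of_sq_le_sq' ?_ (by positivity) |>.2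
    refine h6.trans ?_
    rw [mul_pow]
    exact mul_le_mul h7 h8 (Finset.sum_nonneg fun _ _ => by positivity) (by positivity)
  exact le_of_tendsto h1.norm (Eventually.of_forall h4)

theorem eh_total (x : Ell2 (Γ × Γ)) (h : ∀ s t, ⟪eh β s t, x⟫_ℂ = 0) : x = 0 := by
  have h1 : ∀ (u : Ell2 Γ) t, ⟪tv u (β t (dl 1)), x⟫_ℂ = 0 := by
    intro u t
    have h2 : adjoint (tvl (X := Γ) (β t (dl 1))) x = 0 := by
      refine hβ.reg.total _ fun s => ?_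
      rw [adjoint_inner_right]
      exact h s t
    rw [← tvl_apply, ← adjoint_inner_right, h2, inner_zero_right]
  have h3 : ∀ (u v : Ell2 Γ), ⟪tv u v, x⟫_ℂ = 0 := by
    intro u v
    have h2 : adjoint (tvr (Y := Γ) u) x = 0 := by
      refine hβ.reg.total _ fun s => ?_
      rw [adjoint_inner_right]
      exact h1 u s
    rw [← tvr_apply, ← adjoint_inner_right, h2, inner_zero_right]
  refine eq_zero_of_inner_dl fun p => ?_
  rw [← inner_dl, show p = (p.1, p.2) from rfl, dl_prod]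
  exact h3 _ _

theorem eh_dense (w : Ell2 (Γ × Γ)) {δ : ℝ} (hδ : 0 < δ) :
    ∃ x ∈ Submodule.span ℂ (Set.range fun p : Λ × Λ => eh β p.1 p.2), ‖w - x‖ < δ := by
  have h1 : (Submodule.span ℂ (Set.range fun p : Λ × Λ => eh β p.1 p.2)).topologicalClosure =
      ⊤ := by
    rw [Submodule.topologicalClosure_eq_top_iff, Submodule.eq_bot_iff]
    intro v hv
    refine eh_total hβ v fun s t => ?_
    rw [Submodule.mem_orthogonal] at hv
    exact hv _ (Submodule.subset_span ⟨(s, t), rfl⟩)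
  have h2 : w ∈ closure ((Submodule.span ℂ (Set.range fun p : Λ × Λ => eh β p.1 p.2) :
      Submodule ℂ (Ell2 (Γ × Γ))) : Set (Ell2 (Γ × Γ))) := by
    rw [← Submodule.topologicalClosure_coe, h1]
    trivial
  obtain ⟨x, hx, hd⟩ := Metric.mem_closure_iff.mp h2 δ hδ
  exact ⟨x, hx, by rwa [dist_eq_norm] at hd⟩

section op

variable {V : Γ → (Ell2 (Γ × Γ) →L[ℂ] Ell2 (Γ × Γ))}
    (hV : ∀ g s t, HasSum (fun r => cf β g r • eh β (r * s) (r * t)) (V g (eh β s t)))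

include hV

theorem span_bound_right (x : Ell2 (Γ × Γ))
    (hx : x ∈ Submodule.span ℂ (Set.range fun p : Λ × Λ => eh β p.1 p.2)) :
    ∃ C : ℝ, 0 ≤ C ∧ ∀ (g : Γ) (m : ℝ), (∀ r, ‖cf β g r‖ ≤ m) → ∀ p q : Ell2 Γ,
      ‖⟪tv p q, V g x⟫_ℂ‖ ≤ m * C * (‖p‖ * ‖q‖) := by
  induction hx using Submodule.span_induction with
  | mem x hx =>
    obtain ⟨⟨s, t⟩, rfl⟩ := hx
    refine ⟨1, zero_le_one, fun g m hm p q => ?_⟩
    rw [mul_one]
    exact tv_bound hβ hV hm s t p q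
  | zero =>
    refine ⟨0, le_refl _, fun g m hm p q => ?_⟩
    rw [map_zero, inner_zero_right, norm_zero]
    simp
  | add x y _ _ hx hy =>
    obtain ⟨C, hC, h1⟩ := hx
    obtain ⟨D, hD, h2⟩ := hy
    refine ⟨C + D, by positivity, fun g m hm p q => ?_⟩
    rw [map_add, inner_add_right]
    refine (norm_add_le _ _).trans ?_
    have h3 := h1 g m hm p q
    have h4 := h2 g m hm p q
    calc _ ≤ m * C * (‖p‖ * ‖q‖) + m * D * (‖p‖ * ‖q‖) := add_le_add h3 h4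
      _ = _ := by ring
  | smul a x _ hx =>
    obtain ⟨C, hC, h1⟩ := hx
    refine ⟨‖a‖ * C, by positivity, fun g m hm p q => ?_⟩
    rw [map_smul, inner_smul_right, norm_mul]
    have h3 := mul_le_mul_of_nonneg_left (h1 g m hm p q) (norm_nonneg a)
    calc _ ≤ ‖a‖ * (m * C * (‖p‖ * ‖q‖)) := h3
      _ = _ := by ring

theorem span_bound (x y : Ell2 (Γ × Γ))
    (hx : x ∈ Submodule.span ℂ (Set.range fun p : Λ × Λ => eh β p.1 p.2))
    (hy : y ∈ Submodule.span ℂ (Set.range fun p : Λ × Λ => eh β p.1 p.2)) :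
    ∃ C : ℝ, 0 ≤ C ∧ ∀ (g : Γ) (m : ℝ), (∀ r, ‖cf β g r‖ ≤ m) → ∀ a : Γ × Γ,
      ‖⟪rho a y, V g x⟫_ℂ‖ ≤ m * C := by
  obtain ⟨C, hC, h1⟩ := span_bound_right hβ hV x hx
  induction hy using Submodule.span_induction with
  | mem y hy =>
    obtain ⟨⟨s, t⟩, rfl⟩ := hy
    refine ⟨C, hC, fun g m hm a => ?_⟩
    have h2 := h1 g m hm (rho a.1 (β s (dl 1))) (rho a.2 (β t (dl 1)))
    rw [norm_rho, norm_rho, hβ.reg.norm_map, hβ.reg.norm_map, norm_dl, mul_one, mul_one] at h2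
    change ‖⟪rho a (eh β s t), V g x⟫_ℂ‖ ≤ m * C
    rw [show a = (a.1, a.2) from rfl, eh, ← tens_rho, tens_tv]
    exact h2
  | zero =>
    refine ⟨0, le_refl _, fun g m hm a => ?_⟩
    rw [map_zero, inner_zero_left, norm_zero, mul_zero]
  | add y y' _ _ hy hy' =>
    obtain ⟨C, hC, h1⟩ := hy
    obtain ⟨D, hD, h2⟩ := hy'
    refine ⟨C + D, by positivity, fun g m hm a => ?_⟩
    rw [map_add, inner_add_left]
    refine (norm_add_le _ _).trans ?_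
    rw [mul_add]
    exact add_le_add (h1 g m hm a) (h2 g m hm a)
  | smul c y _ hy =>
    obtain ⟨C, hC, h1⟩ := hy
    refine ⟨‖c‖ * C, by positivity, fun g m hm a => ?_⟩
    rw [map_smul, inner_smul_left, norm_mul, RCLike.norm_conj]
    calc _ ≤ ‖c‖ * (m * C) := mul_le_mul_of_nonneg_left (h1 g m hm a) (norm_nonneg c)
      _ = _ := by ring

/-- **[H1]** Heights are bounded below as soon as the vectors `V g w` and `ρ(a) w` are not almost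
orthogonal. -/
theorem height_of_overlap (hVn : ∀ g x, ‖V g x‖ ≤ ‖x‖) {w : Ell2 (Γ × Γ)} {κ : ℝ} (hκ : 0 < κ)
    (S : Set Γ) (h : ∀ g ∈ S, ∃ a : Γ × Γ, κ ≤ ‖⟪rho a w, V g w⟫_ℂ‖) :
    ∃ c : ℝ, 0 < c ∧ ∀ g ∈ S, ∃ r, c ≤ ‖cf β g r‖ := by
  obtain ⟨δ, hδ, hδ1⟩ : ∃ δ : ℝ, 0 < δ ∧ δ * ‖w‖ + (‖w‖ + δ) * δ ≤ κ / 2 := by
    refine ⟨min 1 (κ / (4 * (‖w‖ + 1))), lt_min one_pos (by positivity), ?_⟩
    obtain ⟨d, hd⟩ : ∃ d, d = min 1 (κ / (4 * (‖w‖ + 1))) := ⟨_, rfl⟩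
    rw [← hd]
    have h1 : d ≤ 1 := hd ▸ min_le_left _ _
    have h2 : d ≤ κ / (4 * (‖w‖ + 1)) := hd ▸ min_le_right _ _
    have h0 : 0 ≤ d := by rw [hd]; positivity
    rw [le_div_iff₀ (by positivity)] at h2
    nlinarith [norm_nonneg w]
  obtain ⟨x, hx, hwx⟩ := eh_dense hβ w hδ
  obtain ⟨C, hC, hb⟩ := span_bound hβ hV x x hx hx
  refine ⟨κ / (4 * (C + 1)), by positivity, fun g hg => ?_⟩
  by_contra hcon
  push Not at hcon
  obtain ⟨a, ha⟩ := h g hg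
  have h1 := hb g (κ / (4 * (C + 1))) (fun r => (hcon r).le) a
  have h2 : ⟪rho a w, V g w⟫_ℂ = ⟪rho a (w - x), V g w⟫_ℂ + ⟪rho a x, V g (w - x)⟫_ℂ +
      ⟪rho a x, V g x⟫_ℂ := by
    rw [map_sub, map_sub, inner_sub_left, inner_sub_right]
    ring
  have h3 : ‖⟪rho a (w - x), V g w⟫_ℂ‖ ≤ δ * ‖w‖ := by
    refine (norm_inner_le_norm _ _).trans ?_
    rw [norm_rho]
    exact mul_le_mul hwx.le (hVn g w) (norm_nonneg _) hδ.le
  have hxn : ‖x‖ ≤ ‖w‖ + δ := by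
    have h4 : x = w - (w - x) := by abel
    rw [h4]
    refine (norm_sub_le _ _).trans ?_
    linarith
  have h4 : ‖⟪rho a x, V g (w - x)⟫_ℂ‖ ≤ (‖w‖ + δ) * δ := by
    refine (norm_inner_le_norm _ _).trans ?_
    rw [norm_rho]
    exact mul_le_mul hxn ((hVn g _).trans hwx.le) (norm_nonneg _) (by positivity)
  have h5 : κ / (4 * (C + 1)) * C ≤ κ / 4 := by
    rw [div_mul_eq_mul_div, div_le_div_iff₀ (by positivity) (by positivity)]
    nlinarith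
  have h6 : κ ≤ κ / 2 + κ / 4 := by
    calc κ ≤ ‖⟪rho a w, V g w⟫_ℂ‖ := ha
      _ ≤ ‖⟪rho a (w - x), V g w⟫_ℂ‖ + ‖⟪rho a x, V g (w - x)⟫_ℂ‖ + ‖⟪rho a x, V g x⟫_ℂ‖ := by
        rw [h2]
        exact (norm_add_le _ _).trans (add_le_add_left (norm_add_le _ _) _)
      _ ≤ κ / 2 + κ / 4 := by linarith
  linarith

end op

end frame

/-! ### The canonical form -/

section canon

variable (hΓ : ∀ g : Γ, g ≠ 1 → Set.Infinite {y : Γ | ∃ h, y = h * g * h⁻¹})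

include hΓ

theorem cf_eq (θ : LG Γ ≃⋆ₐ[ℂ] LG Λ) (g : Γ) (r : Λ) :
    (alphaOf θ g (dl 1)) r = cf (alphaOf θ.symm) g r := by
  have h1 : (alphaOf θ g (dl 1)) r = tr (θ (uu g) * star (uu r)) := (tr_mul_star_uu _ _).symm
  have h2 : θ (uu g) * star (uu r) = θ (uu g * star (θ.symm (uu r))) := by
    rw [map_mul, theta_star, θ.apply_symm_apply]
  rw [h1, h2, H108.tr_iso hΓ θ, H108.tr_comm, tr_eq, cf]
  change ⟪(dl 1 : Ell2 Γ), adjoint ((θ.symm (uu r) : LG Γ) : Ell2 Γ →L[ℂ] Ell2 Γ)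
    (lam g (dl 1))⟫_ℂ = _
  rw [adjoint_inner_right, lam_dl, mul_one]
  rfl

theorem p4_ge_of_cf (θ : LG Γ ≃⋆ₐ[ℂ] LG Λ) {c : ℝ} (hc : 0 ≤ c) {g : Γ} {r : Λ}
    (h : c ≤ ‖cf (alphaOf θ.symm) g r‖) : c ^ 4 ≤ p4 (alphaOf θ) g := by
  have hF := frame_of_iso hΓ θ
  have h1 : ‖alphaOf θ g (dl 1)‖ = 1 := by rw [hF.reg.norm_map, norm_dl]
  have h2 := (summable_p4 _ h1).le_tsum r fun _ _ => by positivity
  rw [← cf_eq hΓ] at h
  exact (pow_le_pow_left₀ hc h 4).trans h2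

/-- **[H2']** An isomorphism with heights bounded below is canonical. -/
theorem canonical_of_height (θ : St.StarIso Γ Λ) {c : ℝ} (hc : 0 < c)
    (h : ∀ g, ∃ r, c ≤ ‖cf (alphaOf (toAlg θ).symm) g r‖) : St.Canonical θ := by
  refine canonical_iff θ (canonical_of_form (toAlg θ) (canon_of_p4 (frame_of_iso hΓ (toAlg θ)) hΓ
    (c := c ^ 4) (by positivity) fun g => ?_))
  obtain ⟨r, hr⟩ := h g
  exact p4_ge_of_cf hΓ (toAlg θ) hc.le hr

/-- **[H3]** Uniform atoms of one leg of the comultiplication. -/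
theorem canonical_of_leg (θ : St.StarIso Γ Λ) {c : ℝ} (hc : 0 < c)
    (h : ∀ g, ∃ h', c ≤ ∑' r, ‖cf (alphaOf (toAlg θ).symm) g r‖ ^ 2 *
      ‖cf (alphaOf (toAlg θ).symm) h' r‖ ^ 2) : St.Canonical θ := by
  have hF : Frame (alphaOf (toAlg θ).symm) :=
    frame_of_iso ((frame_of_iso hΓ (toAlg θ)).icc hΓ) (toAlg θ).symm
  refine canonical_of_height hΓ θ (c := Real.sqrt (c / 2)) (by positivity) fun g => ?_
  by_contra hcon
  push Not at hcon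
  obtain ⟨h', hh⟩ := h g
  have h1 : ∀ r, ‖cf (alphaOf (toAlg θ).symm) g r‖ ^ 2 ≤ c / 2 := fun r => by
    have h2 := pow_le_pow_left₀ (norm_nonneg _) (hcon r).le 2
    rwa [Real.sq_sqrt (by positivity)] at h2
  have h3 := cf_sum hF h'
  have h4 : ∑' r, ‖cf (alphaOf (toAlg θ).symm) g r‖ ^ 2 *
      ‖cf (alphaOf (toAlg θ).symm) h' r‖ ^ 2 ≤ c / 2 := by
    have h5 : Summable fun r => c / 2 * ‖cf (alphaOf (toAlg θ).symm) h' r‖ ^ 2 :=
      h3.summable.mul_left _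
    have h6 : Summable fun r => ‖cf (alphaOf (toAlg θ).symm) g r‖ ^ 2 *
        ‖cf (alphaOf (toAlg θ).symm) h' r‖ ^ 2 :=
      Summable.of_nonneg_of_le (fun r => by positivity)
        (fun r => mul_le_mul_of_nonneg_right (h1 r) (by positivity)) h5
    refine (h6.tsum_le_tsum (fun r => mul_le_mul_of_nonneg_right (h1 r) (by positivity))
      h5).trans ?_
    rw [tsum_mul_left, h3.tsum_eq, mul_one]
  linarith

/-- **[H2]** The end of the superrigidity theorem: a nonzero vector `w` with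
`V g w = χ(g) ρ(δ(g)) w`. -/
theorem canonical_of_vector (θ : St.StarIso Γ Λ)
    {V : Γ → (Ell2 (Γ × Γ) →L[ℂ] Ell2 (Γ × Γ))} (hVn : ∀ g x, ‖V g x‖ ≤ ‖x‖)
    (hV : ∀ g s t, HasSum (fun r => cf (alphaOf (toAlg θ).symm) g r •
      eh (alphaOf (toAlg θ).symm) (r * s) (r * t)) (V g (eh (alphaOf (toAlg θ).symm) s t)))
    {w : Ell2 (Γ × Γ)} (hw : w ≠ 0) (χ : Γ → ℂ) (hχ : ∀ g, ‖χ g‖ = 1) (δ : Γ → Γ × Γ)
    (h : ∀ g, V g w = χ g • rho (δ g) w) : St.Canonical θ := by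
  have hF : Frame (alphaOf (toAlg θ).symm) :=
    frame_of_iso ((frame_of_iso hΓ (toAlg θ)).icc hΓ) (toAlg θ).symm
  have hwn : 0 < ‖w‖ := norm_pos_iff.mpr hw
  obtain ⟨c, hc, h1⟩ := height_of_overlap hF hV hVn (w := w) (κ := ‖w‖ ^ 2) (by positivity)
    Set.univ (fun g _ => ⟨δ g, by
      rw [h g, inner_smul_right, norm_mul, hχ, one_mul, inner_rho, inner_self_eq_norm_sq_to_K,
        norm_pow, RCLike.norm_ofReal, abs_of_nonneg (norm_nonneg w)]⟩)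
  exact canonical_of_height hΓ θ hc fun g => h1 g (Set.mem_univ g)

end canon

end Vale.Agent.P092.H200
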