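import Vale.Agent.P092.H200.NCor

/-!
P092 (helper200): `Multi` passes to subgroups of finite index; `Aut(F_n)`, `Out(F_n)` and their
subgroups of finite index; groups containing powers of a nonamenable group.
-/

namespace Vale.Agent.P092.H200

open Matrix

section

variable {Λ : Type} [Group Λ]

/-- Subgroups of finite index of nonamenable groups are nonamenable. -/
theorem NoMean.inf_finiteIndex {K : Subgroup Λ} (hK : NoMean K) (Λ₀ : Subgroup Λ)
    [hΛ₀ : Λ₀.FiniteIndex] : NoMean (K ⊓ Λ₀) := by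
  classical
  rintro ⟨m, hm⟩
  have hfi : (Λ₀.subgroupOf K).FiniteIndex := inferInstance
  have := Fintype.ofFinite (K ⧸ Λ₀.subgroupOf K)
  have hpos : (0 : ℝ) < Fintype.card (K ⧸ Λ₀.subgroupOf K) := by
    exact_mod_cast Fintype.card_pos
  let r : K ⧸ Λ₀.subgroupOf K → Λ := fun c => ((c.out : K) : Λ)⁻¹
  refine hK ⟨fun A => (∑ c, m {w | w * r c ∈ A}) / Fintype.card (K ⧸ Λ₀.subgroupOf K), ?_⟩
  refine ⟨fun A => ?_, ?_, ?_, ?_⟩
  · exact div_nonneg (Finset.sum_nonneg fun f _ => hm.nonneg _) hpos.le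
  · simp only [Set.mem_univ, Set.ofPred_true, hm.univ, Finset.sum_const, Finset.card_univ,
      nsmul_eq_mul, mul_one]
    exact div_self hpos.ne'
  · intro A B hAB
    rw [← add_div, ← Finset.sum_add_distrib]
    congr 1
    refine Finset.sum_congr rfl fun f _ => ?_
    rw [← hm.add]
    · rfl
    · rw [Set.disjoint_left]
      intro q hq hq'
      exact Set.disjoint_left.mp hAB hq hq'
  · intro A v hv
    congr 1
    -- move the coset
    let u : K := ⟨v, hv⟩
    have key : ∀ c : K ⧸ Λ₀.subgroupOf K, ∃ κ ∈ K ⊓ Λ₀, r c * v = κ * r (u⁻¹ • c) := by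
      intro c
      refine ⟨r c * v * (r (u⁻¹ • c))⁻¹, ?_, by group⟩
      have h1 : (QuotientGroup.mk (u⁻¹ * c.out) : K ⧸ Λ₀.subgroupOf K) =
          QuotientGroup.mk (u⁻¹ • c).out := by
        have e1 : (QuotientGroup.mk c.out : K ⧸ Λ₀.subgroupOf K) = c := Quotient.out_eq' c
        have e2 : (QuotientGroup.mk (u⁻¹ • c).out : K ⧸ Λ₀.subgroupOf K) = u⁻¹ • c :=
          Quotient.out_eq' _
        rw [e2]
        conv_rhs => rw [← e1]
        rfl
      rw [QuotientGroup.eq, Subgroup.mem_subgroupOf] at h1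
      have e3 : r c * v * (r (u⁻¹ • c))⁻¹ =
          (((u⁻¹ * c.out)⁻¹ * (u⁻¹ • c).out : K) : Λ) := by
        simp only [r, Subgroup.coe_mul, Subgroup.coe_inv, inv_inv, _root_.mul_inv_rev]
        rfl
      rw [e3]
      exact ⟨Subtype.property _, h1⟩
    have h2 : ∀ c : K ⧸ Λ₀.subgroupOf K, m {w | w * r c ∈ {w | w * v ∈ A}} =
        m {w | w * r (u⁻¹ • c) ∈ A} := by
      intro c
      obtain ⟨κ, hκ, e⟩ := key c
      rw [← hm.inv {w | w * r (u⁻¹ • c) ∈ A} κ hκ]
      congr 1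
      ext w
      simp only [Set.mem_ofPred_eq]
      rw [mul_assoc, e, ← mul_assoc]
    rw [Finset.sum_congr rfl fun c _ => h2 c]
    exact Equiv.sum_comp (MulAction.toPerm (u⁻¹ : K)) (fun c : K ⧸ Λ₀.subgroupOf K =>
      m {w | w * r c ∈ A})

theorem NoMean.subgroupOf {K : Subgroup Λ} (hK : NoMean K) (Λ₀ : Subgroup Λ)
    [hΛ₀ : Λ₀.FiniteIndex] : NoMean (K.subgroupOf Λ₀) := by
  rintro ⟨m, hm⟩
  refine hK.inf_finiteIndex Λ₀ ⟨_, (hm.image Λ₀.subtype).mono_subgroup ?_⟩
  rw [Subgroup.subgroupOf_map_subtype]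

/-- infinite subgroups meet subgroups of finite index in infinite subgroups -/
theorem infinite_subgroupOf {C : Subgroup Λ} (hC : Infinite C) (Λ₀ : Subgroup Λ)
    [hΛ₀ : Λ₀.FiniteIndex] : Infinite (C.subgroupOf Λ₀) := by
  by_contra hfin
  rw [not_infinite_iff_finite] at hfin
  have h1 : Finite (Λ₀.subgroupOf C) := by
    refine Finite.of_injective (β := C.subgroupOf Λ₀)
      (fun x => ⟨⟨((x : C) : Λ), x.2⟩, (x : C).2⟩) ?_
    intro x y e
    exact Subtype.ext (Subtype.ext (congrArg (fun z : C.subgroupOf Λ₀ => ((z : Λ₀) : Λ)) e))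
  have h2 : (Λ₀.subgroupOf C).FiniteIndex := inferInstance
  have h3 := Subgroup.card_mul_index (Λ₀.subgroupOf C)
  have h4 : Nat.card C ≠ 0 := by
    rw [← h3]
    exact mul_ne_zero Nat.card_pos.ne' h2.index_ne_zero
  exact hC.not_finite (Nat.finite_of_card_ne_zero h4)

/-- `Multi` passes to subgroups of finite index. -/
theorem Multi.finiteIndex {r : ℕ} (h : Multi r Λ) (Λ₀ : Subgroup Λ) [Λ₀.FiniteIndex] :
    Multi r Λ₀ := by
  obtain ⟨K, C, h1, h2, h3, h4⟩ := h
  refine ⟨fun i => (K i).subgroupOf Λ₀, C.subgroupOf Λ₀, fun i => (h1 i).subgroupOf Λ₀, ?_,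
    infinite_subgroupOf h3 Λ₀, ?_⟩
  · intro i j hij v hv w hw
    exact Subtype.ext (h2 i j hij v hv w hw)
  · intro i v hv w hw
    exact Subtype.ext (h4 i v hv w hw)

/-- `r + 1` commuting nonamenable groups. -/
theorem multi_of_homs {r : ℕ} {A : Fin (r + 1) → Type} [∀ i, Group (A i)]
    (φ : ∀ i, A i →* Λ) (hφ : ∀ i, Function.Injective (φ i))
    (hA : ∀ i, ¬ ∃ m, IsInvMean (⊤ : Subgroup (A i)) m)
    (hc : ∀ i j, i ≠ j → ∀ x y, φ i x * φ j y = φ j y * φ i x) : Multi r Λ := by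
  refine Multi.of_commuting (fun i => (φ i).range) (fun i => ?_) ?_
  · exact no_mean_of_inj (φ i) (hφ i) (hA i) _ (fun v => ⟨v, rfl⟩)
  · rintro i j hij _ ⟨x, rfl⟩ _ ⟨y, rfl⟩
    exact hc i j hij x y

end

/-! ### Automorphisms of free groups -/

section free

variable {n : ℕ}

/-- `⟨x_0, x_1⟩ → F_n` -/
def em (hn : 2 ≤ n) : FreeGroup (Fin 2) →* FreeGroup (Fin n) := FreeGroup.map (Fin.castLE hn)

/-- the retraction `F_n → ⟨x_0, x_1⟩` -/
def re (n : ℕ) : FreeGroup (Fin n) →* FreeGroup (Fin 2) :=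
  FreeGroup.lift fun j => if h : (j : ℕ) < 2 then FreeGroup.of ⟨j, h⟩ else 1

theorem re_em (hn : 2 ≤ n) (w : FreeGroup (Fin 2)) : re n (em hn w) = w := by
  have h : (re n).comp (em hn) = MonoidHom.id _ := by
    refine FreeGroup.ext_hom _ _ fun a => ?_
    simp only [MonoidHom.comp_apply, em, re, FreeGroup.map.of, FreeGroup.lift_apply_of,
      Fin.val_castLE, MonoidHom.id_apply, a.2, dif_pos]
  exact DFunLike.congr_fun h w

/-- `x_i ↦ u x_i v`, the other generators are fixed -/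
def tv (i : Fin n) (u v : FreeGroup (Fin n)) : FreeGroup (Fin n) →* FreeGroup (Fin n) :=
  FreeGroup.lift fun j => if j = i then u * FreeGroup.of i * v else FreeGroup.of j

theorem tv_of_self (i : Fin n) (u v : FreeGroup (Fin n)) :
    tv i u v (FreeGroup.of i) = u * FreeGroup.of i * v := by
  rw [tv, FreeGroup.lift_apply_of, if_pos rfl]

theorem tv_of_ne {i j : Fin n} (h : j ≠ i) (u v : FreeGroup (Fin n)) :
    tv i u v (FreeGroup.of j) = FreeGroup.of j := by
  rw [tv, FreeGroup.lift_apply_of, if_neg h]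

theorem tv_em (hn : 2 ≤ n) {i : Fin n} (hi : 2 ≤ (i : ℕ)) (u v : FreeGroup (Fin n))
    (w : FreeGroup (Fin 2)) : tv i u v (em hn w) = em hn w := by
  have h : (tv i u v).comp (em hn) = em hn := by
    refine FreeGroup.ext_hom _ _ fun a => ?_
    rw [MonoidHom.comp_apply]
    have e : em hn (FreeGroup.of a) = FreeGroup.of (Fin.castLE hn a) := by
      simp only [em, FreeGroup.map.of]
    rw [e]
    refine tv_of_ne (fun h => ?_) u v
    have := congrArg Fin.val h
    simp only [Fin.val_castLE] at this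
    omega
  exact DFunLike.congr_fun h w

theorem tv_comp (hn : 2 ≤ n) {i : Fin n} (hi : 2 ≤ (i : ℕ)) (u v u' v' : FreeGroup (Fin 2)) :
    (tv i (em hn u) (em hn v)).comp (tv i (em hn u') (em hn v')) =
      tv i (em hn (u' * u)) (em hn (v * v')) := by
  refine FreeGroup.ext_hom _ _ fun j => ?_
  rw [MonoidHom.comp_apply]
  by_cases h : j = i
  · subst h
    rw [tv_of_self, tv_of_self, map_mul, map_mul, tv_em hn hi, tv_em hn hi, tv_of_self, map_mul,
      map_mul]
    group
  · rw [tv_of_ne h, tv_of_ne h, tv_of_ne h]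

theorem tv_comm (hn : 2 ≤ n) {i j : Fin n} (hi : 2 ≤ (i : ℕ)) (hj : 2 ≤ (j : ℕ)) (hij : i ≠ j)
    (u v u' v' : FreeGroup (Fin 2)) :
    (tv i (em hn u) (em hn v)).comp (tv j (em hn u') (em hn v')) =
      (tv j (em hn u') (em hn v')).comp (tv i (em hn u) (em hn v)) := by
  refine FreeGroup.ext_hom _ _ fun k => ?_
  rw [MonoidHom.comp_apply, MonoidHom.comp_apply]
  by_cases h : k = i
  · subst h
    rw [tv_of_ne hij, tv_of_self, map_mul, map_mul, tv_em hn hj, tv_em hn hj, tv_of_ne hij]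
  · by_cases h' : k = j
    · subst h'
      rw [tv_of_ne h, tv_of_self, map_mul, map_mul, tv_em hn hi, tv_em hn hi, tv_of_ne h]
    · rw [tv_of_ne h, tv_of_ne h', tv_of_ne h]

theorem tv_one (i : Fin n) : tv i 1 1 = MonoidHom.id _ := by
  refine FreeGroup.ext_hom _ _ fun j => ?_
  by_cases h : j = i
  · subst h
    rw [tv_of_self, one_mul, mul_one, MonoidHom.id_apply]
  · rw [tv_of_ne h, MonoidHom.id_apply]

/-- the automorphism `x_i ↦ u⁻¹ x_i v`, `u, v ∈ ⟨x_0, x_1⟩` -/
def ta (hn : 2 ≤ n) {i : Fin n} (hi : 2 ≤ (i : ℕ)) :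
    FreeGroup (Fin 2) × FreeGroup (Fin 2) →* MulAut (FreeGroup (Fin n)) where
  toFun p := MonoidHom.toMulEquiv (tv i (em hn p.1⁻¹) (em hn p.2)) (tv i (em hn p.1) (em hn p.2⁻¹))
    (by rw [tv_comp hn hi, inv_mul_cancel, inv_mul_cancel, map_one, tv_one])
    (by rw [tv_comp hn hi, mul_inv_cancel, mul_inv_cancel, map_one, tv_one])
  map_one' := by
    refine MulEquiv.ext fun x => ?_
    change tv i (em hn (1 : FreeGroup (Fin 2))⁻¹) (em hn 1) x = x
    rw [inv_one, map_one, tv_one]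
    rfl
  map_mul' p q := by
    refine MulEquiv.ext fun x => ?_
    change tv i (em hn (p.1 * q.1)⁻¹) (em hn (p.2 * q.2)) x =
      tv i (em hn p.1⁻¹) (em hn p.2) (tv i (em hn q.1⁻¹) (em hn q.2) x)
    rw [← MonoidHom.comp_apply, tv_comp hn hi, _root_.mul_inv_rev]

theorem ta_apply (hn : 2 ≤ n) {i : Fin n} (hi : 2 ≤ (i : ℕ))
    (p : FreeGroup (Fin 2) × FreeGroup (Fin 2)) (x : FreeGroup (Fin n)) :
    ta hn hi p x = tv i (em hn p.1⁻¹) (em hn p.2) x := rfl

/-- only `u = v` can give an inner automorphism -/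
theorem eq_of_ta_inner (hn : 2 ≤ n) {i : Fin n} (hi : 2 ≤ (i : ℕ))
    (p : FreeGroup (Fin 2) × FreeGroup (Fin 2)) (g : FreeGroup (Fin n))
    (h : ta hn hi p = MulAut.conj g) : p.1 = p.2 := by
  have h1 := DFunLike.congr_fun h (FreeGroup.of i)
  rw [ta_apply, tv_of_self, MulAut.conj_apply] at h1
  have h2 := congrArg (re n) h1
  have h3 : re n (FreeGroup.of i) = 1 := by
    rw [re, FreeGroup.lift_apply_of, dif_neg (by omega)]
  simp only [map_mul, re_em, h3, mul_one, map_inv, mul_inv_cancel] at h2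
  exact eq_of_inv_mul_eq_one h2

/-- the `2 (n - 2)` commuting copies of the free group of rank two in `Aut(F_n)` -/
def tk (hn : 2 ≤ n) {r : ℕ} (h : r + 1 ≤ 2 * (n - 2)) (s : Fin (r + 1)) :
    FreeGroup (Fin 2) →* MulAut (FreeGroup (Fin n)) :=
  (ta hn (i := ⟨2 + (s : ℕ) / 2, by omega⟩) (by simp)).comp
    (if (s : ℕ) % 2 = 0 then MonoidHom.inl _ _ else MonoidHom.inr _ _)

theorem tk_comm (hn : 2 ≤ n) {r : ℕ} (h : r + 1 ≤ 2 * (n - 2)) (s t : Fin (r + 1)) (hst : s ≠ t)
    (x y : FreeGroup (Fin 2)) : tk hn h s x * tk hn h t y = tk hn h t y * tk hn h s x := by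
  by_cases e : (s : ℕ) / 2 = (t : ℕ) / 2
  · have h1 : (⟨2 + (s : ℕ) / 2, by omega⟩ : Fin n) = ⟨2 + (t : ℕ) / 2, by omega⟩ :=
      Fin.ext (by simp only; omega)
    have hne : (s : ℕ) ≠ t := fun e => hst (Fin.ext e)
    simp only [tk, MonoidHom.comp_apply]
    have e' : ∀ (i j : Fin n) (hi : 2 ≤ (i : ℕ)) (hj : 2 ≤ (j : ℕ)) (hij : i = j)
        (p q : FreeGroup (Fin 2) × FreeGroup (Fin 2)), p * q = q * p →
        ta hn hi p * ta hn hj q = ta hn hj q * ta hn hi p := by
      rintro i _ hi hj rfl p q hpq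
      rw [← map_mul, ← map_mul, hpq]
    refine e' _ _ _ _ h1 _ _ ?_
    rcases Nat.mod_two_eq_zero_or_one (s : ℕ) with hs | hs <;>
    rcases Nat.mod_two_eq_zero_or_one (t : ℕ) with ht | ht
    · omega
    · rw [if_pos hs, if_neg (by omega)]
      simp
    · rw [if_neg (by omega), if_pos ht]
      simp
    · omega
  · refine MulEquiv.ext fun z => ?_
    simp only [tk, MonoidHom.comp_apply, MulAut.mul_apply, ta_apply]
    rw [← MonoidHom.comp_apply, ← MonoidHom.comp_apply, tv_comm hn (by simp) (by simp)]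
    intro hc
    have := congrArg Fin.val hc
    simp only at this
    omega

theorem tk_inner (hn : 2 ≤ n) {r : ℕ} (h : r + 1 ≤ 2 * (n - 2)) (s : Fin (r + 1))
    (x : FreeGroup (Fin 2)) (g : FreeGroup (Fin n)) (hx : tk hn h s x = MulAut.conj g) :
    x = 1 := by
  have h1 := eq_of_ta_inner hn (i := ⟨2 + (s : ℕ) / 2, by omega⟩) (by simp) _ g hx
  by_cases hs : (s : ℕ) % 2 = 0
  · rw [if_pos hs] at h1
    exact h1
  · rw [if_neg hs] at h1
    exact h1.symm

/-- the action of `F_n` on `⟨x_0, x_1⟩ ∪ {∞}` in which `x_2` exchanges `1` and `∞` -/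
def pe (n : ℕ) : FreeGroup (Fin n) →* Equiv.Perm (Option (FreeGroup (Fin 2))) :=
  FreeGroup.lift fun j => if h : (j : ℕ) < 2 then
    Equiv.optionCongr (Equiv.mulLeft (FreeGroup.of ⟨j, h⟩)) else
    if (j : ℕ) = 2 then Equiv.swap none (some 1) else 1

theorem pe_em (hn : 2 ≤ n) (w : FreeGroup (Fin 2)) :
    pe n (em hn w) none = none ∧ ∀ v, pe n (em hn w) (some v) = some (w * v) := by
  let F : FreeGroup (Fin 2) →* Equiv.Perm (Option (FreeGroup (Fin 2))) :=
    { toFun := fun w => Equiv.optionCongr (Equiv.mulLeft w)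
      map_one' := by
        refine Equiv.ext fun x => ?_
        cases x <;> simp
      map_mul' := fun a b => by
        refine Equiv.ext fun x => ?_
        cases x <;> simp [mul_assoc] }
  have h : (pe n).comp (em hn) = F := by
    refine FreeGroup.ext_hom _ _ fun a => ?_
    simp only [MonoidHom.comp_apply, em, pe, FreeGroup.map.of, FreeGroup.lift_apply_of,
      Fin.val_castLE, a.2, dif_pos]
    rfl
  have h1 : pe n (em hn w) = F w := DFunLike.congr_fun h w
  rw [h1]
  exact ⟨rfl, fun v => rfl⟩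

/-- an element of `⟨x_0, x_1⟩` which commutes with `x_2` is trivial -/
theorem eq_one_of_comm (hn : 3 ≤ n) (w : FreeGroup (Fin 2))
    (h : em (by omega) w * FreeGroup.of (⟨2, hn⟩ : Fin n) =
      FreeGroup.of (⟨2, hn⟩ : Fin n) * em (by omega) w) : w = 1 := by
  have h2 : pe n (FreeGroup.of (⟨2, hn⟩ : Fin n)) = Equiv.swap none (some 1) := by
    rw [pe, FreeGroup.lift_apply_of, dif_neg (by simp), if_pos rfl]
  have h1 := congrArg (fun g => pe n g none) h
  simp only [map_mul, Equiv.Perm.mul_apply, h2, (pe_em (by omega : 2 ≤ n) w).1,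
    Equiv.swap_apply_left, (pe_em (by omega : 2 ≤ n) w).2, mul_one, Option.some.injEq] at h1
  exact h1

/-- inner automorphisms given by `⟨x_0, x_1⟩` commute with all `x_i ↦ u⁻¹ x_i v` -/
theorem conj_ta (hn : 2 ≤ n) {i : Fin n} (hi : 2 ≤ (i : ℕ))
    (p : FreeGroup (Fin 2) × FreeGroup (Fin 2)) (w : FreeGroup (Fin 2)) :
    MulAut.conj (em hn w) * ta hn hi p = ta hn hi p * MulAut.conj (em hn w) := by
  refine MulEquiv.ext fun x => ?_
  simp only [MulAut.mul_apply, MulAut.conj_apply, ta_apply, map_mul, map_inv, tv_em hn hi]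

/-- **`Aut(F_n)`**, `n ≥ 3`, contains `2n - 3` commuting free groups. -/
theorem multi_aut_free (r n : ℕ) (h3 : 3 ≤ n) (h : r + 4 ≤ 2 * n) :
    Multi r (MulAut (FreeGroup (Fin n))) := by
  have hn : 2 ≤ n := by omega
  -- the last copy consists of inner automorphisms
  rcases Nat.eq_zero_or_pos r with rfl | hr
  · refine multi_of_homs (fun _ => (MulAut.conj : FreeGroup (Fin n) →* _).comp (em hn))
      (fun s => ?_) (fun _ => noMean_free) (fun i j hij => absurd (Fin.ext (by omega)) hij)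
    rw [injective_iff_map_eq_one]
    intro x hx
    refine eq_one_of_comm h3 x ?_
    have h1 := DFunLike.congr_fun hx (FreeGroup.of (⟨2, h3⟩ : Fin n))
    rw [MonoidHom.comp_apply, MulAut.conj_apply, MulAut.one_apply, mul_inv_eq_iff_eq_mul] at h1
    exact h1
  obtain ⟨r, rfl⟩ : ∃ r', r = r' + 1 := ⟨r - 1, by omega⟩
  have hr' : r + 1 ≤ 2 * (n - 2) := by omega
  let φ : Fin (r + 1 + 1) → (FreeGroup (Fin 2) →* MulAut (FreeGroup (Fin n))) :=
    Fin.cons ((MulAut.conj : FreeGroup (Fin n) →* _).comp (em hn)) (fun s => tk hn hr' s)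
  have hc : ∀ (s : Fin (r + 1)) (x y : FreeGroup (Fin 2)),
      ((MulAut.conj : FreeGroup (Fin n) →* _).comp (em hn)) x * tk hn hr' s y =
        tk hn hr' s y * ((MulAut.conj : FreeGroup (Fin n) →* _).comp (em hn)) x := by
    intro s x y
    exact conj_ta hn (i := ⟨2 + (s : ℕ) / 2, by omega⟩) (by simp) _ x
  refine multi_of_homs φ (fun s => ?_) (fun _ => noMean_free) ?_
  · refine Fin.cases ?_ (fun s => ?_) s
    · rw [injective_iff_map_eq_one]
      intro x hx
      refine eq_one_of_comm h3 x ?_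
      have h1 := DFunLike.congr_fun hx (FreeGroup.of (⟨2, h3⟩ : Fin n))
      simp only [φ, Fin.cons_zero] at h1
      rw [MonoidHom.comp_apply, MulAut.conj_apply, MulAut.one_apply, mul_inv_eq_iff_eq_mul] at h1
      exact h1
    · simp only [φ, Fin.cons_succ]
      rw [injective_iff_map_eq_one]
      intro x hx
      exact tk_inner hn hr' s x 1 (by rw [hx, map_one])
  · intro i j
    refine Fin.cases ?_ (fun i => ?_) i <;> refine Fin.cases ?_ (fun j => ?_) j
    · intro hij
      exact absurd rfl hij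
    · intro _ x y
      simp only [φ, Fin.cons_zero, Fin.cons_succ]
      exact hc j x y
    · intro _ x y
      simp only [φ, Fin.cons_zero, Fin.cons_succ]
      exact (hc i y x).symm
    · intro hij x y
      simp only [φ, Fin.cons_succ]
      exact tk_comm hn hr' i j (fun e => hij (by rw [e])) x y

/-- The inner automorphisms form a normal subgroup. -/
instance inn_normal (G : Type) [Group G] : (MulAut.conj : G →* MulAut G).range.Normal where
  conj_mem := by
    rintro _ ⟨g, rfl⟩ a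
    refine ⟨a g, ?_⟩
    refine MulEquiv.ext fun x => ?_
    simp only [MulAut.conj_apply, MulAut.mul_apply, map_mul, map_inv, MulAut.apply_inv_self]

/-- The outer automorphism group. -/
abbrev Outer (G : Type) [Group G] : Type := MulAut G ⧸ (MulAut.conj : G →* MulAut G).range

/-- **`Out(F_n)`** contains `2n - 4` commuting free groups. -/
theorem multi_out_free (r n : ℕ) (h' : r + 5 ≤ 2 * n) :
    Multi r (Outer (FreeGroup (Fin n))) := by
  have hn : 2 ≤ n := by omega
  have h : r + 1 ≤ 2 * (n - 2) := by omega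
  refine multi_of_homs (fun s => (QuotientGroup.mk' _).comp (tk hn h s)) (fun s => ?_)
    (fun _ => noMean_free) (fun i j hij x y => ?_)
  · rw [injective_iff_map_eq_one]
    intro x hx
    rw [MonoidHom.comp_apply, QuotientGroup.mk'_apply, QuotientGroup.eq_one_iff] at hx
    obtain ⟨g, hg⟩ := hx
    exact tk_inner hn h s x g hg.symm
  · simp only [MonoidHom.comp_apply]
    rw [← map_mul, tk_comm hn h i j hij, map_mul]

end free

/-- Groups containing all finite powers of a nonamenable group `A` (for instance wreath products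
`A ≀ B` with `B` infinite) satisfy `Multi r` for all `r`. -/
theorem multi_of_powers {Λ A : Type} [Group Λ] [Group A]
    (hA : ¬ ∃ m, IsInvMean (⊤ : Subgroup A) m) {B : Type} [Infinite B]
    (φ : B → A →* Λ) (hφ : ∀ b, Function.Injective (φ b))
    (hc : ∀ b b', b ≠ b' → ∀ x y, φ b x * φ b' y = φ b' y * φ b x) (r : ℕ) : Multi r Λ :=
  multi_of_homs (fun i : Fin (r + 1) => φ (Infinite.natEmbedding B i)) (fun _ => hφ _)
    (fun _ => hA) fun _ _ hij => hc _ _ fun e => hij (Fin.ext ((Infinite.natEmbedding B).injective e))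

/-- **The additional families.** -/
theorem multi_families_more (r : ℕ) (P : (Λ : Type) → [Group Λ] → Prop)
    (hP : ∀ (Λ : Type) [Group Λ], Multi r Λ → P Λ) :
    (∀ n : ℕ, 3 ≤ n → r + 4 ≤ 2 * n → ∀ Λ : Subgroup (MulAut (FreeGroup (Fin n))),
      Λ.FiniteIndex → P Λ) ∧
    (∀ n : ℕ, r + 5 ≤ 2 * n → ∀ Λ : Subgroup (Outer (FreeGroup (Fin n))), Λ.FiniteIndex →
      P Λ) :=
  ⟨fun n h3 hn Λ _ => hP Λ ((multi_aut_free r n h3 hn).finiteIndex Λ),
    fun n hn Λ _ => hP Λ ((multi_out_free r n hn).finiteIndex Λ)⟩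

end Vale.Agent.P092.H200
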