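import Vale.Agent.P092.H200.T5

/-!
P092 (helper200): a mean on `Λ` invariant under right multiplication by `K` gives an invariant mean
on `K`; `SL_2(ℤ)` has no invariant mean; general criterion for `¬ ∃ m, IsInvMean K m`.
-/

namespace Vale.Agent.P092.H200

open Matrix

/-- push-forward of a right invariant mean along an equivariant map `c : Λ → K₀`. -/
theorem IsInvMean.map {Λ : Type} [Group Λ] {K : Subgroup Λ} {m : Set Λ → ℝ}
    (hm : IsInvMean K m) {K₀ : Type} [Group K₀] (L : Subgroup K₀) (φ : K₀ → Λ)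
    (hφ : ∀ v ∈ L, φ v ∈ K) (c : Λ → K₀) (hc : ∀ w, ∀ v ∈ L, c (w * φ v) = c w * v) :
    IsInvMean L (fun A => m (c ⁻¹' A)) where
  nonneg A := hm.nonneg _
  univ := by simpa using hm.univ
  add A B h := by
    rw [Set.preimage_union]
    exact hm.add _ _ (h.preimage c)
  inv A v hv := by
    rw [← hm.inv (c ⁻¹' A) (φ v) (hφ v hv)]
    congr 1
    ext w
    simp only [Set.mem_preimage, Set.mem_ofPred_eq, hc w v hv]

/-- For an injective homomorphism `φ : K₀ → Λ` there is an equivariant map `Λ → K₀`. -/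
theorem exists_equivariant {Λ K₀ : Type} [Group Λ] [Group K₀] (φ : K₀ →* Λ)
    (hφ : Function.Injective φ) : ∃ c : Λ → K₀, ∀ w v, c (w * φ v) = c w * v := by
  classical
  let r : Λ → Λ := fun w => (QuotientGroup.mk w : Λ ⧸ φ.range).out
  have hr : ∀ w, (r w)⁻¹ * w ∈ φ.range := by
    intro w
    rw [← QuotientGroup.eq]
    exact Quotient.out_eq' _
  have hr' : ∀ w v, r (w * φ v) = r w := by
    intro w v
    have : (QuotientGroup.mk (w * φ v) : Λ ⧸ φ.range) = QuotientGroup.mk w := by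
      rw [QuotientGroup.eq]
      simp
    show (QuotientGroup.mk (w * φ v) : Λ ⧸ φ.range).out = (QuotientGroup.mk w : Λ ⧸ φ.range).out
    rw [this]
  choose c hc using fun w => MonoidHom.mem_range.mp (hr w)
  refine ⟨c, fun w v => hφ ?_⟩
  rw [map_mul, hc, hc, hr', mul_assoc]

/-- If `K ≤ Λ` contains the image of a group `K₀` without right invariant mean under an injective
homomorphism, there is no mean on `Λ` which is invariant under right multiplication by `K`. -/
theorem no_mean_of_inj {Λ K₀ : Type} [Group Λ] [Group K₀] (φ : K₀ →* Λ)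
    (hφ : Function.Injective φ) (h₀ : ¬ ∃ m, IsInvMean (⊤ : Subgroup K₀) m)
    (K : Subgroup Λ) (hK : ∀ v, φ v ∈ K) : ¬ ∃ m, IsInvMean K m := by
  rintro ⟨m, hm⟩
  obtain ⟨c, hc⟩ := exists_equivariant φ hφ
  exact h₀ ⟨_, hm.map ⊤ φ (fun v _ => hK v) c (fun w v _ => hc w v)⟩

/-- image of a mean under a homomorphism -/
theorem IsInvMean.image {Λ G : Type} [Group Λ] [Group G] {K : Subgroup Λ} {m : Set Λ → ℝ}
    (hm : IsInvMean K m) (φ : Λ →* G) : IsInvMean (K.map φ) (fun A : Set G => m (φ ⁻¹' A)) where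
  nonneg A := hm.nonneg _
  univ := by simpa using hm.univ
  add A B h := by
    rw [Set.preimage_union]
    exact hm.add _ _ (h.preimage φ)
  inv A v hv := by
    obtain ⟨u, hu, rfl⟩ := hv
    rw [← hm.inv (φ ⁻¹' A) u hu]
    congr 1
    ext w
    simp only [Set.mem_preimage, Set.mem_ofPred_eq, map_mul]

/-- `K` has no right invariant mean iff `Λ ⊇ K` has no right `K`-invariant mean. -/
theorem no_mean_of_top {Λ : Type} [Group Λ] (K : Subgroup Λ)
    (h₀ : ¬ ∃ m, IsInvMean (⊤ : Subgroup K) m) : ¬ ∃ m, IsInvMean K m :=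
  no_mean_of_inj K.subtype K.subtype_injective h₀ K (fun v => v.2)

/-- amenability passes to quotients: no mean on `Q` implies no mean on `K₀ ↠ Q`. -/
theorem no_mean_of_surj {Q K₀ : Type} [Group Q] [Group K₀] (φ : K₀ →* Q)
    (hφ : Function.Surjective φ) (h₀ : ¬ ∃ m, IsInvMean (⊤ : Subgroup Q) m) :
    ¬ ∃ m, IsInvMean (⊤ : Subgroup K₀) m := by
  rintro ⟨m, hm⟩
  refine h₀ ⟨fun A => m (φ ⁻¹' A), ?_⟩
  refine ⟨fun A => hm.nonneg _, by simpa using hm.univ, fun A B h => ?_, fun A v _ => ?_⟩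
  · show m (φ ⁻¹' (A ∪ B)) = _
    rw [Set.preimage_union]
    exact hm.add _ _ (h.preimage φ)
  · obtain ⟨u, rfl⟩ := hφ v
    rw [← hm.inv (φ ⁻¹' A) u (by trivial)]
    congr 1
    ext w
    simp only [Set.mem_preimage, Set.mem_ofPred_eq, map_mul]

/-- `SL_2(ℤ)` (and `SL_n(ℤ)`, `n ≥ 2`) has no invariant mean. -/
theorem no_mean_sl (n : ℕ) (hn : 2 ≤ n) :
    ¬ ∃ m, IsInvMean (⊤ : Subgroup (SpecialLinearGroup (Fin n) ℤ)) m :=
  no_mean_block (⟨0, by omega⟩ : Fin n) ⟨1, by omega⟩ (by simp) ⊤ (fun _ => by trivial)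
    (fun _ => by trivial)

/-- The group generated by `SL_2(ℤ)` inside `Λ`: the criterion used below. -/
theorem no_mean_of_sl2 {Λ : Type} [Group Λ] (φ : SpecialLinearGroup (Fin 2) ℤ →* Λ)
    (hφ : Function.Injective φ) (K : Subgroup Λ) (hK : ∀ v, φ v ∈ K) : ¬ ∃ m, IsInvMean K m :=
  no_mean_of_inj φ hφ (no_mean_sl 2 le_rfl) K hK

end Vale.Agent.P092.H200
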