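import Vale.Agent.P092.H200.Multi

/-!
P092 (helper200): quotients by finite normal subgroups.
-/

namespace Vale.Agent.P092.H200

open Matrix

section

variable {Λ Λ' : Type} [Group Λ] [Group Λ']

/-- A mean on the image under a homomorphism with finite kernel gives a mean on the group. -/
theorem no_mean_of_finite_ker (φ : Λ →* Λ') (hφ : Function.Surjective φ) (hfin : Finite φ.ker)
    (h : ¬ ∃ m, IsInvMean (⊤ : Subgroup Λ) m) : ¬ ∃ m, IsInvMean (⊤ : Subgroup Λ') m := by
  classical
  rintro ⟨m, hm⟩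
  have := Fintype.ofFinite φ.ker
  obtain ⟨σ, hσ⟩ := hφ.hasRightInverse
  have hpos : (0 : ℝ) < Fintype.card φ.ker := by exact_mod_cast Fintype.card_pos
  -- finite additivity over the fibres of a map to a finite set
  have hsplit : ∀ (E : Set Λ') (c : Λ' → φ.ker), m E = ∑ k, m {q | c q = k ∧ q ∈ E} := by
    intro E c
    have key : ∀ T : Finset φ.ker, m {q | c q ∈ T ∧ q ∈ E} = ∑ k ∈ T, m {q | c q = k ∧ q ∈ E} := by
      intro T
      induction T using Finset.induction_on with
      | empty =>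
        simp only [Finset.notMem_empty, false_and, Set.ofPred_false, Finset.sum_empty]
        exact hm.empty
      | insert k T hk ih =>
        rw [Finset.sum_insert hk, ← ih, ← hm.add]
        · congr 1
          ext q
          simp only [Finset.mem_insert, Set.mem_ofPred_eq, Set.mem_union]
          tauto
        · rw [Set.disjoint_left]
          rintro q ⟨h1, -⟩ ⟨h2, -⟩
          exact hk (h1 ▸ h2)
    have := key Finset.univ
    simpa using this
  refine h ⟨fun A => (∑ f : φ.ker, m {q | σ q * f ∈ A}) / Fintype.card φ.ker, ?_⟩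
  refine ⟨fun A => ?_, ?_, ?_, ?_⟩
  · exact div_nonneg (Finset.sum_nonneg fun f _ => hm.nonneg _) hpos.le
  · simp only [Set.mem_univ, Set.ofPred_true, hm.univ, Finset.sum_const, Finset.card_univ,
      nsmul_eq_mul, mul_one]
    exact div_self hpos.ne'
  · intro A B hAB
    rw [← add_div, ← Finset.sum_add_distrib]
    congr 1
    refine Finset.sum_congr rfl fun f _ => ?_
    rw [← hm.add]
    · rfl
    · rw [Set.disjoint_left]
      intro q hq hq'
      exact Set.disjoint_left.mp hAB hq hq'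
  · intro A v _
    congr 1
    -- the cocycle
    have hc : ∀ q, (σ (q * φ v))⁻¹ * (σ q * v) ∈ φ.ker := by
      intro q
      rw [MonoidHom.mem_ker, map_mul, map_inv, map_mul, hσ, hσ, inv_mul_cancel]
    let c : Λ' → φ.ker := fun q => ⟨_, hc q⟩
    let p : φ.ker → φ.ker → φ.ker := fun k f => k * ⟨v⁻¹ * f * v, by
      have := (inferInstance : φ.ker.Normal).conj_mem f f.2 v⁻¹
      simpa using this⟩
    have hp : ∀ k, Function.Bijective (p k) := by
      intro k
      rw [← Finite.injective_iff_bijective]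
      intro f f' e
      have e1 := mul_left_cancel e
      have e2 : v⁻¹ * (f : Λ) * v = v⁻¹ * (f' : Λ) * v := congrArg Subtype.val e1
      exact Subtype.ext (mul_left_cancel (mul_right_cancel e2))
    have e1 : ∀ q (f : φ.ker), σ q * f * v = σ (q * φ v) * p (c q) f := by
      intro q f
      show σ q * f * v = σ (q * φ v) * (((σ (q * φ v))⁻¹ * (σ q * v)) * (v⁻¹ * f * v))
      group
    calc ∑ f : φ.ker, m {q | σ q * f ∈ {w | w * v ∈ A}}
        = ∑ f : φ.ker, ∑ k, m {q | c q = k ∧ q ∈ {q | σ q * f ∈ {w | w * v ∈ A}}} :=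
          Finset.sum_congr rfl fun f _ => hsplit _ c
      _ = ∑ k, ∑ f : φ.ker, m {q | c q = k ∧ q ∈ {q | σ q * f ∈ {w | w * v ∈ A}}} :=
          Finset.sum_comm
      _ = ∑ k, ∑ f : φ.ker, m {q | c q = k ∧ σ (q * φ v) * f ∈ A} := by
          refine Finset.sum_congr rfl fun k _ => ?_
          rw [← (Equiv.ofBijective _ (hp k)).sum_comp
            (fun f : φ.ker => m {q | c q = k ∧ σ (q * φ v) * f ∈ A})]
          refine Finset.sum_congr rfl fun f _ => ?_
          congr 1
          ext q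
          simp only [Set.mem_ofPred_eq, Equiv.ofBijective_apply]
          constructor
          · rintro ⟨rfl, h2⟩
            rw [e1] at h2
            exact ⟨rfl, h2⟩
          · rintro ⟨rfl, h2⟩
            rw [← e1] at h2
            exact ⟨rfl, h2⟩
      _ = ∑ f : φ.ker, ∑ k, m {q | c q = k ∧ q ∈ {q | σ (q * φ v) * f ∈ A}} := Finset.sum_comm
      _ = ∑ f : φ.ker, m {q | σ (q * φ v) * f ∈ A} :=
          Finset.sum_congr rfl fun f _ => (hsplit _ c).symm
      _ = ∑ f : φ.ker, m {q | σ q * f ∈ A} := by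
          refine Finset.sum_congr rfl fun f _ => ?_
          exact hm.inv {q | σ q * f ∈ A} (φ v) trivial

/-- images of nonamenable subgroups under homomorphisms with finite kernel are nonamenable -/
theorem NoMean.map_finite_ker {K : Subgroup Λ} (hK : NoMean K) (φ : Λ →* Λ')
    (hfin : Finite φ.ker) : NoMean (K.map φ) := by
  rw [noMean_iff] at hK ⊢
  refine no_mean_of_finite_ker (φ.subgroupMap K) (φ.subgroupMap_surjective K) ?_ hK
  refine Finite.of_injective (fun x : (φ.subgroupMap K).ker => (⟨(x : K), ?_⟩ : φ.ker)) ?_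
  · have := congrArg Subtype.val (MonoidHom.mem_ker.mp x.2)
    exact this
  · intro a b e
    exact Subtype.ext (Subtype.ext (congrArg (fun t : φ.ker => (t : Λ)) e))

/-- images of infinite subgroups under homomorphisms with finite kernel are infinite -/
theorem infinite_map_finite_ker {C : Subgroup Λ} (hC : Infinite C) (φ : Λ →* Λ')
    (hfin : Finite φ.ker) : Infinite (C.map φ) := by
  by_contra h
  rw [not_infinite_iff_finite] at h
  have h1 : (C.map φ : Set Λ').Finite := Set.toFinite _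
  have h2 : (φ ⁻¹' (C.map φ : Set Λ')).Finite := by
    refine h1.preimage' fun b _ => ?_
    by_cases hb : ∃ a, φ a = b
    · obtain ⟨a, rfl⟩ := hb
      have h3 : φ ⁻¹' {φ a} ⊆ (fun k : Λ => a * k) '' (φ.ker : Set Λ) := by
        intro x hx
        refine ⟨a⁻¹ * x, ?_, by simp⟩
        rw [SetLike.mem_coe, MonoidHom.mem_ker, map_mul, map_inv, show φ x = φ a from hx,
          inv_mul_cancel]
      exact (Set.Finite.image _ (Set.toFinite _)).subset h3
    · have : φ ⁻¹' {b} = ∅ := by
        ext x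
        simp only [Set.mem_preimage, Set.mem_singleton_iff, Set.mem_empty_iff_false, iff_false]
        exact fun hx => hb ⟨x, hx⟩
      rw [this]
      exact Set.finite_empty
  have h3 : (C : Set Λ).Finite := h2.subset fun x hx => ⟨x, hx, rfl⟩
  exact (Set.infinite_coe_iff.mp hC) h3

/-- `Multi` passes along homomorphisms with finite kernel, e.g. to quotients by finite normal
subgroups. -/
theorem Multi.of_finite_ker {r : ℕ} (h : Multi r Λ) (φ : Λ →* Λ') (hfin : Finite φ.ker) :
    Multi r Λ' := by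
  obtain ⟨K, C, h1, h2, h3, h4⟩ := h
  refine ⟨fun i => (K i).map φ, C.map φ, fun i => (h1 i).map_finite_ker φ hfin, ?_,
    infinite_map_finite_ker h3 φ hfin, ?_⟩
  · rintro i j hij _ ⟨v, hv, rfl⟩ _ ⟨w, hw, rfl⟩
    rw [← map_mul, h2 i j hij v hv w hw, map_mul]
  · rintro i _ ⟨v, hv, rfl⟩ _ ⟨w, hw, rfl⟩
    rw [← map_mul, h4 i v hv w hw, map_mul]

/-- `Split` passes along homomorphisms with finite kernel. -/
theorem Split.of_finite_ker (h : Split Λ) (φ : Λ →* Λ') (hfin : Finite φ.ker) : Split Λ' := by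
  obtain ⟨K₀, K₁, y, h0, h1, hc, hy, hy'⟩ := h
  refine ⟨K₀.map φ, K₁.map φ, φ y, h0.map_finite_ker φ hfin, h1.map_finite_ker φ hfin, ?_,
    ⟨y, hy, rfl⟩, ?_⟩
  · rintro _ ⟨v, hv, rfl⟩ _ ⟨w, hw, rfl⟩
    rw [← map_mul, hc v hv w hw, map_mul]
  · intro k hk e
    rw [← map_pow] at e
    have e1 : y ^ k ∈ φ.ker := e
    have e2 : (⟨y ^ k, e1⟩ : φ.ker) ^ Nat.card φ.ker = 1 := pow_card_eq_one'
    have e3 : (y ^ k) ^ Nat.card φ.ker = 1 := congrArg Subtype.val e2
    rw [← pow_mul] at e3
    exact hy' _ (mul_ne_zero hk Nat.card_pos.ne') e3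

end

/-- quotients by a finite normal subgroup -/
theorem Multi.quotient {Λ : Type} [Group Λ] {r : ℕ} (h : Multi r Λ) (N : Subgroup Λ) [N.Normal]
    [Finite N] : Multi r (Λ ⧸ N) :=
  h.of_finite_ker (QuotientGroup.mk' N) (by rw [QuotientGroup.ker_mk']; infer_instance)

theorem Split.quotient {Λ : Type} [Group Λ] (h : Split Λ) (N : Subgroup Λ) [N.Normal]
    [Finite N] : Split (Λ ⧸ N) :=
  h.of_finite_ker (QuotientGroup.mk' N) (by rw [QuotientGroup.ker_mk']; infer_instance)

/-- the centre of `SL_m(ℤ)` is finite -/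
theorem center_sl_finite (m : ℕ) (hm : 0 < m) :
    Finite (Subgroup.center (SpecialLinearGroup (Fin m) ℤ)) := by
  have h1 : ∀ A ∈ Subgroup.center (SpecialLinearGroup (Fin m) ℤ),
      ((A : Matrix (Fin m) (Fin m) ℤ) = scalar (Fin m) (1 : ℤ)) ∨
      ((A : Matrix (Fin m) (Fin m) ℤ) = scalar (Fin m) (-1 : ℤ)) := by
    intro A hA
    obtain ⟨r, hr, hr'⟩ := Matrix.SpecialLinearGroup.mem_center_iff.mp hA
    rw [Fintype.card_fin] at hr
    have hu : IsUnit r := IsUnit.of_pow_eq_one hr (by omega)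
    rcases Int.isUnit_iff.mp hu with h | h
    · left; rw [← hr', h]
    · right; rw [← hr', h]
  have h2 : (Subgroup.center (Matrix.SpecialLinearGroup (Fin m) ℤ) :
      Set (Matrix.SpecialLinearGroup (Fin m) ℤ)).Finite := by
    refine Set.Finite.of_finite_image (f := fun A : SpecialLinearGroup (Fin m) ℤ =>
      (A : Matrix (Fin m) (Fin m) ℤ)) ?_ (fun A _ B _ e => Subtype.ext e)
    refine (Set.toFinite {scalar (Fin m) (1 : ℤ), scalar (Fin m) (-1 : ℤ)}).subset ?_
    rintro _ ⟨A, hA, rfl⟩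
    exact h1 A hA
  exact h2.to_subtype

/-- finite-index subgroups of a quotient by a finite normal subgroup -/
theorem multi_of_finiteIndex_quotient {Λ : Type} [Group Λ] {r : ℕ} (N : Subgroup Λ) [N.Normal]
    [Finite N] (h : ∀ Λ₀ : Subgroup Λ, Λ₀.FiniteIndex → Multi r Λ₀) (L : Subgroup (Λ ⧸ N))
    [hL : L.FiniteIndex] : Multi r L := by
  have hfi : (L.comap (QuotientGroup.mk' N)).FiniteIndex := by
    constructor
    rw [Subgroup.index_comap_of_surjective _ (QuotientGroup.mk'_surjective N)]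
    exact hL.index_ne_zero
  refine (h _ hfi).of_finite_ker ((QuotientGroup.mk' N).subgroupComap L) ?_
  refine Finite.of_injective (fun x : ((QuotientGroup.mk' N).subgroupComap L).ker =>
    (⟨(x : L.comap (QuotientGroup.mk' N)), ?_⟩ : N)) ?_
  · have := congrArg Subtype.val (MonoidHom.mem_ker.mp x.2)
    exact (QuotientGroup.eq_one_iff _).mp this
  · intro a b e
    exact Subtype.ext (Subtype.ext (congrArg (fun t : N => (t : Λ)) e))

/-- **`PSL_m(ℤ)` and its finite-index subgroups**, `m ≥ 2 r + 2` -/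
theorem multi_psl_finiteIndex (r m : ℕ) (hm : 2 * r + 2 ≤ m)
    (L : Subgroup (ProjectiveSpecialLinearGroup (Fin m) ℤ)) [L.FiniteIndex] : Multi r L := by
  have := center_sl_finite m (by omega)
  exact multi_of_finiteIndex_quotient _ (fun Λ₀ h => multi_sl_finiteIndex r m hm Λ₀) L

/-- the centre of `Sp_2m(ℤ)` is finite -/
theorem center_sp_finite (m : ℕ) : Finite (Subgroup.center (SpZ m)) := by
  -- a central element is diagonal with entries `± 1`
  have h1 : ∀ A ∈ Subgroup.center (SpZ m), ∀ (i : Fin m) (a : Fin m ⊕ Fin m),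
      a ≠ Sum.inl i → (A : Matrix (Fin m ⊕ Fin m) (Fin m ⊕ Fin m) ℤ) a (Sum.inl i) = 0 := by
    intro A hA i a ha
    have e1 := congrArg Subtype.val (Subgroup.mem_center_iff.mp hA (lx i 1))
    have e2 : transvection (Sum.inl i) (Sum.inr i) 1 * (A : Matrix (Fin m ⊕ Fin m) (Fin m ⊕ Fin m) ℤ) =
      (A : Matrix (Fin m ⊕ Fin m) (Fin m ⊕ Fin m) ℤ) * transvection (Sum.inl i) (Sum.inr i) 1 := e1
    simp only [transvection, add_mul, mul_add, one_mul, mul_one, add_right_inj] at e2
    have e3 := congrFun (congrFun e2 a) (Sum.inr i)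
    rw [Matrix.mul_apply, Matrix.mul_apply] at e3
    rw [Finset.sum_eq_zero, Finset.sum_eq_single (Sum.inl i)] at e3
    · simpa using e3.symm
    · intro k _ hk
      simp [hk.symm]
    · simp
    · intro k _
      simp [Ne.symm ha]
  have h1' : ∀ A ∈ Subgroup.center (SpZ m), ∀ (i : Fin m) (a : Fin m ⊕ Fin m),
      a ≠ Sum.inr i → (A : Matrix (Fin m ⊕ Fin m) (Fin m ⊕ Fin m) ℤ) a (Sum.inr i) = 0 := by
    intro A hA i a ha
    have e1 := congrArg Subtype.val (Subgroup.mem_center_iff.mp hA (ly i 1))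
    have e2 : transvection (Sum.inr i) (Sum.inl i) 1 * (A : Matrix (Fin m ⊕ Fin m) (Fin m ⊕ Fin m) ℤ) =
      (A : Matrix (Fin m ⊕ Fin m) (Fin m ⊕ Fin m) ℤ) * transvection (Sum.inr i) (Sum.inl i) 1 := e1
    simp only [transvection, add_mul, mul_add, one_mul, mul_one, add_right_inj] at e2
    have e3 := congrFun (congrFun e2 a) (Sum.inl i)
    rw [Matrix.mul_apply, Matrix.mul_apply] at e3
    rw [Finset.sum_eq_zero, Finset.sum_eq_single (Sum.inr i)] at e3
    · simpa using e3.symm
    · intro k _ hk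
      simp [hk.symm]
    · simp
    · intro k _
      simp [Ne.symm ha]
  have h2 : ∀ A ∈ Subgroup.center (SpZ m), ∀ a b : Fin m ⊕ Fin m, a ≠ b →
      (A : Matrix (Fin m ⊕ Fin m) (Fin m ⊕ Fin m) ℤ) a b = 0 := by
    intro A hA a b hab
    rcases b with b | b
    · exact h1 A hA b a hab
    · exact h1' A hA b a hab
  have h3 : ∀ A ∈ Subgroup.center (SpZ m), ∀ a : Fin m ⊕ Fin m,
      (A : Matrix (Fin m ⊕ Fin m) (Fin m ⊕ Fin m) ℤ) a a = 1 ∨
      (A : Matrix (Fin m ⊕ Fin m) (Fin m ⊕ Fin m) ℤ) a a = -1 := by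
    intro A hA a
    have e1 : (A : Matrix (Fin m ⊕ Fin m) (Fin m ⊕ Fin m) ℤ) *
        ((A⁻¹ : SpZ m) : Matrix (Fin m ⊕ Fin m) (Fin m ⊕ Fin m) ℤ) = 1 :=
      congrArg Subtype.val (mul_inv_cancel A)
    have e2 := congrFun (congrFun e1 a) a
    rw [Matrix.mul_apply, Finset.sum_eq_single a, Matrix.one_apply_eq] at e2
    · exact Int.isUnit_iff.mp (IsUnit.of_mul_eq_one _ e2)
    · intro k _ hk
      rw [h2 A hA a k hk.symm, zero_mul]
    · simp
  have h4 : (Subgroup.center (SpZ m) : Set (SpZ m)).Finite := by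
    refine Set.Finite.of_finite_image (f := fun (A : SpZ m) (a : Fin m ⊕ Fin m) =>
      (A : Matrix (Fin m ⊕ Fin m) (Fin m ⊕ Fin m) ℤ) a a) ?_ ?_
    · refine (Set.Finite.pi' (t := fun _ : Fin m ⊕ Fin m => ({1, -1} : Set ℤ))
        (fun _ => Set.toFinite _)).subset ?_
      rintro _ ⟨A, hA, rfl⟩ a
      exact h3 A hA a
    · intro A hA B hB e
      apply Subtype.ext
      ext a b
      by_cases hab : a = b
      · subst hab
        exact congrFun e a
      · rw [h2 A hA a b hab, h2 B hB a b hab]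
  exact h4.to_subtype

/-- **`PSp_2m(ℤ)` and its finite-index subgroups**, `m ≥ r + 1` -/
theorem multi_psp_finiteIndex (r m : ℕ) (hm : r + 1 ≤ m)
    (L : Subgroup (SpZ m ⧸ Subgroup.center (SpZ m))) [L.FiniteIndex] : Multi r L := by
  have := center_sp_finite m
  exact multi_of_finiteIndex_quotient _ (fun Λ₀ h => multi_sp_finiteIndex r m hm Λ₀) L

end Vale.Agent.P092.H200
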