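import Vale.Agent.P092.H820.Cpv
import Vale.Agent.P092.H175.TOneB

/-!
P092, TEAM C (helper200): the residue algebra in its trivialised form.

`Y` is a compact totally disconnected `Γ`-space with a continuous cocycle `c : Γ → Y → G₀`;
`E : Clopens Y → B(K)` is a `Γ`-covariant projection valued measure, `S` a self-adjoint set of
operators, `π : H₀ → U(K)`.  The elements of the residue algebra are functions `G₀ → B(K)`.
-/

set_option linter.all false

namespace Vale.Agent.P092.H200.Sheet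

open TopologicalSpace Filter Topology Vale.Agent.P092.H820

variable {Γ Y G₀ H₀ K : Type} [Group Γ] [TopologicalSpace Y] [MulAction Γ Y]
  [ContinuousConstSMul Γ Y] [Group G₀] [TopologicalSpace G₀] [Group H₀]
  [NormedAddCommGroup K] [InnerProductSpace ℂ K] [CompleteSpace K]

/-- the translate `γ • A` of a clopen set -/
def tr (γ : Γ) (A : Clopens Y) : Clopens Y :=
  ⟨(fun y => γ⁻¹ • y) ⁻¹' (A : Set Y), A.isClopen.preimage (continuous_const_smul γ⁻¹)⟩

theorem mem_tr {γ : Γ} {A : Clopens Y} {y : Y} : y ∈ tr γ A ↔ γ⁻¹ • y ∈ A := Iff.rfl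

theorem smul_mem_tr {γ : Γ} {A : Clopens Y} {y : Y} : γ • y ∈ tr γ A ↔ y ∈ A := by
  rw [mem_tr, inv_smul_smul]

theorem tr_one (A : Clopens Y) : tr (1 : Γ) A = A := by
  ext y
  change (1 : Γ)⁻¹ • y ∈ A ↔ _
  rw [inv_one, one_smul]
  rfl

theorem tr_mul (γ γ' : Γ) (A : Clopens Y) : tr (γ * γ') A = tr γ (tr γ' A) := by
  ext y
  change (γ * γ')⁻¹ • y ∈ A ↔ γ'⁻¹ • γ⁻¹ • y ∈ A
  rw [mul_inv_rev, mul_smul]

theorem tr_inf (γ : Γ) (A B : Clopens Y) : tr γ (A ⊓ B) = tr γ A ⊓ tr γ B := rfl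

theorem tr_sup (γ : Γ) (A B : Clopens Y) : tr γ (A ⊔ B) = tr γ A ⊔ tr γ B := rfl

theorem tr_top (γ : Γ) : tr γ (⊤ : Clopens Y) = ⊤ := rfl

theorem tr_bot (γ : Γ) : tr γ (⊥ : Clopens Y) = ⊥ := rfl

theorem tr_mono {γ : Γ} {A B : Clopens Y} (h : A ≤ B) : tr γ A ≤ tr γ B := fun _ hy => h hy

/-- The data: `lam` (target group `Γ`), `E` (position on `Y`), `S` (the other operators with which
everything commutes), `π` (source group), the cocycle `c`, ergodicity. -/
structure Dat (lam : Γ →* (K →L[ℂ] K)) (E : Clopens Y → (K →L[ℂ] K)) (S : Set (K →L[ℂ] K))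
    (π : H₀ →* (K →L[ℂ] K)) (c : Γ → Y → G₀) : Prop where
  lam_star : ∀ γ, star (lam γ) = lam γ⁻¹
  pi_star : ∀ w, star (π w) = π w⁻¹
  cpv : Cpv E
  lam_E : ∀ γ A, lam γ * E A * lam γ⁻¹ = E (tr γ A)
  pi_lam : ∀ w γ, π w * lam γ = lam γ * π w
  pi_E : ∀ w A, π w * E A = E A * π w
  S_star : ∀ s ∈ S, star s ∈ S
  S_lam : ∀ s ∈ S, ∀ γ, s * lam γ = lam γ * s
  S_E : ∀ s ∈ S, ∀ A, s * E A = E A * s
  pi_S : ∀ w, ∀ s ∈ S, π w * s * π w⁻¹ ∈ S
  c_mul : ∀ γ γ' y, c (γ * γ') y = c γ (γ' • y) * c γ' y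
  c_cont : ∀ γ, Continuous (c γ)
  erg : ∀ t : K →L[ℂ] K, (∀ s ∈ S, s * t = t * s) → (∀ γ, lam γ * t = t * lam γ) →
    ∃ z : ℂ, t = z • (1 : K →L[ℂ] K)

/-- The elements of level `U`: right `U`-invariant functions `a : G₀ → B(K)` with values in the
commutant of `S` and `E`, equivariant under `Γ`. -/
structure Sh (lam : Γ →* (K →L[ℂ] K)) (E : Clopens Y → (K →L[ℂ] K)) (S : Set (K →L[ℂ] K))
    (c : Γ → Y → G₀) (U : Subgroup G₀) (a : G₀ → (K →L[ℂ] K)) : Prop where
  inv : ∀ g, ∀ u ∈ U, a (g * u) = a g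
  comm : ∀ g, ∀ s ∈ S, s * a g = a g * s
  commE : ∀ g A, E A * a g = a g * E A
  eqv : ∀ γ g g' (A : Clopens Y), (∀ y ∈ A, g'⁻¹ * (c γ y * g) ∈ U) →
    lam γ * (a g * E A) * lam γ⁻¹ = a g' * E (tr γ A)

/-- A basis of open subgroups. -/
structure Lev (Un : ℕ → Subgroup G₀) : Prop where
  anti : Antitone Un
  opn : ∀ n, IsOpen (Un n : Set G₀)
  bas : ∀ V ∈ 𝓝 (1 : G₀), ∃ n, (Un n : Set G₀) ⊆ V

/-! ### the two actions -/

/-- right translation of functions -/
noncomputable def al : G₀ →* ((G₀ → (K →L[ℂ] K)) →⋆ₐ[ℂ] (G₀ → (K →L[ℂ] K))) where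
  toFun g :=
    { toFun := fun a x => a (x * g)
      map_one' := rfl
      map_mul' := fun a b => rfl
      map_zero' := rfl
      map_add' := fun a b => rfl
      commutes' := fun r => rfl
      map_star' := fun a => rfl }
  map_one' := by
    ext a x : 2
    change a (x * 1) = a x
    rw [mul_one]
  map_mul' g g' := by
    ext a x : 2
    change a (x * (g * g')) = a (x * g * g')
    rw [mul_assoc]

theorem al_apply (g : G₀) (a : G₀ → (K →L[ℂ] K)) (x : G₀) : al g a x = a (x * g) := rfl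

theorem pi_inv_mul (π : H₀ →* (K →L[ℂ] K)) (w : H₀) : π w⁻¹ * π w = 1 := by
  rw [← map_mul, inv_mul_cancel, map_one]

theorem pi_mul_inv (π : H₀ →* (K →L[ℂ] K)) (w : H₀) : π w * π w⁻¹ = 1 := by
  rw [← map_mul, mul_inv_cancel, map_one]

/-- conjugation by `π` -/
noncomputable def be (π : H₀ →* (K →L[ℂ] K)) (hπ : ∀ w, star (π w) = π w⁻¹) :
    H₀ →* ((G₀ → (K →L[ℂ] K)) →⋆ₐ[ℂ] (G₀ → (K →L[ℂ] K))) where
  toFun w :=
    { toFun := fun a x => π w * a x * π w⁻¹
      map_one' := by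
        funext x
        change π w * 1 * π w⁻¹ = 1
        rw [mul_one, pi_mul_inv]
      map_mul' := fun a b => by
        funext x
        change π w * (a x * b x) * π w⁻¹ = π w * a x * π w⁻¹ * (π w * b x * π w⁻¹)
        calc π w * (a x * b x) * π w⁻¹ = π w * a x * 1 * b x * π w⁻¹ := by
              simp only [mul_assoc, one_mul]
          _ = π w * a x * (π w⁻¹ * π w) * b x * π w⁻¹ := by rw [pi_inv_mul]
          _ = _ := by simp only [mul_assoc]
      map_zero' := by
        funext x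
        change π w * 0 * π w⁻¹ = 0
        rw [mul_zero, zero_mul]
      map_add' := fun a b => by
        funext x
        change π w * (a x + b x) * π w⁻¹ = π w * a x * π w⁻¹ + π w * b x * π w⁻¹
        rw [mul_add, add_mul]
      commutes' := fun r => by
        funext x
        change π w * (algebraMap ℂ (K →L[ℂ] K) r) * π w⁻¹ = algebraMap ℂ (K →L[ℂ] K) r
        rw [← Algebra.commutes, mul_assoc, pi_mul_inv, mul_one]
      map_star' := fun a => by
        funext x
        change π w * star (a x) * π w⁻¹ = star (π w * a x * π w⁻¹)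
        rw [star_mul, star_mul, hπ, hπ, inv_inv, mul_assoc] }
  map_one' := by
    ext a x : 2
    change π 1 * a x * π 1⁻¹ = a x
    rw [inv_one, map_one, one_mul, mul_one]
  map_mul' w w' := by
    ext a x : 2
    change π (w * w') * a x * π (w * w')⁻¹ = π w * (π w' * a x * π w'⁻¹) * π w⁻¹
    rw [mul_inv_rev, map_mul, map_mul]
    simp only [mul_assoc]

theorem be_apply (π : H₀ →* (K →L[ℂ] K)) (hπ : ∀ w, star (π w) = π w⁻¹) (w : H₀)
    (a : G₀ → (K →L[ℂ] K)) (x : G₀) : be π hπ w a x = π w * a x * π w⁻¹ := rfl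

theorem al_be (π : H₀ →* (K →L[ℂ] K)) (hπ : ∀ w, star (π w) = π w⁻¹) (g : G₀) (w : H₀)
    (a : G₀ → (K →L[ℂ] K)) : al g (be π hπ w a) = be π hπ w (al g a) := rfl

/-! ### closure properties of the level sets -/

section Clos

variable {lam : Γ →* (K →L[ℂ] K)} {E : Clopens Y → (K →L[ℂ] K)} {S : Set (K →L[ℂ] K)}
  {π : H₀ →* (K →L[ℂ] K)} {c : Γ → Y → G₀} {U V : Subgroup G₀} {a b : G₀ → (K →L[ℂ] K)}

omit [TopologicalSpace G₀] in
theorem Sh.mono (ha : Sh lam E S c U a) (hVU : V ≤ U) : Sh lam E S c V a where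
  inv g u hu := ha.inv g u (hVU hu)
  comm := ha.comm
  commE := ha.commE
  eqv γ g g' A hA := ha.eqv γ g g' A fun y hy => hVU (hA y hy)

omit [TopologicalSpace G₀] in
theorem Sh.add (ha : Sh lam E S c U a) (hb : Sh lam E S c U b) : Sh lam E S c U (a + b) where
  inv g u hu := by rw [Pi.add_apply, Pi.add_apply, ha.inv g u hu, hb.inv g u hu]
  comm g s hs := by rw [Pi.add_apply, mul_add, add_mul, ha.comm g s hs, hb.comm g s hs]
  commE g A := by rw [Pi.add_apply, mul_add, add_mul, ha.commE, hb.commE]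
  eqv γ g g' A hA := by
    rw [Pi.add_apply, Pi.add_apply, add_mul, mul_add, add_mul, ha.eqv γ g g' A hA,
      hb.eqv γ g g' A hA, add_mul]

omit [TopologicalSpace G₀] in
theorem Sh.smul (z : ℂ) (ha : Sh lam E S c U a) : Sh lam E S c U (z • a) where
  inv g u hu := by rw [Pi.smul_apply, Pi.smul_apply, ha.inv g u hu]
  comm g s hs := by rw [Pi.smul_apply, mul_smul_comm, smul_mul_assoc, ha.comm g s hs]
  commE g A := by rw [Pi.smul_apply, mul_smul_comm, smul_mul_assoc, ha.commE]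
  eqv γ g g' A hA := by
    rw [Pi.smul_apply, Pi.smul_apply, smul_mul_assoc, mul_smul_comm, smul_mul_assoc,
      ha.eqv γ g g' A hA, smul_mul_assoc]

omit [TopologicalSpace G₀] in
theorem Sh.zero : Sh lam E S c U (0 : G₀ → (K →L[ℂ] K)) where
  inv g u hu := rfl
  comm g s hs := by rw [Pi.zero_apply, mul_zero, zero_mul]
  commE g A := by rw [Pi.zero_apply, mul_zero, zero_mul]
  eqv γ g g' A hA := by
    rw [Pi.zero_apply, Pi.zero_apply, zero_mul, mul_zero, zero_mul, zero_mul]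

theorem Sh.one (h : Dat lam E S π c) : Sh lam E S c U (1 : G₀ → (K →L[ℂ] K)) where
  inv g u hu := rfl
  comm g s hs := by rw [Pi.one_apply, mul_one, one_mul]
  commE g A := by rw [Pi.one_apply, mul_one, one_mul]
  eqv γ g g' A hA := by
    rw [Pi.one_apply, Pi.one_apply, one_mul, one_mul, h.lam_E]

theorem Sh.mul (h : Dat lam E S π c) (ha : Sh lam E S c U a) (hb : Sh lam E S c U b) :
    Sh lam E S c U (a * b) where
  inv g u hu := by rw [Pi.mul_apply, Pi.mul_apply, ha.inv g u hu, hb.inv g u hu]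
  comm g s hs := by
    rw [Pi.mul_apply, ← mul_assoc, ha.comm g s hs, mul_assoc, hb.comm g s hs, mul_assoc]
  commE g A := by
    rw [Pi.mul_apply, ← mul_assoc, ha.commE, mul_assoc, hb.commE, mul_assoc]
  eqv γ g g' A hA := by
    rw [Pi.mul_apply, Pi.mul_apply]
    have h1 := ha.eqv γ g g' A hA
    have h2 := hb.eqv γ g g' A hA
    have h3 : a g * b g * E A = (a g * E A) * (b g * E A) := by
      calc a g * b g * E A = a g * b g * (E A * E A) := by rw [h.cpv.idem]
        _ = a g * (b g * E A) * E A := by simp only [mul_assoc]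
        _ = a g * (E A * b g) * E A := by rw [hb.commE]
        _ = _ := by simp only [mul_assoc]
    have h4 : a g' * b g' * E (tr γ A) = (a g' * E (tr γ A)) * (b g' * E (tr γ A)) := by
      calc a g' * b g' * E (tr γ A) = a g' * b g' * (E (tr γ A) * E (tr γ A)) := by
            rw [h.cpv.idem]
        _ = a g' * (b g' * E (tr γ A)) * E (tr γ A) := by simp only [mul_assoc]
        _ = a g' * (E (tr γ A) * b g') * E (tr γ A) := by rw [hb.commE]
        _ = _ := by simp only [mul_assoc]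
    rw [h3, h4, ← h1, ← h2]
    calc lam γ * (a g * E A * (b g * E A)) * lam γ⁻¹
        = lam γ * (a g * E A) * 1 * (b g * E A) * lam γ⁻¹ := by simp only [mul_assoc, one_mul]
      _ = lam γ * (a g * E A) * (lam γ⁻¹ * lam γ) * (b g * E A) * lam γ⁻¹ := by
          rw [pi_inv_mul]
      _ = _ := by simp only [mul_assoc]

theorem Sh.star (h : Dat lam E S π c) (ha : Sh lam E S c U a) : Sh lam E S c U (star a) where
  inv g u hu := by rw [Pi.star_apply, Pi.star_apply, ha.inv g u hu]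
  comm g s hs := by
    have h1 := congrArg Star.star (ha.comm g _ (h.S_star s hs))
    rw [star_mul, star_mul, star_star] at h1
    rw [Pi.star_apply]
    exact h1.symm
  commE g A := by
    have h1 := congrArg Star.star (ha.commE g A)
    rw [star_mul, star_mul, h.cpv.sa] at h1
    rw [Pi.star_apply]
    exact h1.symm
  eqv γ g g' A hA := by
    have h1 := congrArg Star.star (ha.eqv γ g g' A hA)
    have h2 : Star.star (a g * E A) = Star.star (a g) * E A := by
      rw [← ha.commE, star_mul, h.cpv.sa]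
    have h3 : Star.star (a g' * E (tr γ A)) = Star.star (a g') * E (tr γ A) := by
      rw [← ha.commE, star_mul, h.cpv.sa]
    rw [star_mul, star_mul, h.lam_star, h.lam_star, inv_inv, h2, h3, ← mul_assoc] at h1
    exact h1

end Clos

/-! ### the algebra -/

variable {lam : Γ →* (K →L[ℂ] K)} {E : Clopens Y → (K →L[ℂ] K)} {S : Set (K →L[ℂ] K)}
  {π : H₀ →* (K →L[ℂ] K)} {c : Γ → Y → G₀}

/-- The bounded functions which are smooth on both sides (of level `Un n` for large `n`, fixed by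
`Wn m` for large `m`). -/
def Dat.P (h : Dat lam E S π c) (Un : ℕ → Subgroup G₀) (Wn : ℕ → Subgroup H₀) :
    NonUnitalStarSubalgebra ℂ (G₀ → (K →L[ℂ] K)) where
  carrier := {a | (∀ᶠ n in atTop, Sh lam E S c (Un n) a) ∧
    (∀ᶠ m in atTop, ∀ w ∈ Wn m, ∀ g, π w * a g * π w⁻¹ = a g) ∧ ∃ C : ℝ, ∀ g, ‖a g‖ ≤ C}
  add_mem' := by
    rintro a b ⟨h1, h2, C, hC⟩ ⟨h1', h2', C', hC'⟩
    refine ⟨?_, ?_, C + C', fun g => (norm_add_le _ _).trans (add_le_add (hC g) (hC' g))⟩
    · filter_upwards [h1, h1'] with n hn hn' using hn.add hn'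
    · filter_upwards [h2, h2'] with m hm hm' w hw g
      rw [Pi.add_apply, mul_add, add_mul, hm w hw, hm' w hw]
  zero_mem' := by
    refine ⟨Eventually.of_forall fun n => Sh.zero, Eventually.of_forall fun m w _ g => ?_, 0,
      fun g => ?_⟩
    · rw [Pi.zero_apply, mul_zero, zero_mul]
    · rw [Pi.zero_apply, norm_zero]
  mul_mem' := by
    rintro a b ⟨h1, h2, C, hC⟩ ⟨h1', h2', C', hC'⟩
    refine ⟨?_, ?_, C * C', fun g => (norm_mul_le _ _).trans
      (mul_le_mul (hC g) (hC' g) (norm_nonneg _) ((norm_nonneg _).trans (hC g)))⟩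
    · filter_upwards [h1, h1'] with n hn hn' using hn.mul h hn'
    · filter_upwards [h2, h2'] with m hm hm' w hw g
      calc π w * (a g * b g) * π w⁻¹ = (π w * a g) * 1 * (b g * π w⁻¹) := by
            simp only [mul_assoc, one_mul]
        _ = (π w * a g) * (π w⁻¹ * π w) * (b g * π w⁻¹) := by rw [pi_inv_mul]
        _ = (π w * a g * π w⁻¹) * (π w * b g * π w⁻¹) := by simp only [mul_assoc]
        _ = _ := by rw [hm w hw, hm' w hw]; rfl
  smul_mem' := by
    rintro z a ⟨h1, h2, C, hC⟩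
    refine ⟨?_, ?_, ‖z‖ * C, fun g => ?_⟩
    · filter_upwards [h1] with n hn using hn.smul z
    · filter_upwards [h2] with m hm w hw g
      rw [Pi.smul_apply, mul_smul_comm, smul_mul_assoc, hm w hw]
    · rw [Pi.smul_apply, norm_smul]
      gcongr
      exact hC g
  star_mem' := by
    rintro a ⟨h1, h2, C, hC⟩
    refine ⟨?_, ?_, C, fun g => ?_⟩
    · filter_upwards [h1] with n hn using hn.star h
    · filter_upwards [h2] with m hm w hw g
      have h3 := congrArg Star.star (hm w hw g)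
      rw [star_mul, star_mul, h.pi_star, h.pi_star, inv_inv, ← mul_assoc] at h3
      exact h3
    · rw [Pi.star_apply, norm_star]
      exact hC g

theorem mem_P (h : Dat lam E S π c) {Un : ℕ → Subgroup G₀} {Wn : ℕ → Subgroup H₀}
    {a : G₀ → (K →L[ℂ] K)} : a ∈ h.P Un Wn ↔ (∀ᶠ n in atTop, Sh lam E S c (Un n) a) ∧
      (∀ᶠ m in atTop, ∀ w ∈ Wn m, ∀ g, π w * a g * π w⁻¹ = a g) ∧ ∃ C : ℝ, ∀ g, ‖a g‖ ≤ C :=
  Iff.rfl

theorem one_mem_P (h : Dat lam E S π c) {Un : ℕ → Subgroup G₀} {Wn : ℕ → Subgroup H₀} :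
    (1 : G₀ → (K →L[ℂ] K)) ∈ h.P Un Wn := by
  refine ⟨Eventually.of_forall fun n => Sh.one h, Eventually.of_forall fun m w _ g => ?_,
    ‖(1 : K →L[ℂ] K)‖, fun g => le_rfl⟩
  rw [Pi.one_apply, mul_one, pi_mul_inv]

end Vale.Agent.P092.H200.Sheet
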