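import Vale.Agent.P092.H200.Sheet

/-!
P092, TEAM C (helper200): the residue algebra, level sets, actions, and the system of `H175.T1`.
-/

set_option linter.all false

namespace Vale.Agent.P092.H200.Sheet

open TopologicalSpace Filter Topology Vale.Agent.P092.H820

variable {Γ Y G₀ H₀ K : Type} [Group Γ] [TopologicalSpace Y] [MulAction Γ Y]
  [ContinuousConstSMul Γ Y] [Group G₀] [TopologicalSpace G₀] [Group H₀]
  [NormedAddCommGroup K] [InnerProductSpace ℂ K] [CompleteSpace K]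

/-! ### induction over clopen sets -/

/-- A property of clopen subsets of a compact space which is local and additive holds for all. -/
theorem clopen_ind {Y : Type*} [TopologicalSpace Y] [CompactSpace Y] {Pr : Clopens Y → Prop}
    (h0 : Pr ⊥) (hadd : ∀ A B, Disjoint A B → Pr A → Pr B → Pr (A ⊔ B))
    (hloc : ∀ y, ∃ V : Clopens Y, y ∈ V ∧ ∀ A ≤ V, Pr A) : ∀ A, Pr A := by
  have key : ∃ V : Clopens Y, (Set.univ : Set Y) ⊆ V ∧ ∀ A ≤ V, Pr A := by
    refine isCompact_univ.induction_on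
      (p := fun T : Set Y => ∃ V : Clopens Y, T ⊆ (V : Set Y) ∧ ∀ A ≤ V, Pr A) ?_ ?_ ?_ ?_
    · exact ⟨⊥, Set.empty_subset _, fun A hA => by rw [le_bot_iff.1 hA]; exact h0⟩
    · rintro T T' hT ⟨V, h1, h2⟩
      exact ⟨V, hT.trans h1, h2⟩
    · rintro T T' ⟨V, h1, h2⟩ ⟨W, h3, h4⟩
      refine ⟨V ⊔ W, Set.union_subset_union h1 h3, fun A hA => ?_⟩
      have e1 : A = (A ⊓ V) ⊔ (A ⊓ Vᶜ) := by rw [← inf_sup_left, sup_compl_eq_top, inf_top_eq]
      have hd : Disjoint (A ⊓ V) (A ⊓ Vᶜ) :=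
        (disjoint_compl_right (a := V)).mono inf_le_right inf_le_right
      have h5 : A ⊓ Vᶜ ≤ W := by
        intro x hx
        rcases hA hx.1 with h | h
        · exact absurd h hx.2
        · exact h
      rw [e1]
      exact hadd _ _ hd (h2 _ inf_le_right) (h4 _ h5)
    · intro y _
      obtain ⟨V, hV, h⟩ := hloc y
      exact ⟨V, mem_nhdsWithin_of_mem_nhds (V.isClopen.isOpen.mem_nhds hV), V, subset_rfl, h⟩
  obtain ⟨V, h1, h2⟩ := key
  exact fun A => h2 A fun y _ => h1 (Set.mem_univ y)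

variable {lam : Γ →* (K →L[ℂ] K)} {E : Clopens Y → (K →L[ℂ] K)} {S : Set (K →L[ℂ] K)}
  {π : H₀ →* (K →L[ℂ] K)} {c : Γ → Y → G₀} {U V : Subgroup G₀} {a b : G₀ → (K →L[ℂ] K)}

/-- The germ form of equivariance gives the form on clopen sets. -/
theorem Sh.of_germ [CompactSpace Y] (hE : Cpv E) (inv : ∀ g, ∀ u ∈ U, a (g * u) = a g)
    (comm : ∀ g, ∀ s ∈ S, s * a g = a g * s) (commE : ∀ g A, E A * a g = a g * E A)
    (germ : ∀ γ g y, ∃ W : Clopens Y, y ∈ W ∧
      ∀ A ≤ W, lam γ * (a g * E A) * lam γ⁻¹ = a (c γ y * g) * E (tr γ A)) :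
    Sh lam E S c U a := by
  refine ⟨inv, comm, commE, fun γ g g' A hA => ?_⟩
  have key : ∀ B : Clopens Y, B ≤ A → lam γ * (a g * E B) * lam γ⁻¹ = a g' * E (tr γ B) := by
    refine clopen_ind ?_ ?_ ?_
    · intro _
      rw [tr_bot, hE.bot, mul_zero, mul_zero, zero_mul, mul_zero]
    · intro B B' hd h1 h2 hBB
      have hd' : Disjoint (tr γ B) (tr γ B') := by
        rw [disjoint_iff, ← tr_inf, hd.eq_bot, tr_bot]
      rw [tr_sup, hE.add hd, hE.add hd', mul_add, mul_add, add_mul, mul_add,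
        h1 (le_sup_left.trans hBB), h2 (le_sup_right.trans hBB)]
    · intro y
      by_cases hy : y ∈ A
      · obtain ⟨W, hW, h⟩ := germ γ g y
        refine ⟨W, hW, fun B hB _ => ?_⟩
        rw [h B hB]
        congr 1
        have h1 : c γ y * g = g' * (g'⁻¹ * (c γ y * g)) := by group
        rw [h1, inv _ _ (hA y hy)]
      · refine ⟨Aᶜ, hy, fun B hB hBA => ?_⟩
        have h1 : B = ⊥ := by
          rw [← le_bot_iff, ← inf_compl_self A]
          exact le_inf hBA hB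
        rw [h1, tr_bot, hE.bot, mul_zero, mul_zero, zero_mul, mul_zero]
  exact key A le_rfl

/-- Equivariance on clopen sets gives the germ form. -/
theorem Sh.germ [IsTopologicalGroup G₀] (hc : ∀ γ, Continuous (c γ)) (hV : IsOpen (V : Set G₀))
    (ha : Sh lam E S c V a) (γ : Γ) (g : G₀) (y : Y) : ∃ W : Clopens Y, y ∈ W ∧
      ∀ A ≤ W, lam γ * (a g * E A) * lam γ⁻¹ = a (c γ y * g) * E (tr γ A) := by
  have h1 : Continuous fun y' => (c γ y * g)⁻¹ * (c γ y' * g) := by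
    have := hc γ
    fun_prop
  have hcl : IsClopen (V : Set G₀) := ⟨V.isClosed_of_isOpen hV, hV⟩
  refine ⟨⟨_, hcl.preimage h1⟩, ?_, fun A hA => ha.eqv γ g _ A fun y' hy' => hA hy'⟩
  change (c γ y * g)⁻¹ * (c γ y * g) ∈ V
  rw [inv_mul_cancel]
  exact V.one_mem

/-- A right `U`-invariant element of some deeper level is of level `U`. -/
theorem Sh.up [CompactSpace Y] [IsTopologicalGroup G₀] (h : Dat lam E S π c)
    (hV : IsOpen (V : Set G₀)) (ha : Sh lam E S c V a) (inv : ∀ g, ∀ u ∈ U, a (g * u) = a g) :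
    Sh lam E S c U a :=
  Sh.of_germ h.cpv inv ha.comm ha.commE fun γ g y => ha.germ h.c_cont hV γ g y

/-! ### levels -/

theorem Lev.ev [IsTopologicalGroup G₀] {Un : ℕ → Subgroup G₀} (hU : Lev Un) {W : Set G₀}
    (hW : W ∈ 𝓝 (1 : G₀)) : ∀ᶠ n in atTop, (Un n : Set G₀) ⊆ W := by
  obtain ⟨n, hn⟩ := hU.bas W hW
  filter_upwards [eventually_ge_atTop n] with m hm
  exact (fun x hx => hn (hU.anti hm hx))

theorem Lev.conj [IsTopologicalGroup G₀] {Un : ℕ → Subgroup G₀} (hU : Lev Un) (g : G₀) (n : ℕ) :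
    ∀ᶠ m in atTop, ∀ u ∈ Un m, g⁻¹ * u * g ∈ Un n := by
  have h1 : Continuous fun u : G₀ => g⁻¹ * u * g := by fun_prop
  have h2 : (fun u : G₀ => g⁻¹ * u * g) ⁻¹' (Un n : Set G₀) ∈ 𝓝 (1 : G₀) := by
    refine ((hU.opn n).preimage h1).mem_nhds ?_
    change g⁻¹ * 1 * g ∈ Un n
    rw [mul_one, inv_mul_cancel]
    exact (Un n).one_mem
  filter_upwards [hU.ev h2] with m hm u hu
  exact hm hu

theorem mem_P_iff [CompactSpace Y] [IsTopologicalGroup G₀] (h : Dat lam E S π c)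
    {Un : ℕ → Subgroup G₀} {Wn : ℕ → Subgroup H₀} (hU : Lev Un) (hW : Antitone Wn) :
    a ∈ h.P Un Wn ↔ (∃ n, Sh lam E S c (Un n) a) ∧
      (∃ m, ∀ w ∈ Wn m, ∀ g, π w * a g * π w⁻¹ = a g) ∧ ∃ C : ℝ, ∀ g, ‖a g‖ ≤ C := by
  rw [mem_P]
  constructor
  · rintro ⟨h1, h2, h3⟩
    exact ⟨h1.exists, h2.exists, h3⟩
  · rintro ⟨⟨n, h1⟩, ⟨m, h2⟩, h3⟩
    refine ⟨?_, ?_, h3⟩
    · filter_upwards [eventually_ge_atTop n] with k hk using h1.mono (hU.anti hk)
    · filter_upwards [eventually_ge_atTop m] with k hk w hw g using h2 w (hW hk hw) g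

/-- The fixed points of `Un n` in the residue algebra are the elements of level `Un n`. -/
theorem mem_Qn_iff [CompactSpace Y] [IsTopologicalGroup G₀] (h : Dat lam E S π c)
    {Un : ℕ → Subgroup G₀} {Wn : ℕ → Subgroup H₀} (hU : Lev Un) {n : ℕ} :
    a ∈ H175.T1.Qn al (h.P Un Wn) Un n ↔ a ∈ h.P Un Wn ∧ Sh lam E S c (Un n) a := by
  rw [H175.T1.mem_Qn]
  refine and_congr_right fun ha => ⟨fun h1 => ?_, fun h1 k hk => ?_⟩
  · obtain ⟨m, hm⟩ := ha.1.exists
    refine hm.up h (hU.opn m) fun g u hu => ?_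
    have := congrFun (h1 u hu) g
    rwa [al_apply] at this
  · funext x
    rw [al_apply, h1.inv x k hk]

/-! ### the actions on the algebra -/

theorem Sh.al (ha : Sh lam E S c U a) {g : G₀} (hc : ∀ v ∈ V, g⁻¹ * v * g ∈ U) :
    Sh lam E S c V (Sheet.al g a) where
  inv x v hv := by
    rw [al_apply, al_apply]
    have h1 : x * v * g = x * g * (g⁻¹ * v * g) := by group
    rw [h1, ha.inv _ _ (hc v hv)]
  comm x s hs := ha.comm _ s hs
  commE x A := ha.commE _ A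
  eqv γ x x' A hA := by
    refine ha.eqv γ (x * g) (x' * g) A fun y hy => ?_
    have h1 : (x' * g)⁻¹ * (c γ y * (x * g)) = g⁻¹ * (x'⁻¹ * (c γ y * x)) * g := by group
    rw [h1]
    exact hc _ (hA y hy)

theorem Sh.be (ha : Sh lam E S c U a) (h : Dat lam E S π c) (w : H₀) :
    Sh lam E S c U (Sheet.be π h.pi_star w a) where
  inv x u hu := by rw [be_apply, be_apply, ha.inv x u hu]
  comm x s hs := by
    rw [be_apply]
    have h1 := ha.comm x _ (h.pi_S w⁻¹ s hs)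
    rw [inv_inv] at h1
    calc s * (π w * a x * π w⁻¹) = 1 * s * π w * a x * π w⁻¹ := by
          simp only [mul_assoc, one_mul]
      _ = π w * (π w⁻¹ * s * π w * a x) * π w⁻¹ := by
          rw [← pi_mul_inv π w]; simp only [mul_assoc]
      _ = π w * (a x * (π w⁻¹ * s * π w)) * π w⁻¹ := by rw [h1]
      _ = π w * a x * π w⁻¹ * s * (π w * π w⁻¹) := by simp only [mul_assoc]
      _ = _ := by rw [pi_mul_inv, mul_one]
  commE x A := by
    rw [be_apply]
    calc E A * (π w * a x * π w⁻¹) = (E A * π w) * a x * π w⁻¹ := by simp only [mul_assoc]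
      _ = π w * (E A * a x) * π w⁻¹ := by rw [← h.pi_E]; simp only [mul_assoc]
      _ = π w * a x * (E A * π w⁻¹) := by rw [ha.commE]; simp only [mul_assoc]
      _ = _ := by rw [← h.pi_E]; simp only [mul_assoc]
  eqv γ x x' A hA := by
    rw [be_apply, be_apply]
    have h1 := ha.eqv γ x x' A hA
    have hl : ∀ w, lam γ * π w = π w * lam γ := fun w => (h.pi_lam w γ).symm
    have hl' : ∀ w, π w * lam γ⁻¹ = lam γ⁻¹ * π w := fun w => h.pi_lam w γ⁻¹
    calc lam γ * (π w * a x * π w⁻¹ * E A) * lam γ⁻¹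
        = (lam γ * π w) * a x * (π w⁻¹ * E A) * lam γ⁻¹ := by simp only [mul_assoc]
      _ = π w * (lam γ * (a x * E A)) * (π w⁻¹ * lam γ⁻¹) := by
          rw [hl, h.pi_E]; simp only [mul_assoc]
      _ = π w * (lam γ * (a x * E A) * lam γ⁻¹) * π w⁻¹ := by rw [hl']; simp only [mul_assoc]
      _ = π w * a x' * (E (tr γ A) * π w⁻¹) := by rw [h1]; simp only [mul_assoc]
      _ = _ := by rw [← h.pi_E]; simp only [mul_assoc]

theorem al_mem_P [IsTopologicalGroup G₀] (h : Dat lam E S π c)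
    {Un : ℕ → Subgroup G₀} {Wn : ℕ → Subgroup H₀} (hU : Lev Un) (g : G₀)
    (ha : a ∈ h.P Un Wn) : al g a ∈ h.P Un Wn := by
  obtain ⟨h1, h2, C, hC⟩ := ha
  obtain ⟨n, hn⟩ := h1.exists
  refine ⟨?_, ?_, C, fun x => hC _⟩
  · filter_upwards [hU.conj g n] with m hm using hn.al hm
  · filter_upwards [h2] with m hm w hw x using hm w hw _

theorem norm_conj_le (h : Dat lam E S π c) (w : H₀) (T : K →L[ℂ] K) :
    ‖π w * T * π w⁻¹‖ ≤ ‖T‖ := by
  have hn : ∀ v : H₀, ‖π v‖ ≤ 1 := by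
    intro v
    have h1 : ‖star (π v) * π v‖ = ‖π v‖ * ‖π v‖ := CStarRing.norm_star_mul_self
    rw [h.pi_star, pi_inv_mul] at h1
    have h2 : ‖(1 : K →L[ℂ] K)‖ ≤ 1 := ContinuousLinearMap.norm_id_le
    by_contra h3
    push Not at h3
    nlinarith [norm_nonneg (π v)]
  calc ‖π w * T * π w⁻¹‖ ≤ ‖π w * T‖ * ‖π w⁻¹‖ := norm_mul_le _ _
    _ ≤ ‖π w‖ * ‖T‖ * ‖π w⁻¹‖ := by gcongr; exact norm_mul_le _ _
    _ ≤ 1 * ‖T‖ * 1 := by gcongr <;> exact hn _
    _ = ‖T‖ := by ring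

theorem be_mem_P (h : Dat lam E S π c) {Un : ℕ → Subgroup G₀} {Wn : ℕ → Subgroup H₀} (w : H₀)
    (hW : ∀ n, ∀ᶠ m in atTop, ∀ v ∈ Wn m, w⁻¹ * v * w ∈ Wn n)
    (ha : a ∈ h.P Un Wn) : be π h.pi_star w a ∈ h.P Un Wn := by
  obtain ⟨h1, h2, C, hC⟩ := ha
  obtain ⟨n, hn⟩ := h2.exists
  refine ⟨?_, ?_, C, fun x => (norm_conj_le h w _).trans (hC x)⟩
  · filter_upwards [h1] with m hm using hm.be h w
  · filter_upwards [hW n] with m hm v hv x
    have h3 := hn _ (hm v hv) x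
    rw [be_apply]
    calc π v * (π w * a x * π w⁻¹) * π v⁻¹ = π (v * w) * a x * π (v * w)⁻¹ := by
          rw [mul_inv_rev, map_mul, map_mul]; simp only [mul_assoc]
      _ = π (w * (w⁻¹ * v * w)) * a x * π (w * (w⁻¹ * v * w))⁻¹ := by
          congr 2
          · group
          · group
      _ = π w * (π (w⁻¹ * v * w) * a x * π (w⁻¹ * v * w)⁻¹) * π w⁻¹ := by
          rw [mul_inv_rev w (w⁻¹ * v * w), map_mul π w (w⁻¹ * v * w),
            map_mul π (w⁻¹ * v * w)⁻¹ w⁻¹]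
          simp only [mul_assoc]
      _ = _ := by rw [h3]

/-! ### the system -/

theorem pos {ι : Type} (s : Finset ι) (a : ι → G₀ → (K →L[ℂ] K))
    (h : ∑ i ∈ s, star (a i) * a i = 0) : ∀ i ∈ s, a i = 0 := by
  intro i hi
  funext x
  have h1 : ∑ j ∈ s, star (a j x) * a j x = 0 := by
    have := congrFun h x
    rw [Finset.sum_apply] at this
    exact this
  have h2 : ∀ ξ : K, ∑ j ∈ s, ‖a j x ξ‖ ^ 2 = 0 := by
    intro ξ
    have h3 := congrArg (fun T : K →L[ℂ] K => inner ℂ ξ (T ξ)) h1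
    simp only [ContinuousLinearMap.sum_apply, inner_sum, ContinuousLinearMap.zero_apply,
      inner_zero_right] at h3
    have h4 : ∀ j ∈ s, inner ℂ ξ ((star (a j x) * a j x) ξ) = ((‖a j x ξ‖ ^ 2 : ℝ) : ℂ) := by
      intro j _
      have h5 : (star (a j x) * a j x) ξ = ContinuousLinearMap.adjoint (a j x) (a j x ξ) := rfl
      rw [h5, ContinuousLinearMap.adjoint_inner_right, inner_self_eq_norm_sq_to_K]
      push_cast
      rfl
    rw [Finset.sum_congr rfl h4, ← Complex.ofReal_sum] at h3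
    exact_mod_cast h3
  ext ξ
  have h3 := (Finset.sum_eq_zero_iff_of_nonneg fun j _ => sq_nonneg ‖a j x ξ‖).1 (h2 ξ) i hi
  have h4 : ‖a i x ξ‖ = 0 := by
    exact pow_eq_zero_iff two_ne_zero |>.1 h3
  rw [norm_eq_zero] at h4
  rw [h4]
  rfl

/-- The residue algebra is a system in the sense of `H175.T1`. -/
theorem sys [IsTopologicalGroup G₀] (h : Dat lam E S π c) {Un : ℕ → Subgroup G₀}
    {Wn : ℕ → Subgroup H₀} (hU : Lev Un) {p : ℕ} (hch : H175.T1.Chain p Un) :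
    H175.T1.Sys al (h.P Un Wn) Un p where
  chain := hch
  act k _ a ha := al_mem_P h hU k ha
  pos s a := pos s a

end Vale.Agent.P092.H200.Sheet
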