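import Vale.Agent.P092.H200.Split

/-!
P092 (helper200): `Sp_2n(ℤ)`, `n ≥ 2`, and its finite-index subgroups.
-/

namespace Vale.Agent.P092.H200

open Matrix

section

variable {m : Type} [Fintype m] [DecidableEq m]

/-- column `j` of the integral matrix `w`, as a real vector -/
def colI (w : Matrix m m ℤ) (j : m) : m → ℝ := fun i => ((w i j : ℤ) : ℝ)

theorem colI_mul (w : Matrix m m ℤ) (i j : m) (h : i ≠ j) (c : ℤ) :
    colI (w * transvection i j c) j = colI w j + (c : ℝ) • colI w i ∧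
      colI (w * transvection i j c) i = colI w i := by
  constructor
  · ext a
    simp [colI, transvection, mul_add, Matrix.mul_single_eq_updateCol_zero]
  · ext a
    simp [colI, transvection, mul_add, Matrix.mul_single_eq_updateCol_zero, h]

theorem colI_ne_zero (w w' : Matrix m m ℤ) (hw : w' * w = 1) (j : m) : colI w j ≠ 0 := by
  intro h
  have h2 := congrFun (congrFun hw j) j
  rw [Matrix.mul_apply] at h2
  have h3 : ∀ i, w i j = 0 := fun i => by
    have := congrFun h i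
    simpa [colI] using this
  simp [h3] at h2

/-- A subgroup whose image in `GL_m(ℤ)` contains all `1 + a c E_ij`, `1 + a c E_ji`, is not
amenable. -/
theorem noMean_transv {Λ : Type} [Group Λ] (ρ : Λ →* Matrix m m ℤ) (i j : m) (h : i ≠ j) (a : ℤ)
    (ha : a ≠ 0) (K : Subgroup Λ) (hx : ∀ c : ℤ, ∃ v ∈ K, ρ v = transvection i j (a * c))
    (hy : ∀ c : ℤ, ∃ v ∈ K, ρ v = transvection j i (a * c)) : NoMean K := by
  rintro ⟨μ, hm⟩
  choose x hxK hx using hx
  choose y hyK hy using hy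
  have hne : ∀ w : Λ, ∀ j, colI (ρ w) j ≠ 0 := fun w j =>
    colI_ne_zero (ρ w) (ρ w⁻¹) (by rw [← map_mul, inv_mul_cancel, map_one]) j
  refine hm.false_of_two {w | ‖colI (ρ w) j‖ ≤ ‖colI (ρ w) i‖}
    {w | ‖colI (ρ w) i‖ ≤ ‖colI (ρ w) j‖}
    (fun w => by simp only [Set.mem_ofPred_eq]; exact le_total _ _)
    (fun k => x (4 * k)) (fun k => y (4 * k))
    (fun k => hxK _) (fun k => hyK _) ?_ ?_
  · intro k l hkl w hk hl
    simp only [Set.mem_ofPred_eq, map_mul, hx] at hk hl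
    rw [(colI_mul _ i j h _).1, (colI_mul _ i j h _).2] at hk hl
    exact norm_aux (hne w i) (sep_aux a ha hkl) hk hl
  · intro k l hkl w hk hl
    simp only [Set.mem_ofPred_eq, map_mul, hy] at hk hl
    rw [(colI_mul _ j i h.symm _).1, (colI_mul _ j i h.symm _).2] at hk hl
    exact norm_aux (hne w j) (sep_aux a ha hkl) hk hl

end

/-- `Sp_2n(ℤ)` -/
abbrev SpZ (n : ℕ) : Type := symplecticGroup (Fin n) ℤ

variable {n : ℕ}

theorem lr_ne (i : Fin n) : (Sum.inl i : Fin n ⊕ Fin n) ≠ Sum.inr i := by simp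

theorem J_inl_inl (a b : Fin n) : J (Fin n) ℤ (Sum.inl a) (Sum.inl b) = 0 := rfl
theorem J_inr_inr (a b : Fin n) : J (Fin n) ℤ (Sum.inr a) (Sum.inr b) = 0 := rfl
theorem J_inl_inr (a b : Fin n) :
    J (Fin n) ℤ (Sum.inl a) (Sum.inr b) = -(1 : Matrix (Fin n) (Fin n) ℤ) a b := rfl
theorem J_inr_inl (a b : Fin n) :
    J (Fin n) ℤ (Sum.inr a) (Sum.inl b) = (1 : Matrix (Fin n) (Fin n) ℤ) a b := rfl

theorem mem_sp_inl (i : Fin n) (c : ℤ) :
    transvection (Sum.inl i) (Sum.inr i) c ∈ symplecticGroup (Fin n) ℤ := by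
  rw [SymplecticGroup.mem_iff]
  have e1 : (transvection (Sum.inl i : Fin n ⊕ Fin n) (Sum.inr i) c)ᵀ =
      transvection (Sum.inr i) (Sum.inl i) c := by
    simp [transvection, Matrix.transpose_add]
  rw [e1]
  simp only [transvection, add_mul, mul_add, one_mul, mul_one]
  ext a b
  have hbi : (i = b.elim id id) ↔ (b.elim id id = i) := eq_comm
  rcases a with a | a <;> rcases b with b | b <;> by_cases ha : a = i <;> by_cases hb : b = i <;>
  simp only [Sum.elim_inl, Sum.elim_inr, id] at hbi <;>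
  simp [Matrix.mul_single_eq_updateCol_zero, Matrix.single_mul_eq_updateRow_zero, J_inl_inl,
    J_inr_inr, J_inl_inr, J_inr_inl, Matrix.one_apply,
    Matrix.updateRow_apply, ha, hb, hbi]

theorem mem_sp_inr (i : Fin n) (c : ℤ) :
    transvection (Sum.inr i) (Sum.inl i) c ∈ symplecticGroup (Fin n) ℤ := by
  have e1 : (transvection (Sum.inl i : Fin n ⊕ Fin n) (Sum.inr i) c)ᵀ =
      transvection (Sum.inr i) (Sum.inl i) c := by
    simp [transvection, Matrix.transpose_add]
  rw [← e1, SymplecticGroup.transpose_mem_iff]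
  exact mem_sp_inl i c

/-- the root elements of the long roots `2e_i` -/
def lx (i : Fin n) (c : ℤ) : SpZ n := ⟨_, mem_sp_inl i c⟩
/-- the root elements of the long roots `-2e_i` -/
def ly (i : Fin n) (c : ℤ) : SpZ n := ⟨_, mem_sp_inr i c⟩

theorem lx_comm_lx (i j : Fin n) (h : i ≠ j) (c d : ℤ) : lx i c * lx j d = lx j d * lx i c := by
  apply Subtype.ext
  show transvection _ _ c * transvection _ _ d = transvection _ _ d * transvection _ _ c
  have e1 : (single (Sum.inl i) (Sum.inr i) c : Matrix (Fin n ⊕ Fin n) (Fin n ⊕ Fin n) ℤ) * single (Sum.inl j) (Sum.inr j) d =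
    (0 : Matrix (Fin n ⊕ Fin n) _ ℤ) := single_mul_single_of_ne _ _ _ _ (by simp) _
  have e2 : (single (Sum.inl j) (Sum.inr j) d : Matrix (Fin n ⊕ Fin n) (Fin n ⊕ Fin n) ℤ) * single (Sum.inl i) (Sum.inr i) c =
    (0 : Matrix (Fin n ⊕ Fin n) _ ℤ) := single_mul_single_of_ne _ _ _ _ (by simp) _
  simp only [transvection, add_mul, mul_add, one_mul, mul_one, e1, e2, add_zero]
  abel

theorem ly_comm_ly (i j : Fin n) (h : i ≠ j) (c d : ℤ) : ly i c * ly j d = ly j d * ly i c := by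
  apply Subtype.ext
  show transvection _ _ c * transvection _ _ d = transvection _ _ d * transvection _ _ c
  have e1 : (single (Sum.inr i) (Sum.inl i) c : Matrix (Fin n ⊕ Fin n) (Fin n ⊕ Fin n) ℤ) * single (Sum.inr j) (Sum.inl j) d =
    (0 : Matrix (Fin n ⊕ Fin n) _ ℤ) := single_mul_single_of_ne _ _ _ _ (by simp) _
  have e2 : (single (Sum.inr j) (Sum.inl j) d : Matrix (Fin n ⊕ Fin n) (Fin n ⊕ Fin n) ℤ) * single (Sum.inr i) (Sum.inl i) c =
    (0 : Matrix (Fin n ⊕ Fin n) _ ℤ) := single_mul_single_of_ne _ _ _ _ (by simp) _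
  simp only [transvection, add_mul, mul_add, one_mul, mul_one, e1, e2, add_zero]
  abel

theorem lx_comm_ly (i j : Fin n) (h : i ≠ j) (c d : ℤ) : lx i c * ly j d = ly j d * lx i c := by
  apply Subtype.ext
  show transvection _ _ c * transvection _ _ d = transvection _ _ d * transvection _ _ c
  have e1 : (single (Sum.inl i) (Sum.inr i) c : Matrix (Fin n ⊕ Fin n) (Fin n ⊕ Fin n) ℤ) * single (Sum.inr j) (Sum.inl j) d =
    (0 : Matrix (Fin n ⊕ Fin n) _ ℤ) := single_mul_single_of_ne _ _ _ _ (by simpa using h) _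
  have e2 : (single (Sum.inr j) (Sum.inl j) d : Matrix (Fin n ⊕ Fin n) (Fin n ⊕ Fin n) ℤ) * single (Sum.inl i) (Sum.inr i) c =
    (0 : Matrix (Fin n ⊕ Fin n) _ ℤ) := single_mul_single_of_ne _ _ _ _ (by simpa using h.symm) _
  simp only [transvection, add_mul, mul_add, one_mul, mul_one, e1, e2, add_zero]
  abel

theorem lx_mul (i : Fin n) (c d : ℤ) : lx i c * lx i d = lx i (c + d) := by
  apply Subtype.ext
  exact transvection_mul_transvection_same _ _ (lr_ne i) c d

theorem ly_mul (i : Fin n) (c d : ℤ) : ly i c * ly i d = ly i (c + d) := by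
  apply Subtype.ext
  exact transvection_mul_transvection_same _ _ (lr_ne i).symm c d

theorem lx_zero (i : Fin n) : lx i 0 = 1 := by
  apply Subtype.ext; show transvection _ _ _ = 1; simp

theorem ly_zero (i : Fin n) : ly i 0 = 1 := by
  apply Subtype.ext; show transvection _ _ _ = 1; simp

theorem lx_pow (i : Fin n) (c : ℤ) (k : ℕ) : lx i c ^ k = lx i (k * c) := by
  induction k with
  | zero => simp [lx_zero]
  | succ k ih => rw [pow_succ, ih, lx_mul]; congr 1; push_cast; ring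

theorem ly_pow (i : Fin n) (c : ℤ) (k : ℕ) : ly i c ^ k = ly i (k * c) := by
  induction k with
  | zero => simp [ly_zero]
  | succ k ih => rw [pow_succ, ih, ly_mul]; congr 1; push_cast; ring

theorem lx_ne_one (i : Fin n) {c : ℤ} (hc : c ≠ 0) : lx i c ≠ 1 := by
  intro e
  have e1 := congrArg (fun g : SpZ n => (g : Matrix (Fin n ⊕ Fin n) (Fin n ⊕ Fin n) ℤ)
    (Sum.inl i) (Sum.inr i)) e
  have e2 : (transvection (Sum.inl i) (Sum.inr i) c : Matrix (Fin n ⊕ Fin n) (Fin n ⊕ Fin n) ℤ)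
    (Sum.inl i) (Sum.inr i) = (1 : Matrix (Fin n ⊕ Fin n) (Fin n ⊕ Fin n) ℤ)
    (Sum.inl i) (Sum.inr i) := e1
  simp [transvection] at e2
  exact hc e2

/-- the inclusion in the matrices -/
def spMat (n : ℕ) : SpZ n →* Matrix (Fin n ⊕ Fin n) (Fin n ⊕ Fin n) ℤ :=
  (symplecticGroup (Fin n) ℤ).subtype

/-- **all finite-index subgroups of `Sp_2n(ℤ)`, `n ≥ 2`.** -/
theorem split_sp_finiteIndex (n : ℕ) (hn : 2 ≤ n) (Λ : Subgroup (SpZ n)) [hΛ : Λ.FiniteIndex] :
    Split Λ := by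
  obtain ⟨q, hq, hx, hy⟩ : ∃ q : ℤ, q ≠ 0 ∧ (∀ (i : Fin n) (c : ℤ), lx i (q * c) ∈ Λ) ∧
      ∀ (i : Fin n) (c : ℤ), ly i (q * c) ∈ Λ := by
    refine ⟨(Λ.normalCore.index : ℤ), ?_, ?_, ?_⟩
    · have : Λ.normalCore.FiniteIndex := inferInstance
      exact_mod_cast this.index_ne_zero
    · intro i c
      have h1 : lx i c ^ Λ.normalCore.index ∈ Λ.normalCore := Subgroup.pow_index_mem _ _
      rw [lx_pow] at h1
      exact Subgroup.normalCore_le _ h1
    · intro i c
      have h1 : ly i c ^ Λ.normalCore.index ∈ Λ.normalCore := Subgroup.pow_index_mem _ _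
      rw [ly_pow] at h1
      exact Subgroup.normalCore_le _ h1
  let i0 : Fin n := ⟨0, by omega⟩
  let i1 : Fin n := ⟨1, by omega⟩
  have h01 : i0 ≠ i1 := by simp [i0, i1]
  let x : Fin n → ℤ → Λ := fun i c => ⟨lx i (q * c), hx i c⟩
  let y : Fin n → ℤ → Λ := fun i c => ⟨ly i (q * c), hy i c⟩
  let B : Fin n → Subgroup Λ := fun i => Subgroup.closure ({g | ∃ c, g = x i c} ∪ {g | ∃ c, g = y i c})
  have hB : ∀ i, NoMean (B i) := by
    intro i
    refine noMean_transv ((spMat n).comp Λ.subtype) (Sum.inl i) (Sum.inr i) (lr_ne i) q hq _ ?_ ?_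
    · intro c
      exact ⟨x i c, Subgroup.subset_closure (Or.inl ⟨c, rfl⟩), rfl⟩
    · intro c
      exact ⟨y i c, Subgroup.subset_closure (Or.inr ⟨c, rfl⟩), rfl⟩
  refine ⟨B i0, B i1, x i1 1, hB _, hB _, ?_, Subgroup.subset_closure (Or.inl ⟨1, rfl⟩), ?_⟩
  · have hcl : B i0 ≤ Subgroup.centralizer (B i1 : Set Λ) := by
      refine (Subgroup.closure_le _).mpr ?_
      intro g hg
      rw [SetLike.mem_coe, Subgroup.mem_centralizer_iff]
      have hcl2 : B i1 ≤ Subgroup.centralizer {g} := by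
        refine (Subgroup.closure_le _).mpr ?_
        intro u hu
        rw [SetLike.mem_coe, Subgroup.mem_centralizer_iff]
        rintro _ rfl
        rcases hg with ⟨c, rfl⟩ | ⟨c, rfl⟩ <;> rcases hu with ⟨d, rfl⟩ | ⟨d, rfl⟩
        · exact Subtype.ext (lx_comm_lx i0 i1 h01 _ _)
        · exact Subtype.ext (lx_comm_ly i0 i1 h01 _ _)
        · exact Subtype.ext (lx_comm_ly i1 i0 h01.symm _ _).symm
        · exact Subtype.ext (ly_comm_ly i0 i1 h01 _ _)
      intro u hu
      exact (Subgroup.mem_centralizer_iff.mp (hcl2 hu) g rfl).symm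
    intro v hv w hw
    exact (Subgroup.mem_centralizer_iff.mp (hcl hv) w hw).symm
  · intro k hk e
    have e2 : lx i1 (q * 1) ^ k = 1 := congrArg Subtype.val e
    rw [lx_pow] at e2
    exact lx_ne_one i1 (by simp [hk, hq]) e2

/-- `Sp_2n(ℤ)`, `n ≥ 2` -/
theorem split_sp (n : ℕ) (hn : 2 ≤ n) : Split (SpZ n) :=
  Split.of_subgroup ⊤ (split_sp_finiteIndex n hn ⊤)

end Vale.Agent.P092.H200
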