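import Vale.Agent.P092.H200.Sp

/-!
P092 (helper200): `Sp_2n(ℤ)`, `n ≥ 2`, satisfies `Clustered`.
-/

namespace Vale.Agent.P092.H200

open Matrix

variable {n : ℕ}

theorem transvection_mulVec' {m : Type} [Fintype m] [DecidableEq m] (i j : m) (c : ℤ) (v : m → ℤ) :
    transvection i j c *ᵥ v = Function.update v i (v i + c * v j) := by
  ext a
  simp only [transvection, add_mulVec, one_mulVec, Matrix.single_mulVec, Pi.add_apply]
  by_cases h : a = i
  · subst h; simp
  · simp [h]

/-- the root elements of the short roots `e_i - e_j` -/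
def ls (i j : Fin n) (h : i ≠ j) (c : ℤ) : SpZ n :=
  ⟨fromBlocks (transvection i j c) 0 0 (transvection j i (-c)), by
    have e1 : (transvection j i (-c))ᵀ = transvection i j (-c) := by
      simp [transvection, Matrix.transpose_add]
    have e2 : (transvection i j c)ᵀ = transvection j i c := by
      simp [transvection, Matrix.transpose_add]
    have e3 : transvection i j c * transvection i j (-c) = 1 := by
      rw [transvection_mul_transvection_same i j h]; simp
    have e4 : transvection j i (-c) * transvection j i c = 1 := by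
      rw [transvection_mul_transvection_same j i h.symm]; simp
    rw [SymplecticGroup.mem_iff, J, fromBlocks_transpose, fromBlocks_multiply, fromBlocks_multiply,
      e1, e2]
    simp [e3, e4]⟩

theorem ls_mulVec (i j : Fin n) (h : i ≠ j) (c : ℤ) (v : Fin n ⊕ Fin n → ℤ) :
    (ls i j h c : Matrix (Fin n ⊕ Fin n) (Fin n ⊕ Fin n) ℤ) *ᵥ v =
      Sum.elim (Function.update (v ∘ Sum.inl) i (v (Sum.inl i) + c * v (Sum.inl j)))
        (Function.update (v ∘ Sum.inr) j (v (Sum.inr j) + -c * v (Sum.inr i))) := by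
  show fromBlocks (transvection i j c) 0 0 (transvection j i (-c)) *ᵥ v = _
  rw [fromBlocks_mulVec, transvection_mulVec', transvection_mulVec']
  simp

theorem ls_mulVec' (i j : Fin n) (h : i ≠ j) (c : ℤ) (v : Fin n ⊕ Fin n → ℤ)
    (hb : ∀ k, v (Sum.inr k) = 0) :
    (ls i j h c : Matrix (Fin n ⊕ Fin n) (Fin n ⊕ Fin n) ℤ) *ᵥ v =
      Function.update v (Sum.inl i) (v (Sum.inl i) + c * v (Sum.inl j)) := by
  rw [ls_mulVec]
  ext a
  rcases a with a | a
  · by_cases h : a = i
    · subst h; simp
    · simp [h]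
  · by_cases h : a = j
    · subst h; simp [hb]
    · simp [h]

/-- the `height` of a vector -/
def ht (w : Fin n ⊕ Fin n → ℤ) : ℕ :=
  ∑ i, (2 * (w (Sum.inl i)).natAbs + 3 * (w (Sum.inr i)).natAbs)

theorem ht_lt {w w' : Fin n ⊕ Fin n → ℤ} (i : Fin n)
    (h1 : ∀ k, k ≠ i → w' (Sum.inl k) = w (Sum.inl k))
    (h2 : ∀ k, k ≠ i → w' (Sum.inr k) = w (Sum.inr k))
    (h : 2 * (w' (Sum.inl i)).natAbs + 3 * (w' (Sum.inr i)).natAbs <
      2 * (w (Sum.inl i)).natAbs + 3 * (w (Sum.inr i)).natAbs) : ht w' < ht w := by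
  refine Finset.sum_lt_sum ?_ ⟨i, Finset.mem_univ _, h⟩
  intro k _
  by_cases hk : k = i
  · subst hk; exact h.le
  · rw [h1 k hk, h2 k hk]

theorem abs_aux {a b : ℤ} (hb : b ≠ 0) (h : b.natAbs ≤ a.natAbs) :
    ∃ c : ℤ, (a + c * b).natAbs < a.natAbs := by
  rcases lt_trichotomy a 0 with ha | ha | ha <;> rcases lt_trichotomy b 0 with hb' | hb' | hb'
  · exact ⟨-1, by omega⟩
  · exact absurd hb' hb
  · exact ⟨1, by omega⟩
  · subst ha; simp at h; exact absurd h hb
  · exact absurd hb' hb
  · subst ha; simp at h; exact absurd h hb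
  · exact ⟨1, by omega⟩
  · exact absurd hb' hb
  · exact ⟨-1, by omega⟩

/-- the first basis vector -/
def e0 (i : Fin n) : Fin n ⊕ Fin n → ℤ := Pi.single (Sum.inl i) 1

/-- **Generation.** -/
theorem sp_generation (S : Subgroup (SpZ n)) (o p : Fin n) (hop : o ≠ p)
    (hx : ∀ i c, lx i c ∈ S) (hy : ∀ i c, ly i c ∈ S)
    (hs : ∀ i j (h : i ≠ j) c, ls i j h c ∈ S)
    (hfix : ∀ g : SpZ n, (g : Matrix (Fin n ⊕ Fin n) (Fin n ⊕ Fin n) ℤ) *ᵥ e0 o = e0 o → g ∈ S) :
    S = ⊤ := by
  classical
  rw [eq_top_iff]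
  rintro g₀ -
  -- minimal element
  let A : SpZ n → (Fin n ⊕ Fin n → ℤ) :=
    fun g => (g : Matrix (Fin n ⊕ Fin n) (Fin n ⊕ Fin n) ℤ) *ᵥ e0 o
  have hA : ∀ g h : SpZ n, A (g * h) = (g : Matrix (Fin n ⊕ Fin n) (Fin n ⊕ Fin n) ℤ) *ᵥ A h := by
    intro g h
    show ((g * h : SpZ n) : Matrix (Fin n ⊕ Fin n) (Fin n ⊕ Fin n) ℤ) *ᵥ _ = _
    rw [Submonoid.coe_mul, ← mulVec_mulVec]
  obtain ⟨g, hg, hmin⟩ : ∃ g : SpZ n, (∃ h ∈ S, g = h * g₀) ∧ ∀ h ∈ S, ht (A g) ≤ ht (A (h * g)) := by
    obtain ⟨h, hh, hmin⟩ := WellFounded.has_min (measure (fun h : S => ht (A (h * g₀)))).wf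
      Set.univ ⟨1, trivial⟩
    refine ⟨h * g₀, ⟨h, h.2, rfl⟩, ?_⟩
    intro k hk
    by_contra hlt
    push Not at hlt
    refine hmin (⟨k, hk⟩ * h) trivial ?_
    show ht (A (_ * g₀)) < ht (A (h * g₀))
    rw [← mul_assoc] at hlt
    exact hlt
  suffices hgS : g ∈ S by
    obtain ⟨h, hh, rfl⟩ := hg
    exact (Subgroup.mul_mem_cancel_left S hh).mp hgS
  clear hg g₀
  set v := A g with hv
  -- the action of the root elements on `v`
  have ax : ∀ i c, A (lx i c * g) = Function.update v (Sum.inl i) (v (Sum.inl i) + c * v (Sum.inr i)) := by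
    intro i c
    rw [hA]
    exact transvection_mulVec' _ _ _ _
  have ay : ∀ i c, A (ly i c * g) = Function.update v (Sum.inr i) (v (Sum.inr i) + c * v (Sum.inl i)) := by
    intro i c
    rw [hA]
    exact transvection_mulVec' _ _ _ _
  -- the lower half is zero
  have hb : ∀ i, v (Sum.inr i) = 0 := by
    intro i
    by_contra hb
    by_cases ha : v (Sum.inl i) = 0
    · -- Weyl element
      have h1 : A (lx i 1 * (ly i (-1) * (lx i 1 * g))) =
          Function.update (Function.update v (Sum.inl i) (v (Sum.inr i))) (Sum.inr i) 0 := by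
        rw [hA, hA, ax]
        rw [show ((ly i (-1) : SpZ n) : Matrix (Fin n ⊕ Fin n) (Fin n ⊕ Fin n) ℤ) =
          transvection (Sum.inr i) (Sum.inl i) (-1) from rfl,
          show ((lx i 1 : SpZ n) : Matrix (Fin n ⊕ Fin n) (Fin n ⊕ Fin n) ℤ) =
          transvection (Sum.inl i) (Sum.inr i) 1 from rfl, transvection_mulVec',
          transvection_mulVec', ha]
        ext a
        rcases a with a | a <;> by_cases h : a = i
        · subst h; simp
        · simp [h]
        · subst h; simp
        · simp [h]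
      have h2 := hmin (lx i 1 * (ly i (-1) * lx i 1)) (mul_mem (hx _ _) (mul_mem (hy _ _) (hx _ _)))
      have h3 : lx i 1 * (ly i (-1) * lx i 1) * g = lx i 1 * (ly i (-1) * (lx i 1 * g)) := by group
      rw [h3, h1] at h2
      refine absurd h2 (not_le.mpr ?_)
      apply ht_lt i
      · intro k hk; simp [hk]
      · intro k hk; simp [hk]
      · simp [ha]
        omega
    · rcases le_total (v (Sum.inr i)).natAbs (v (Sum.inl i)).natAbs with h | h
      · obtain ⟨c, hc⟩ := abs_aux hb h
        have h2 := hmin _ (hx i c)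
        rw [ax] at h2
        refine absurd h2 (not_le.mpr ?_)
        apply ht_lt i
        · intro k hk; simp [hk]
        · intro k hk; simp
        · simp
          omega
      · obtain ⟨c, hc⟩ := abs_aux ha h
        have h2 := hmin _ (hy i c)
        rw [ay] at h2
        refine absurd h2 (not_le.mpr ?_)
        apply ht_lt i
        · intro k hk; simp
        · intro k hk; simp [hk]
        · simp
          omega
  have as : ∀ i j (h : i ≠ j) c, A (ls i j h c * g) =
      Function.update v (Sum.inl i) (v (Sum.inl i) + c * v (Sum.inl j)) := by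
    intro i j h c
    rw [hA, ← hv]
    exact ls_mulVec' i j h c v hb
  -- at most one nonzero entry
  have hone : ∀ i j, i ≠ j → v (Sum.inl i) ≠ 0 → v (Sum.inl j) ≠ 0 → False := by
    intro i j hij hi hj
    wlog h : (v (Sum.inl j)).natAbs ≤ (v (Sum.inl i)).natAbs generalizing i j
    · exact this j i hij.symm hj hi (le_of_not_ge h)
    obtain ⟨c, hc⟩ := abs_aux hj h
    have h2 := hmin _ (hs i j hij c)
    rw [as] at h2
    refine absurd h2 (not_le.mpr ?_)
    apply ht_lt i
    · intro k hk; simp [hk]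
    · intro k hk; simp
    · simp
      omega
  -- there is a nonzero entry, equal to `± 1`
  have hinv : ((g⁻¹ : SpZ n) : Matrix (Fin n ⊕ Fin n) (Fin n ⊕ Fin n) ℤ) *ᵥ v = e0 o := by
    rw [hv, ← hA, inv_mul_cancel]
    show ((1 : SpZ n) : Matrix (Fin n ⊕ Fin n) (Fin n ⊕ Fin n) ℤ) *ᵥ _ = _
    rw [Submonoid.coe_one, one_mulVec]
  obtain ⟨i, hi⟩ : ∃ i, v (Sum.inl i) ≠ 0 := by
    by_contra hcon
    push Not at hcon
    have h0 : v = 0 := by
      ext a
      rcases a with a | a
      · exact hcon a
      · exact hb a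
    rw [h0, mulVec_zero] at hinv
    have := congrFun hinv (Sum.inl o)
    simp [e0] at this
  have hvi : v = Pi.single (Sum.inl i) (v (Sum.inl i)) := by
    ext a
    rcases a with a | a
    · by_cases h : a = i
      · subst h; simp
      · rw [Pi.single_eq_of_ne (by simpa using h)]
        by_contra h2
        exact hone a i h h2 hi
    · rw [Pi.single_eq_of_ne (by simp)]
      exact hb a
  set a := v (Sum.inl i) with ha
  have haa : a * a = 1 := by
    have h1 := congrFun hinv (Sum.inl o)
    rw [hvi, mulVec_single] at h1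
    simp [e0] at h1
    have h2 : IsUnit a := IsUnit.of_mul_eq_one _ (by rw [mul_comm]; exact h1)
    rcases Int.isUnit_iff.mp h2 with h | h <;> rw [h] <;> norm_num
  have hdone : ∀ h ∈ S, A (h * g) = e0 o → g ∈ S := by
    intro h hh e
    exact (Subgroup.mul_mem_cancel_left S hh).mp (hfix _ e)
  by_cases hio : i = o
  · subst hio
    refine hdone (ls p i hop.symm (-1) * (ls i p hop (1 - a) * ls p i hop.symm a))
      (mul_mem (hs _ _ _ _) (mul_mem (hs _ _ _ _) (hs _ _ _ _))) ?_
    rw [mul_assoc, mul_assoc, hA, hA, hA, ← hv]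
    have e1 : (ls p i hop.symm a : Matrix (Fin n ⊕ Fin n) (Fin n ⊕ Fin n) ℤ) *ᵥ v =
        Function.update v (Sum.inl p) 1 := by
      rw [ls_mulVec' _ _ _ _ _ hb, ← ha, haa]
      have : v (Sum.inl p) = 0 := by rw [hvi]; simp [hop.symm]
      rw [this]; simp
    rw [e1, ls_mulVec', ls_mulVec']
    · ext b
      rcases b with b | b
      · by_cases h1 : b = p
        · subst h1
          rw [hvi]
          simp [e0, hop, hop.symm]
        · by_cases h2 : b = i
          · subst h2
            rw [hvi]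
            simp [e0, hop]
          · rw [hvi]; simp [e0, h1, h2]
      · simp [e0, hb]
    · intro k; simp [hb]
    · intro k
      rw [ls_mulVec' _ _ _ _ _ (by intro k; simp [hb])]
      simp [hb]
  · have hoi : o ≠ i := fun e => hio e.symm
    refine hdone (ls i o hio (-a) * ls o i hoi a) (mul_mem (hs _ _ _ _) (hs _ _ _ _)) ?_
    rw [mul_assoc, hA, hA, ← hv]
    have e1 : (ls o i hoi a : Matrix (Fin n ⊕ Fin n) (Fin n ⊕ Fin n) ℤ) *ᵥ v =
        Function.update v (Sum.inl o) 1 := by
      rw [ls_mulVec' _ _ _ _ _ hb, ← ha, haa]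
      have : v (Sum.inl o) = 0 := by rw [hvi]; simp [hoi]
      rw [this]; simp
    rw [e1, ls_mulVec']
    · ext b
      rcases b with b | b
      · by_cases h1 : b = o
        · subst h1; simp [e0, hoi]
        · by_cases h2 : b = i
          · subst h2
            rw [hvi]
            simp [e0, hio]
          · rw [hvi]; simp [e0, h1, h2]
      · simp [e0, hb]
    · intro k; simp [hb]

/-- a symplectic matrix fixing `e_1` commutes with the transvections along `e_1` -/
theorem comm_of_fix (o : Fin n) (g : SpZ n)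
    (hg : (g : Matrix (Fin n ⊕ Fin n) (Fin n ⊕ Fin n) ℤ) *ᵥ e0 o = e0 o) (c : ℤ) :
    g * lx o c = lx o c * g := by
  have hcol : ∀ a, (g : Matrix (Fin n ⊕ Fin n) (Fin n ⊕ Fin n) ℤ) a (Sum.inl o) = e0 o a := by
    intro a
    rw [← congrFun hg a]
    simp [e0, mulVec_single]
  have hrow : ∀ b, (g : Matrix (Fin n ⊕ Fin n) (Fin n ⊕ Fin n) ℤ) (Sum.inr o) b =
      if b = Sum.inr o then 1 else 0 := by
    intro b
    have h1 := SymplecticGroup.mem_iff'.mp g.2
    have h2 := congrFun (congrFun h1 (Sum.inl o)) b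
    rw [mul_assoc, Matrix.mul_apply] at h2
    simp only [transpose_apply, hcol] at h2
    rw [Finset.sum_eq_single (Sum.inl o)] at h2
    · rw [Matrix.mul_apply] at h2
      simp only [e0, Pi.single_eq_same, one_mul, Fintype.sum_sum_type, J_inl_inl, zero_mul,
        Finset.sum_const_zero, zero_add, J_inl_inr, Matrix.one_apply] at h2
      simp only [neg_mul, ite_mul, one_mul, zero_mul, Finset.sum_neg_distrib,
        Finset.sum_ite_eq, Finset.mem_univ, if_true] at h2
      rcases b with b | b
      · rw [J_inl_inl] at h2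
        simp; omega
      · rw [J_inl_inr, Matrix.one_apply] at h2
        rw [neg_inj.mp h2]
        by_cases h : o = b
        · simp [h]
        · have h' : ¬ b = o := fun e => h e.symm
          simp [h, h']
    · intro a _ ha
      simp [e0, ha]
    · simp
  apply Subtype.ext
  show (g : Matrix (Fin n ⊕ Fin n) (Fin n ⊕ Fin n) ℤ) * transvection _ _ c =
    transvection _ _ c * (g : Matrix (Fin n ⊕ Fin n) (Fin n ⊕ Fin n) ℤ)
  simp only [transvection, mul_add, add_mul, mul_one, one_mul]
  congr 1
  ext a b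
  rw [Matrix.mul_apply, Matrix.mul_apply]
  rw [Finset.sum_eq_single (Sum.inl o), Finset.sum_eq_single (Sum.inr o)]
  · rw [hcol, hrow]
    have h1' : (Sum.inl o = a) ↔ (a = Sum.inl o) := eq_comm
    have h2' : (Sum.inr o = b) ↔ (b = Sum.inr o) := eq_comm
    by_cases h1 : a = Sum.inl o <;> by_cases h2 : b = Sum.inr o <;>
      simp [e0, h1, h2, h1', h2']
  · intro k _ hk
    simp [hk.symm]
  · simp
  · intro k _ hk
    simp [hk.symm]
  · simp

/-- elements mapping `e_o` to `e_o`, commuting root elements -/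
theorem ls_comm_lx (i j o : Fin n) (h : i ≠ j) (ho : j ≠ o) (c d : ℤ) :
    ls i j h c * lx o d = lx o d * ls i j h c := by
  apply comm_of_fix
  rw [ls_mulVec']
  · ext a
    simp [e0, ho]
  · intro k; simp [e0]

/-- a symplectic matrix fixing `f_1` commutes with the transvections along `f_1` -/
theorem ls_comm_ly (i j o : Fin n) (h : i ≠ j) (ho : i ≠ o) (c d : ℤ) :
    ls i j h c * ly o d = ly o d * ls i j h c := by
  apply Subtype.ext
  show fromBlocks (transvection i j c) 0 0 (transvection j i (-c)) *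
    transvection (Sum.inr o) (Sum.inl o) d = transvection (Sum.inr o) (Sum.inl o) d *
    fromBlocks (transvection i j c) 0 0 (transvection j i (-c))
  have e1 : (transvection (Sum.inr o) (Sum.inl o) d : Matrix (Fin n ⊕ Fin n) (Fin n ⊕ Fin n) ℤ) =
      fromBlocks 1 0 (single o o d) 1 := by
    ext a b
    rcases a with a | a <;> rcases b with b | b <;>
      simp [transvection, Matrix.one_apply, Matrix.single_apply]
  have e2 : single j i (-c) * single o o d = (0 : Matrix (Fin n) (Fin n) ℤ) :=
    single_mul_single_of_ne _ _ _ _ ho _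
  have e3 : single o o d * single i j c = (0 : Matrix (Fin n) (Fin n) ℤ) :=
    single_mul_single_of_ne _ _ _ _ ho.symm _
  rw [e1, fromBlocks_multiply, fromBlocks_multiply]
  simp [transvection, mul_add, add_mul, e2, e3]

theorem lx_pow_ne_one (i : Fin n) (k : ℕ) (hk : k ≠ 0) : lx i 1 ^ k ≠ 1 := by
  rw [lx_pow]
  exact lx_ne_one i (by simpa using hk)

theorem ly_pow_ne_one (i : Fin n) (k : ℕ) (hk : k ≠ 0) : ly i 1 ^ k ≠ 1 := by
  rw [ly_pow]
  intro e
  have e1 := congrArg (fun g : SpZ n => (g : Matrix (Fin n ⊕ Fin n) (Fin n ⊕ Fin n) ℤ)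
    (Sum.inr i) (Sum.inl i)) e
  have e2 : (transvection (Sum.inr i) (Sum.inl i) ((k : ℤ) * 1) :
    Matrix (Fin n ⊕ Fin n) (Fin n ⊕ Fin n) ℤ)
    (Sum.inr i) (Sum.inl i) = (1 : Matrix (Fin n ⊕ Fin n) (Fin n ⊕ Fin n) ℤ)
    (Sum.inr i) (Sum.inl i) := e1
  simp [transvection] at e2
  exact hk e2

/-- **`Sp_2n(ℤ)`, `n ≥ 2`, two transvections with common nonamenable centralizer, whose
centralizers generate the group** -/
theorem twoData_sp (n : ℕ) (hn : 2 ≤ n) : TwoData (SpZ n) := by
  let o : Fin n := ⟨0, by omega⟩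
  let p : Fin n := ⟨1, by omega⟩
  have hop : o ≠ p := by simp [o, p]
  refine ⟨lx o 1, ly o 1, Subgroup.centralizer {lx o 1, ly o 1}, lx_pow_ne_one o, ly_pow_ne_one o,
    ?_, ?_, ?_, ?_⟩
  · intro v hv
    rw [Subgroup.mem_centralizer_iff] at hv
    exact (hv _ (by simp)).symm
  · intro v hv
    rw [Subgroup.mem_centralizer_iff] at hv
    exact (hv _ (by simp)).symm
  · have htop : Subgroup.closure ({v | v * lx o 1 = lx o 1 * v} ∪
        {v : SpZ n | v * ly o 1 = ly o 1 * v}) = ⊤ := by
      apply sp_generation _ o p hop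
      · intro i c
        apply Subgroup.subset_closure
        left
        show lx i c * lx o 1 = lx o 1 * lx i c
        by_cases h : i = o
        · subst h; rw [lx_mul, lx_mul, add_comm]
        · exact lx_comm_lx i o h c 1
      · intro i c
        apply Subgroup.subset_closure
        right
        show ly i c * ly o 1 = ly o 1 * ly i c
        by_cases h : i = o
        · subst h; rw [ly_mul, ly_mul, add_comm]
        · exact ly_comm_ly i o h c 1
      · intro i j h c
        apply Subgroup.subset_closure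
        by_cases hj : j = o
        · right
          exact ls_comm_ly i j o h (fun e => h (e.trans hj.symm)) c 1
        · left
          exact ls_comm_lx i j o h hj c 1
      · intro g hg
        apply Subgroup.subset_closure
        left
        exact comm_of_fix o g hg 1
    rw [htop]
    infer_instance
  · refine noMean_transv (spMat n) (Sum.inl p) (Sum.inr p) (lr_ne p) 1 one_ne_zero _ ?_ ?_
    · intro c
      refine ⟨lx p c, ?_, by rw [one_mul]; rfl⟩
      rw [Subgroup.mem_centralizer_iff]
      rintro g (rfl | rfl)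
      · exact lx_comm_lx o p hop 1 c
      · exact (lx_comm_ly p o hop.symm c 1).symm
    · intro c
      refine ⟨ly p c, ?_, by rw [one_mul]; rfl⟩
      rw [Subgroup.mem_centralizer_iff]
      rintro g (rfl | rfl)
      · exact lx_comm_ly o p hop 1 c
      · exact ly_comm_ly o p hop 1 c

/-- `Sp_2n(ℤ)`, `n ≥ 2`. -/
theorem clustered_sp (n : ℕ) (hn : 2 ≤ n) : Clustered (SpZ n) := .of_two (twoData_sp n hn)

end Vale.Agent.P092.H200
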