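import Vale.Agent.P092.H200.ELring

/-!
P092 (helper200): groups containing two commuting nonamenable subgroups, one of which has an element
of infinite order (`Split`); examples.
-/

namespace Vale.Agent.P092.H200

open Matrix

/-- `Λ` contains two commuting nonamenable subgroups `K₀`, `K₁`, and `K₁` contains an element of
infinite order. -/
def Split (Λ : Type) [Group Λ] : Prop :=
  ∃ (K₀ K₁ : Subgroup Λ) (y : Λ), NoMean K₀ ∧ NoMean K₁ ∧ (∀ v ∈ K₀, ∀ w ∈ K₁, v * w = w * v) ∧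
    y ∈ K₁ ∧ ∀ k : ℕ, k ≠ 0 → y ^ k ≠ 1

/-- `Split` passes to all groups containing a `Split` group. -/
theorem Split.of_injective {Λ Λ' : Type} [Group Λ] [Group Λ'] (h : Split Λ) (φ : Λ →* Λ')
    (hφ : Function.Injective φ) : Split Λ' := by
  obtain ⟨K₀, K₁, y, h0, h1, hc, hy, hy'⟩ := h
  refine ⟨K₀.map φ, K₁.map φ, φ y, h0.map φ hφ, h1.map φ hφ, ?_, ⟨y, hy, rfl⟩, ?_⟩
  · rintro _ ⟨v, hv, rfl⟩ _ ⟨w, hw, rfl⟩
    rw [← map_mul, hc v hv w hw, map_mul]
  · intro k hk e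
    rw [← map_pow, ← map_one φ] at e
    exact hy' k hk (hφ e)

/-- overgroups -/
theorem Split.of_subgroup {Λ : Type} [Group Λ] (Λ₀ : Subgroup Λ) (h : Split Λ₀) : Split Λ :=
  h.of_injective Λ₀.subtype Λ₀.subtype_injective

/-- products of two nonamenable groups, one of which has an element of infinite order -/
theorem split_prod (L₁ L₂ : Type) [Group L₁] [Group L₂]
    (h1 : ¬ ∃ m, IsInvMean (⊤ : Subgroup L₁) m) (h2 : ¬ ∃ m, IsInvMean (⊤ : Subgroup L₂) m)
    (y : L₂) (hy : ∀ k : ℕ, k ≠ 0 → y ^ k ≠ 1) : Split (L₁ × L₂) := by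
  have hinj : Function.Injective (MonoidHom.inl L₁ L₂) := fun a b h => (Prod.mk.inj h).1
  have hinr : Function.Injective (MonoidHom.inr L₁ L₂) := fun a b h => (Prod.mk.inj h).2
  refine ⟨(⊤ : Subgroup L₁).map (MonoidHom.inl L₁ L₂), (⊤ : Subgroup L₂).map (MonoidHom.inr L₁ L₂),
    (1, y), NoMean.map _ hinj h1, NoMean.map _ hinr h2, ?_, ⟨y, trivial, rfl⟩, ?_⟩
  · rintro _ ⟨v, -, rfl⟩ _ ⟨w, -, rfl⟩
    ext <;> simp
  · intro k hk e
    exact hy k hk (Prod.mk.inj e).2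

/-- `SL_2(ℤ)` has no invariant mean, `NoMean` form. -/
theorem noMean_top_sl (n : ℕ) (hn : 2 ≤ n) :
    NoMean (⊤ : Subgroup (SpecialLinearGroup (Fin n) ℤ)) := no_mean_sl n hn

/-- **every finite-index subgroup of `SL_n(ℤ)`, `n ≥ 4`**, and every group containing one -/
theorem split_finiteIndex (n : ℕ) (hn : 4 ≤ n) (Λ : Subgroup (SpecialLinearGroup (Fin n) ℤ))
    [hΛ : Λ.FiniteIndex] : Split Λ := by
  obtain ⟨q, hq, hqΛ⟩ := exists_Elq_le Λ
  let i0 : Fin n := ⟨0, by omega⟩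
  let i1 : Fin n := ⟨1, by omega⟩
  let i2 : Fin n := ⟨2, by omega⟩
  let i3 : Fin n := ⟨3, by omega⟩
  have h03 : i0 ≠ i3 := by simp [i0, i3]
  have h12 : i1 ≠ i2 := by simp [i1, i2]
  have h01 : i0 ≠ i1 := by simp [i0, i1]
  have h02 : i0 ≠ i2 := by simp [i0, i2]
  have h13 : i1 ≠ i3 := by simp [i1, i3]
  have h23 : i2 ≠ i3 := by simp [i2, i3]
  have hm : ∀ i j (h : i ≠ j) (c : ℤ), q ∣ c → el i j h c ∈ Λ :=
    fun i j h c hc => hqΛ (el_mem_Elq' i j h hc)
  let e : ∀ i j (_ : i ≠ j) (c : ℤ), Λ :=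
    fun i j h c => ⟨el i j h (q * c), hm i j h _ (Dvd.intro _ rfl)⟩
  have ecomm : ∀ {i j i' j' : Fin n} (h : i ≠ j) (h' : i' ≠ j') (_ : j ≠ i') (_ : j' ≠ i)
      (c d : ℤ), e i j h c * e i' j' h' d = e i' j' h' d * e i j h c :=
    fun h h' h1 h2 c d => Subtype.ext (el_comm h h' h1 h2 _ _)
  have hinf : ∀ i j (h : i ≠ j) (k : ℕ), k ≠ 0 → e i j h 1 ^ k ≠ 1 := by
    intro i j h k hk e1
    have e2 : el i j h (q * 1) ^ k = 1 := congrArg Subtype.val e1
    rw [el_pow] at e2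
    exact el_ne_one i j h (by simp [hk, hq]) e2
  -- the subgroup generated by a block
  let B : ∀ i j (_ : i ≠ j), Subgroup Λ := fun i j h =>
    Subgroup.closure ({g | ∃ c, g = e i j h c} ∪ {g | ∃ c, g = e j i h.symm c})
  have hB : ∀ i j (h : i ≠ j), NoMean (B i j h) := by
    intro i j h
    have key : NoMean ((B i j h).map Λ.subtype) := by
      refine no_mean_block_mul i j h q hq _ ?_ ?_
      · intro c
        exact ⟨e i j h c, Subgroup.subset_closure (Or.inl ⟨c, rfl⟩), rfl⟩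
      · intro c
        exact ⟨e j i h.symm c, Subgroup.subset_closure (Or.inr ⟨c, rfl⟩), rfl⟩
    intro ⟨m, hm⟩
    exact key ⟨_, hm.image Λ.subtype⟩
  refine ⟨B i0 i1 h01, B i2 i3 h23, e i2 i3 h23 1, hB _ _ _, hB _ _ _, ?_,
    Subgroup.subset_closure (Or.inl ⟨1, rfl⟩), hinf _ _ _⟩
  -- they commute
  have hcl : B i0 i1 h01 ≤ Subgroup.centralizer (B i2 i3 h23 : Set Λ) := by
    refine (Subgroup.closure_le _).mpr ?_
    intro g hg
    rw [SetLike.mem_coe, Subgroup.mem_centralizer_iff]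
    have hcl2 : B i2 i3 h23 ≤ Subgroup.centralizer {g} := by
      refine (Subgroup.closure_le _).mpr ?_
      intro u hu
      rw [SetLike.mem_coe, Subgroup.mem_centralizer_iff]
      rintro _ rfl
      rcases hg with ⟨c, rfl⟩ | ⟨c, rfl⟩ <;> rcases hu with ⟨d, rfl⟩ | ⟨d, rfl⟩
      · exact ecomm h01 h23 h12 h03.symm _ _
      · exact ecomm h01 h23.symm h13 h02.symm _ _
      · exact ecomm h01.symm h23 h02 h13.symm _ _
      · exact ecomm h01.symm h23.symm h03 h12.symm _ _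
    intro u hu
    exact (Subgroup.mem_centralizer_iff.mp (hcl2 hu) g rfl).symm
  intro v hv w hw
  exact (Subgroup.mem_centralizer_iff.mp (hcl hv) w hw).symm

/-- `SL_n(ℤ)`, `n ≥ 4` -/
theorem split_sl (n : ℕ) (hn : 4 ≤ n) : Split (SpecialLinearGroup (Fin n) ℤ) :=
  Split.of_subgroup ⊤ (split_finiteIndex n hn ⊤)

/-- the free group of rank two has no invariant mean (it maps onto `SL_2(ℤ)`). -/
theorem noMean_free : NoMean (⊤ : Subgroup (FreeGroup (Fin 2))) := by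
  let φ : FreeGroup (Fin 2) →* SpecialLinearGroup (Fin 2) ℤ :=
    FreeGroup.lift ![ModularGroup.S, ModularGroup.T]
  have hφ : Function.Surjective φ := by
    rw [← MonoidHom.range_eq_top, FreeGroup.range_lift_eq_closure, eq_top_iff,
      ← SpecialLinearGroup.SL2Z_generators]
    refine Subgroup.closure_mono ?_
    rintro g (rfl | rfl)
    · exact ⟨0, rfl⟩
    · exact ⟨1, rfl⟩
  exact no_mean_of_surj φ hφ (no_mean_sl 2 le_rfl)

theorem free_pow_ne_one (i : Fin 2) (k : ℕ) (hk : k ≠ 0) :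
    (FreeGroup.of i : FreeGroup (Fin 2)) ^ k ≠ 1 := by
  intro e
  let φ : FreeGroup (Fin 2) →* Multiplicative ℤ := FreeGroup.lift fun _ => Multiplicative.ofAdd 1
  have e1 : φ (FreeGroup.of i) ^ k = 1 := by rw [← _root_.map_pow, e, _root_.map_one]
  have e2 : φ (FreeGroup.of i) = Multiplicative.ofAdd 1 := FreeGroup.lift_apply_of
  rw [e2, ← ofAdd_nsmul] at e1
  have e3 : k • (1 : ℤ) = 0 := Multiplicative.ofAdd.injective e1
  simp at e3
  exact hk e3

/-- `F₂ × F₂` -/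
theorem split_F2F2 : Split (FreeGroup (Fin 2) × FreeGroup (Fin 2)) :=
  split_prod _ _ noMean_free noMean_free _ (free_pow_ne_one 0)

/-- every group containing `F₂ × F₂` -/
theorem split_of_F2F2 {Λ : Type} [Group Λ] (φ : FreeGroup (Fin 2) × FreeGroup (Fin 2) →* Λ)
    (hφ : Function.Injective φ) : Split Λ := split_F2F2.of_injective φ hφ

end Vale.Agent.P092.H200
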