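import Vale.Agent.P092.H200.InvMean
import Vale.Agent.P092.H350.BG

/-!
P092 (helper200), block T5: `SL_n(ℤ)`, `n ≥ 4`.
-/

namespace Vale.Agent.P092.H200

open Matrix

variable {n : ℕ}

/-- the elementary matrix `1 + c E_ij` as an element of `SL_n(ℤ)`. -/
def el (i j : Fin n) (h : i ≠ j) (c : ℤ) : SpecialLinearGroup (Fin n) ℤ :=
  ⟨transvection i j c, det_transvection_of_ne i j h c⟩

@[simp] theorem coe_el (i j : Fin n) (h : i ≠ j) (c : ℤ) :
    ((el i j h c : SpecialLinearGroup (Fin n) ℤ) : Matrix (Fin n) (Fin n) ℤ) =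
      transvection i j c := rfl

theorem el_zero (i j : Fin n) (h : i ≠ j) : el i j h 0 = 1 := by
  apply Subtype.ext; simp

theorem el_mul (i j : Fin n) (h : i ≠ j) (c d : ℤ) : el i j h c * el i j h d = el i j h (c + d) := by
  apply Subtype.ext
  exact transvection_mul_transvection_same i j h c d

theorem el_pow (i j : Fin n) (h : i ≠ j) (c : ℤ) (k : ℕ) : el i j h c ^ k = el i j h (k * c) := by
  induction k with
  | zero => simp [el_zero]
  | succ k ih => rw [pow_succ, ih, el_mul]; congr 1; push_cast; ring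

theorem el_comm {i j i' j' : Fin n} (h : i ≠ j) (h' : i' ≠ j') (h1 : j ≠ i') (h2 : j' ≠ i)
    (c d : ℤ) : el i j h c * el i' j' h' d = el i' j' h' d * el i j h c := by
  apply Subtype.ext
  show transvection i j c * transvection i' j' d = transvection i' j' d * transvection i j c
  simp only [transvection, add_mul, mul_add, one_mul, mul_one,
    single_mul_single_of_ne _ _ _ _ h1, single_mul_single_of_ne _ _ _ _ h2, add_zero]
  abel

theorem el_ne_one (i j : Fin n) (h : i ≠ j) {c : ℤ} (hc : c ≠ 0) : el i j h c ≠ 1 := by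
  intro e
  have e1 := congrArg (fun g : SpecialLinearGroup (Fin n) ℤ => (g : Matrix (Fin n) (Fin n) ℤ) i j) e
  simp [transvection, h] at e1
  exact hc e1

theorem el_pow_ne_one (i j : Fin n) (h : i ≠ j) (k : ℕ) (hk : k ≠ 0) : el i j h 1 ^ k ≠ 1 := by
  rw [el_pow]
  apply el_ne_one
  simpa using hk

/-- `SL_n(ℤ)` is generated by elementary matrices, `n ≥ 3`. -/
theorem closure_el (hn : 3 ≤ n) (S : Subgroup (SpecialLinearGroup (Fin n) ℤ))
    (hS : ∀ i j (h : i ≠ j) c, el i j h c ∈ S) : S = ⊤ := by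
  rw [eq_top_iff]
  intro g _
  obtain ⟨N, hN⟩ := H350.bounded_generation n hn
  obtain ⟨l, -, hl⟩ := hN g
  have : g = (l.map (fun t => el t.i t.j t.hij t.c)).prod := by
    apply Subtype.ext
    rw [← hl]
    have : ∀ l : List (TransvectionStruct (Fin n) ℤ),
        (l.map TransvectionStruct.toMatrix).prod =
        (((l.map (fun t => el t.i t.j t.hij t.c)).prod : SpecialLinearGroup (Fin n) ℤ) :
          Matrix (Fin n) (Fin n) ℤ) := by
      intro l
      induction l with
      | nil => simp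
      | cons t l ih => simp [ih, TransvectionStruct.toMatrix]
    exact this l
  rw [this]
  apply Subgroup.list_prod_mem
  intro x hx
  simp only [List.mem_map] at hx
  obtain ⟨t, -, rfl⟩ := hx
  exact hS _ _ _ _

/-- column `j` of `w`, as a real vector -/
def colr (w : SpecialLinearGroup (Fin n) ℤ) (j : Fin n) : Fin n → ℝ := fun i => ((w i j : ℤ) : ℝ)

theorem colr_ne_zero (w : SpecialLinearGroup (Fin n) ℤ) (j : Fin n) : colr w j ≠ 0 := by
  intro h
  have hd := w.det_coe
  rw [Matrix.det_eq_zero_of_column_eq_zero j] at hd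
  · exact zero_ne_one hd
  · intro i
    have := congrFun h i
    simpa [colr] using this

theorem colr_mul_el (w : SpecialLinearGroup (Fin n) ℤ) (i j : Fin n) (h : i ≠ j) (c : ℤ) :
    colr (w * el i j h c) j = colr w j + (c : ℝ) • colr w i ∧
      colr (w * el i j h c) i = colr w i := by
  constructor
  · ext a
    simp [colr, transvection, mul_add, Matrix.mul_single_eq_updateCol_zero]
  · ext a
    simp [colr, transvection, mul_add, Matrix.mul_single_eq_updateCol_zero, h]

/-- the norms of two vectors `q + s p`, `q + t p` cannot be both at most `‖p‖` if `|s - t| > 2`. -/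
theorem norm_aux {E : Type*} [NormedAddCommGroup E] [NormedSpace ℝ E] {p q : E} (hp : p ≠ 0)
    {s t : ℝ} (hst : 2 < |s - t|) (h1 : ‖q + s • p‖ ≤ ‖p‖)
    (h2 : ‖q + t • p‖ ≤ ‖p‖) : False := by
  have h3 : ‖(q + s • p) - (q + t • p)‖ ≤ ‖p‖ + ‖p‖ :=
    (norm_sub_le _ _).trans (add_le_add h1 h2)
  have h4 : (q + s • p) - (q + t • p) = (s - t) • p := by module
  rw [h4, norm_smul, Real.norm_eq_abs] at h3
  have hpos : 0 < ‖p‖ := norm_pos_iff.mpr hp
  nlinarith

theorem sep_aux (a : ℤ) (ha : a ≠ 0) {k l : ℕ} (hkl : k ≠ l) :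
    2 < |((a * (4 * k) : ℤ) : ℝ) - ((a * (4 * l) : ℤ) : ℝ)| := by
  rw [← Int.cast_sub, ← Int.cast_abs]
  have h1 : a * (4 * (k : ℤ)) - a * (4 * (l : ℤ)) = 4 * (a * ((k : ℤ) - l)) := by ring
  rw [h1, abs_mul]
  have h2 : 1 ≤ |a * ((k : ℤ) - l)| := by
    apply Int.one_le_abs
    apply mul_ne_zero ha
    omega
  have h3 : (4 : ℤ) ≤ |4| * |a * ((k : ℤ) - l)| := by
    rw [show |(4 : ℤ)| = 4 by norm_num]; omega
  have h4 : (4 : ℝ) ≤ ((|4| * |a * ((k : ℤ) - l)| : ℤ) : ℝ) := by exact_mod_cast h3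
  linarith

/-- no mean invariant under the elementary matrices with entries in `aℤ` of a block `{i, j}` -/
theorem no_mean_block_mul (i j : Fin n) (h : i ≠ j) (a : ℤ) (ha : a ≠ 0)
    (K : Subgroup (SpecialLinearGroup (Fin n) ℤ))
    (h1 : ∀ c, el i j h (a * c) ∈ K) (h2 : ∀ c, el j i h.symm (a * c) ∈ K) :
    ¬ ∃ m, IsInvMean K m := by
  rintro ⟨m, hm⟩
  refine hm.false_of_two {w | ‖colr w j‖ ≤ ‖colr w i‖} {w | ‖colr w i‖ ≤ ‖colr w j‖}
    (fun w => by simp only [Set.mem_ofPred_eq]; exact le_total _ _)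
    (fun k => el i j h (a * (4 * k))) (fun k => el j i h.symm (a * (4 * k)))
    (fun k => h1 _) (fun k => h2 _) ?_ ?_
  · intro k l hkl w hk hl
    simp only [Set.mem_ofPred_eq] at hk hl
    rw [(colr_mul_el w i j h _).1, (colr_mul_el w i j h _).2] at hk hl
    exact norm_aux (colr_ne_zero w i) (sep_aux a ha hkl) hk hl
  · intro k l hkl w hk hl
    simp only [Set.mem_ofPred_eq] at hk hl
    rw [(colr_mul_el w j i h.symm _).1, (colr_mul_el w j i h.symm _).2] at hk hl
    exact norm_aux (colr_ne_zero w j) (sep_aux a ha hkl) hk hl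

/-- no mean invariant under the elementary matrices of a block `{i, j}` -/
theorem no_mean_block (i j : Fin n) (h : i ≠ j) (K : Subgroup (SpecialLinearGroup (Fin n) ℤ))
    (h1 : ∀ c, el i j h c ∈ K) (h2 : ∀ c, el j i h.symm c ∈ K) : ¬ ∃ m, IsInvMean K m :=
  no_mean_block_mul i j h 1 one_ne_zero K (fun _ => h1 _) (fun _ => h2 _)

/-- **T5.** -/
theorem sln_hyp (n : ℕ) (hn : 4 ≤ n) :
    ∃ (x y : SpecialLinearGroup (Fin n) ℤ) (K : Subgroup (SpecialLinearGroup (Fin n) ℤ)),
      (∀ k : ℕ, k ≠ 0 → x ^ k ≠ 1) ∧ (∀ k : ℕ, k ≠ 0 → y ^ k ≠ 1) ∧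
      (∀ v ∈ K, v * x = x * v) ∧ (∀ v ∈ K, v * y = y * v) ∧
      Subgroup.closure ({v | v * x = x * v} ∪ {v | v * y = y * v}) = ⊤ ∧
      ¬ ∃ m, IsInvMean K m := by
  let i0 : Fin n := ⟨0, by omega⟩
  let i1 : Fin n := ⟨1, by omega⟩
  let i2 : Fin n := ⟨2, by omega⟩
  let i3 : Fin n := ⟨3, by omega⟩
  have h03 : i0 ≠ i3 := by simp [i0, i3]
  have h12 : i1 ≠ i2 := by simp [i1, i2]
  have h01 : i0 ≠ i1 := by simp [i0, i1]
  have h02 : i0 ≠ i2 := by simp [i0, i2]
  have h13 : i1 ≠ i3 := by simp [i1, i3]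
  have h23 : i2 ≠ i3 := by simp [i2, i3]
  refine ⟨el i0 i3 h03 1, el i3 i0 h03.symm 1,
    Subgroup.centralizer {el i0 i3 h03 1, el i3 i0 h03.symm 1},
    el_pow_ne_one _ _ _, el_pow_ne_one _ _ _, ?_, ?_, ?_, ?_⟩
  · intro v hv
    rw [Subgroup.mem_centralizer_iff] at hv
    exact (hv _ (by simp)).symm
  · intro v hv
    rw [Subgroup.mem_centralizer_iff] at hv
    exact (hv _ (by simp)).symm
  · apply closure_el (by omega)
    intro i j h c
    apply Subgroup.subset_closure
    by_cases hx : j ≠ i0 ∧ i3 ≠ i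
    · left
      exact el_comm h h03 hx.1 hx.2 c 1
    · right
      have hy : j ≠ i3 ∧ i0 ≠ i := by
        by_cases hj : j = i0
        · subst hj
          exact ⟨h03, fun e => h e.symm⟩
        · have hi : i3 = i := by
            by_contra hi
            exact hx ⟨hj, hi⟩
          subst hi
          exact ⟨fun e => h e.symm, h03⟩
      exact el_comm h h03.symm hy.1 hy.2 c 1
  · refine no_mean_block i1 i2 h12 _ ?_ ?_
    · intro c
      rw [Subgroup.mem_centralizer_iff]
      rintro g (rfl | rfl)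
      · exact el_comm h03 h12 h13.symm h02.symm 1 c
      · exact el_comm h03.symm h12 h01 h23 1 c
    · intro c
      rw [Subgroup.mem_centralizer_iff]
      rintro g (rfl | rfl)
      · exact el_comm h03 h12.symm h23.symm h01.symm 1 c
      · exact el_comm h03.symm h12.symm h02 h13 1 c

end Vale.Agent.P092.H200
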