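import Vale.Agent.P092.H200.TA3
import Vale.Agent.P092.H729.TA2
import Vale.Agent.P092.H432.TA.Min

/-!
# Theorem A of Project B, blocks TA-2 and TA-3 together: the cover of a minimal projection is a
central atom with source stabiliser in `cA`
-/

set_option autoImplicit false

namespace Vale.Agent.P092.H200.TA3

open scoped InnerProductSpace
open Vale.Agent.P092.H432.TA
open Vale.Agent.P092.H729

variable {H : Type*} [NormedAddCommGroup H] [InnerProductSpace ℂ H] [CompleteSpace H]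
variable {A B : Type*} [Group A] [Group B]
variable {S : A →* (H →L[ℂ] H)} {R : B →* (H →L[ℂ] H)} {W : Set (H →L[ℂ] H)}
variable {cA : Set (Subgroup A)} {cB : Set (Subgroup B)}

/-- the norm `‖e (R b⁻¹ ξ)‖` depends only on the coset of `b` -/
theorem norm_coset (h : Sys S R W) {V : Subgroup B} {e : H →L[ℂ] H}
    (hc : ∀ b ∈ V, R b * e = e * R b) {b b' : B} (hb : b⁻¹ * b' ∈ V) (ξ : H) :
    ‖e (R b'⁻¹ ξ)‖ = ‖e (R b⁻¹ ξ)‖ := by
  have h1 : b'⁻¹ = (b⁻¹ * b')⁻¹ * b⁻¹ := by group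
  have h2 : R b'⁻¹ ξ = R (b⁻¹ * b')⁻¹ (R b⁻¹ ξ) := by
    have h3 : R b'⁻¹ = R (b⁻¹ * b')⁻¹ * R b⁻¹ := by rw [← map_mul, ← h1]
    rw [h3]
    rfl
  have h3 : e (R (b⁻¹ * b')⁻¹ (R b⁻¹ ξ)) = R (b⁻¹ * b')⁻¹ (e (R b⁻¹ ξ)) :=
    congrArg (fun T : H →L[ℂ] H => T (R b⁻¹ ξ)) (hc _ (V.inv_mem hb)).symm
  rw [h2, h3, norm_S (sys_swap h)]

/-- `R`-finiteness passes to a subgroup of finite index -/
theorem rfin_level (h : Sys S R W) {V V1 : Subgroup B} (hle : V1 ≤ V)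
    (hfi : V1.relIndex V ≠ 0) {e : H →L[ℂ] H} (hc : ∀ b ∈ V, R b * e = e * R b)
    (hR : RFin R V e) : RFin R V1 e := by
  classical
  obtain ⟨C, hC⟩ := hR
  have hfi' : (V1.subgroupOf V).FiniteIndex := ⟨hfi⟩
  have : Fintype (V ⧸ V1.subgroupOf V) := Subgroup.fintypeQuotientOfFiniteIndex
  set ε := Subgroup.quotientEquivProdOfLE hle with hε
  have hfst : ∀ q : B ⧸ V1, (((q.out : B) : B ⧸ V)) = (ε q).1 := by
    intro q
    have h1 : q = ((q.out : B) : B ⧸ V1) := (QuotientGroup.out_eq' q).symm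
    conv_rhs => rw [h1]
    rfl
  have hn : ∀ (q : B ⧸ V1) ξ, ‖e (R q.out⁻¹ ξ)‖ = ‖e (R (ε q).1.out⁻¹ ξ)‖ := by
    intro q ξ
    refine norm_coset h hc ?_ ξ
    rw [← QuotientGroup.eq, QuotientGroup.out_eq']
    exact (hfst q).symm
  refine ⟨Fintype.card (V ⧸ V1.subgroupOf V) * C, fun F ξ => ?_⟩
  set G : Finset (B ⧸ V) := F.image fun q => (ε q).1 with hG
  calc ∑ q ∈ F, ‖e (R q.out⁻¹ ξ)‖ ^ 2
      = ∑ q ∈ F, ‖e (R (ε q).1.out⁻¹ ξ)‖ ^ 2 := Finset.sum_congr rfl fun q _ => by rw [hn]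
    _ = ∑ p ∈ F.map ε.toEmbedding, ‖e (R p.1.out⁻¹ ξ)‖ ^ 2 := by
        rw [Finset.sum_map]
        rfl
    _ ≤ ∑ p ∈ G ×ˢ (Finset.univ : Finset (V ⧸ V1.subgroupOf V)), ‖e (R p.1.out⁻¹ ξ)‖ ^ 2 := by
        refine Finset.sum_le_sum_of_subset_of_nonneg ?_ fun _ _ _ => sq_nonneg _
        intro p hp
        obtain ⟨q, hq, rfl⟩ := Finset.mem_map.1 hp
        exact Finset.mem_product.2 ⟨Finset.mem_image.2 ⟨q, hq, rfl⟩, Finset.mem_univ _⟩
    _ = Fintype.card (V ⧸ V1.subgroupOf V) * ∑ q ∈ G, ‖e (R q.out⁻¹ ξ)‖ ^ 2 := by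
        rw [Finset.sum_product, Finset.mul_sum]
        refine Finset.sum_congr rfl fun q _ => ?_
        change ∑ _y : V ⧸ V1.subgroupOf V, ‖e (R q.out⁻¹ ξ)‖ ^ 2 = _
        rw [Finset.sum_const, Finset.card_univ, nsmul_eq_mul]
    _ ≤ Fintype.card (V ⧸ V1.subgroupOf V) * (C * ‖ξ‖ ^ 2) :=
        mul_le_mul_of_nonneg_left (hC G ξ) (Nat.cast_nonneg _)
    _ = _ := by ring

/-- **TA-3**, final form -/
theorem not_top (hA : GIn cA) (hB : GIn cB) (h : Sys S R W) (hE : Erg S R W cA cB)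
    {V : Subgroup B} (hV : V ∈ cB) {e : H →L[ℂ] H} (he : MinP S R W cA V e) (hR : RFin R V e) :
    cov (QV S R W cA V) e ≠ 1 := by
  refine ta3 hA hB h hE hV he hR ?_
  intro V1 hV1 hle
  obtain ⟨Ue, hUe, heQ⟩ := he.mem
  obtain ⟨U, hU, -, h1⟩ := corner_level h hA hE.E1 (V := V1) (p := e)
    ⟨Ue, hUe, Q_mono le_rfl hle heQ⟩ he.prj
    (rfin_level h hle (hB.g0 V1 hV1 V hV) heQ.2.1 hR)
  exact ⟨U, hU, h1⟩

/-- **TA-2 + TA-3**: the cover of an `R`-finite minimal projection is a central atom. -/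
theorem catom (hA : GIn cA) (hB : GIn cB) (h : Sys S R W) (hE : Erg S R W cA cB)
    {V : Subgroup B} (hV : V ∈ cB) {e : H →L[ℂ] H} (he : MinP S R W cA V e) (hR : RFin R V e) :
    ∃ U, CAtom S R W cA V U (cov (QV S R W cA V) e) := by
  refine catom_of_min h hA (hE.E2 V hV) he hR ?_
  intro hcon
  refine not_top hA hB h hE hV he hR ?_
  obtain ⟨Ue, hUe, heQ⟩ := he.mem
  have hzQ : cov (QV S R W cA V) e ∈ Q S R W Ue V := cover_mem h hA heQ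
  have hzT : cov (QV S R W cA V) e ∈ Q S R W ⊤ V :=
    ⟨fun a _ => cj_eq_iff.1 (hcon a), hzQ.2.1, hzQ.2.2⟩
  obtain ⟨c, hc⟩ := hE.E2 V hV _ hzT
  exact scalar_eq_one cov_prj (cov_ne_zero (qv_one hA) he.ne) hc

/-- from a nonzero `R`-finite projection of `𝒬^V`: a central atom -/
theorem exists_catom (hA : GIn cA) (hB : GIn cB) (h : Sys S R W) (hE : Erg S R W cA cB)
    {V : Subgroup B} (hV : V ∈ cB) {p : H →L[ℂ] H} (hp : p ∈ QV S R W cA V) (hpp : Prj p)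
    (hne : p ≠ 0) (hR : RFin R V p) :
    ∃ e U, MinP S R W cA V e ∧ p * e = e ∧ RFin R V e ∧
      CAtom S R W cA V U (cov (QV S R W cA V) e) := by
  obtain ⟨e, he, hpe, hRe⟩ := exists_minP h hA hE.E1 hp hpp hne hR
  obtain ⟨U, hU⟩ := catom hA hB h hE hV he hRe
  exact ⟨e, U, he, hpe, hRe, hU⟩

/-- the same at every smaller target level -/
theorem exists_catom' (hA : GIn cA) (hB : GIn cB) (h : Sys S R W) (hE : Erg S R W cA cB)
    {V : Subgroup B} (hV : V ∈ cB) {p : H →L[ℂ] H} (hp : p ∈ QV S R W cA V) (hpp : Prj p)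
    (hne : p ≠ 0) (hR : RFin R V p) {V1 : Subgroup B} (hV1 : V1 ∈ cB) (hle : V1 ≤ V) :
    ∃ e U, MinP S R W cA V1 e ∧ p * e = e ∧ RFin R V1 e ∧
      CAtom S R W cA V1 U (cov (QV S R W cA V1) e) := by
  obtain ⟨Up, hUp, hpQ⟩ := hp
  exact exists_catom hA hB h hE hV1 ⟨Up, hUp, Q_mono le_rfl hle hpQ⟩ hpp hne
    (rfin_level h hle (hB.g0 V1 hV1 V hV) hpQ.2.1 hR)

end Vale.Agent.P092.H200.TA3
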