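import Vale.Agent.P092.H200.ELn
import Vale.Agent.P092.H200.FinInd

/-!
P092 (helper200): groups with two elements of infinite order whose centralizers generate a subgroup of
finite index and have nonamenable intersection (`TwoData`); finite-index subgroups of `SL_n(ℤ)`,
`n ≥ 4`.
-/

namespace Vale.Agent.P092.H200

open Matrix

/-- The elements of `Λ` commuting with all elements of `A`. -/
abbrev cent {Λ : Type} [Group Λ] (A : Subgroup Λ) : Subgroup Λ :=
  Subgroup.centralizer (A : Set Λ)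

/-- `K` is not amenable, in the form: no finitely additive probability measure on the subsets of
`Λ` is invariant under right multiplication by `K`. -/
def NoMean {Λ : Type} [Group Λ] (K : Subgroup Λ) : Prop := ¬ ∃ m, IsInvMean K m

theorem NoMean.mono {Λ : Type} [Group Λ] {K K' : Subgroup Λ} (h : K ≤ K') (hK : NoMean K) :
    NoMean K' := fun ⟨_, hm⟩ => hK ⟨_, hm.mono_subgroup h⟩

/-- `K` has no right invariant mean iff there is no right `K`-invariant mean on `Λ`. -/
theorem noMean_iff {Λ : Type} [Group Λ] (K : Subgroup Λ) :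
    NoMean K ↔ ¬ ∃ m, IsInvMean (⊤ : Subgroup K) m :=
  ⟨no_mean_top K, no_mean_of_top K⟩

/-- injective images of nonamenable groups -/
theorem NoMean.map {Λ Λ' : Type} [Group Λ] [Group Λ'] (φ : Λ →* Λ') (hφ : Function.Injective φ)
    {K : Subgroup Λ} (hK : NoMean K) : NoMean (K.map φ) := by
  refine no_mean_of_inj (φ.comp K.subtype) (hφ.comp K.subtype_injective) (no_mean_top K hK) _ ?_
  intro v
  exact ⟨v, v.2, rfl⟩

/-- Two elements of infinite order whose centralizers generate a subgroup of finite index and have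
nonamenable intersection. -/
def TwoData (Λ : Type) [Group Λ] : Prop :=
  ∃ (x y : Λ) (K : Subgroup Λ),
    (∀ k : ℕ, k ≠ 0 → x ^ k ≠ 1) ∧ (∀ k : ℕ, k ≠ 0 → y ^ k ≠ 1) ∧
    (∀ v ∈ K, v * x = x * v) ∧ (∀ v ∈ K, v * y = y * v) ∧
    (Subgroup.closure ({v | v * x = x * v} ∪ {v | v * y = y * v})).FiniteIndex ∧ NoMean K

/-- `SL_n(ℤ)`, `n ≥ 4`. -/
theorem twoData_sl (n : ℕ) (hn : 4 ≤ n) : TwoData (SpecialLinearGroup (Fin n) ℤ) := by
  obtain ⟨x, y, K, hx, hy, hKx, hKy, hcl, hK⟩ := sln_hyp n hn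
  refine ⟨x, y, K, hx, hy, hKx, hKy, ?_, hK⟩
  rw [hcl]
  infer_instance

/-- `EL_n(R)`, `n ≥ 4`, `R` any ring of characteristic zero. -/
theorem twoData_EL (n : ℕ) (hn : 4 ≤ n) (R : Type) [Ring R] [CharZero R] : TwoData (EL n R) := by
  obtain ⟨x, y, K, hx, hy, hKx, hKy, hcl, hK⟩ := eln_hyp (R := R) hn
  refine ⟨x, y, K, hx, hy, hKx, hKy, ?_, hK⟩
  rw [hcl]
  infer_instance

/-- some multiple: all `e_ij(q c)` lie in a given subgroup of finite index -/
theorem exists_Elq_le {n : ℕ} (Λ : Subgroup (SpecialLinearGroup (Fin n) ℤ)) [hΛ : Λ.FiniteIndex] :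
    ∃ q : ℤ, q ≠ 0 ∧ Elq n q ≤ Λ := by
  refine ⟨(Λ.normalCore.index : ℤ), ?_, ?_⟩
  · have : Λ.normalCore.FiniteIndex := inferInstance
    exact_mod_cast this.index_ne_zero
  · refine (Subgroup.closure_le _).mpr ?_
    rintro g ⟨i, j, h, c, rfl⟩
    have h1 : el i j h c ^ Λ.normalCore.index ∈ Λ.normalCore := Subgroup.pow_index_mem _ _
    rw [el_pow] at h1
    exact Subgroup.normalCore_le _ h1

/-- **all finite-index subgroups of `SL_n(ℤ)`, `n ≥ 4`.** -/
theorem twoData_finiteIndex (n : ℕ) (hn : 4 ≤ n) (Λ : Subgroup (SpecialLinearGroup (Fin n) ℤ))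
    [hΛ : Λ.FiniteIndex] : TwoData Λ := by
  obtain ⟨q, hq, hqΛ⟩ := exists_Elq_le Λ
  let i0 : Fin n := ⟨0, by omega⟩
  let i1 : Fin n := ⟨1, by omega⟩
  let i2 : Fin n := ⟨2, by omega⟩
  let i3 : Fin n := ⟨3, by omega⟩
  have h03 : i0 ≠ i3 := by simp [i0, i3]
  have h12 : i1 ≠ i2 := by simp [i1, i2]
  have h01 : i0 ≠ i1 := by simp [i0, i1]
  have h02 : i0 ≠ i2 := by simp [i0, i2]
  have h13 : i1 ≠ i3 := by simp [i1, i3]
  have h23 : i2 ≠ i3 := by simp [i2, i3]
  have hm : ∀ i j (h : i ≠ j) (c : ℤ), q ∣ c → el i j h c ∈ Λ :=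
    fun i j h c hc => hqΛ (el_mem_Elq' i j h hc)
  let e : ∀ i j (_ : i ≠ j) (c : ℤ), Λ := fun i j h c => ⟨el i j h (q * c), hm i j h _ (Dvd.intro _ rfl)⟩
  have ecomm : ∀ {i j i' j' : Fin n} (h : i ≠ j) (h' : i' ≠ j') (_ : j ≠ i') (_ : j' ≠ i)
      (c d : ℤ), e i j h c * e i' j' h' d = e i' j' h' d * e i j h c :=
    fun h h' h1 h2 c d => Subtype.ext (el_comm h h' h1 h2 _ _)
  have hinf : ∀ i j (h : i ≠ j) (k : ℕ), k ≠ 0 → e i j h 1 ^ k ≠ 1 := by
    intro i j h k hk e1
    have e2 : el i j h (q * 1) ^ k = 1 := congrArg Subtype.val e1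
    rw [el_pow] at e2
    exact el_ne_one i j h (by simp [hk, hq]) e2
  refine ⟨e i0 i3 h03 1, e i3 i0 h03.symm 1,
    Subgroup.centralizer {e i0 i3 h03 1, e i3 i0 h03.symm 1}, hinf _ _ _, hinf _ _ _,
    ?_, ?_, ?_, ?_⟩
  · intro v hv
    rw [Subgroup.mem_centralizer_iff] at hv
    exact (hv _ (by simp)).symm
  · intro v hv
    rw [Subgroup.mem_centralizer_iff] at hv
    exact (hv _ (by simp)).symm
  · -- the centralizers generate a group containing `Elq q`
    have h1 : (Elq n q).subgroupOf Λ ≤ Subgroup.closure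
        ({v | v * e i0 i3 h03 1 = e i0 i3 h03 1 * v} ∪
          {v | v * e i3 i0 h03.symm 1 = e i3 i0 h03.symm 1 * v}) := by
      have h2 : Elq n q ≤ (Subgroup.closure
        ({v | v * e i0 i3 h03 1 = e i0 i3 h03 1 * v} ∪
          {v | v * e i3 i0 h03.symm 1 = e i3 i0 h03.symm 1 * v})).map Λ.subtype := by
        refine (Subgroup.closure_le _).mpr ?_
        rintro g ⟨i, j, h, c, rfl⟩
        refine ⟨e i j h c, Subgroup.subset_closure ?_, rfl⟩
        by_cases hx : j ≠ i0 ∧ i3 ≠ i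
        · left
          exact ecomm h h03 hx.1 hx.2 c 1
        · right
          have hy : j ≠ i3 ∧ i0 ≠ i := by
            by_cases hj : j = i0
            · subst hj
              exact ⟨h03, fun e => h e.symm⟩
            · have hi : i3 = i := by
                by_contra hi
                exact hx ⟨hj, hi⟩
              subst hi
              exact ⟨fun e => h e.symm, h03⟩
          exact ecomm h h03.symm hy.1 hy.2 c 1
      intro v hv
      obtain ⟨w, hw, hw'⟩ := h2 (Subgroup.mem_subgroupOf.mp hv)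
      have : w = v := Subtype.ext hw'
      exact this ▸ hw
    have := Elq_finiteIndex (n := n) (by omega) q hq
    exact Subgroup.finiteIndex_of_le h1
  · -- nonamenability
    let K := Subgroup.centralizer {e i0 i3 h03 1, e i3 i0 h03.symm 1}
    have key : NoMean (K.map Λ.subtype) := by
      refine no_mean_block_mul i1 i2 h12 q hq _ ?_ ?_
      · intro c
        refine ⟨e i1 i2 h12 c, ?_, rfl⟩
        show e i1 i2 h12 c ∈ Subgroup.centralizer _
        rw [Subgroup.mem_centralizer_iff]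
        rintro g (rfl | rfl)
        · exact ecomm h03 h12 h13.symm h02.symm 1 c
        · exact ecomm h03.symm h12 h01 h23 1 c
      · intro c
        refine ⟨e i2 i1 h12.symm c, ?_, rfl⟩
        show e i2 i1 h12.symm c ∈ Subgroup.centralizer _
        rw [Subgroup.mem_centralizer_iff]
        rintro g (rfl | rfl)
        · exact ecomm h03 h12.symm h23.symm h01.symm 1 c
        · exact ecomm h03.symm h12.symm h02 h13 1 c
    intro ⟨m, hm⟩
    exact key ⟨_, hm.image Λ.subtype⟩

end Vale.Agent.P092.H200
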